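import Mathlib.Probability.Distributions.Gaussian.Multivariate
import Mathlib.Probability.Independence.Integration
import Mathlib.Analysis.SpecialFunctions.Gaussian.GaussianIntegral

/-!
Exponential tail bounds for weighted sums of squares of standard Gaussian coordinates (P262).
-/

namespace Vale.Agent.P262

open MeasureTheory ProbabilityTheory Real

lemma integral_exp_sq_gaussianReal {s : ℝ} (hs : 0 ≤ s) (hs' : s ≤ 1 / 4) :
    ∫⁻ x, ENNReal.ofReal (exp (s * x ^ 2)) ∂(gaussianReal 0 1) ≤ ENNReal.ofReal (exp (2 * s)) := by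
  rw [gaussianReal_of_var_ne_zero 0 one_ne_zero,
    lintegral_withDensity_eq_lintegral_mul _ (measurable_gaussianPDF 0 1) (by fun_prop)]
  have hb : 0 < (1 / 2 - s : ℝ) := by linarith
  have h1 : ∀ x : ℝ, (gaussianPDF 0 1 * fun x => ENNReal.ofReal (exp (s * x ^ 2))) x
      = ENNReal.ofReal ((√(2 * π))⁻¹ * exp (-(1 / 2 - s) * x ^ 2)) := by
    intro x
    rw [Pi.mul_apply, gaussianPDF_def]
    simp only
    rw [← ENNReal.ofReal_mul (gaussianPDFReal_nonneg _ _ _), gaussianPDFReal_def]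
    congr 1
    simp only [NNReal.coe_one, mul_one, sub_zero]
    rw [mul_assoc, ← exp_add]
    congr 2
    ring
  simp_rw [h1]
  rw [← ofReal_integral_eq_lintegral_ofReal ((integrable_exp_neg_mul_sq hb).const_mul _)
    (Filter.Eventually.of_forall fun x => by positivity)]
  apply ENNReal.ofReal_le_ofReal
  rw [integral_const_mul, integral_gaussian]
  rw [← Real.sqrt_inv, ← Real.sqrt_mul (by positivity)]
  rw [Real.sqrt_le_iff]
  refine ⟨(exp_pos _).le, ?_⟩
  have h2 : (2 * π)⁻¹ * (π / (1 / 2 - s)) = 1 / (1 - 2 * s) := by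
    have : π ≠ 0 := pi_ne_zero
    have : (1 / 2 - s : ℝ) ≠ 0 := hb.ne'
    field_simp
  rw [h2, sq, ← exp_add, div_le_iff₀ (by linarith)]
  have := add_one_le_exp (2 * s + 2 * s)
  nlinarith

variable {κ : Type*} [Fintype κ]

lemma lintegral_exp_quad (a : κ → ℝ) (ha : ∀ i, 0 ≤ a i ∧ a i ≤ 1 / 4) :
    ∫⁻ x, ENNReal.ofReal (exp (∑ i, a i * (x i) ^ 2)) ∂(Measure.pi fun _ : κ => gaussianReal 0 1)
      ≤ ENNReal.ofReal (exp (∑ i, 2 * a i)) := by
  classical
  have h : ∀ x : κ → ℝ, ENNReal.ofReal (exp (∑ i, a i * (x i) ^ 2))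
      = ∏ i, ENNReal.ofReal (exp (a i * (x i) ^ 2)) := by
    intro x
    rw [exp_sum, ENNReal.ofReal_prod_of_nonneg fun i _ => (exp_pos _).le]
  simp_rw [h]
  have hind := iIndepFun_pi (μ := fun _ : κ => gaussianReal 0 1)
    (X := fun i t => ENNReal.ofReal (exp (a i * t ^ 2))) (fun i => by fun_prop)
  rw [lintegral_prod_eq_prod_lintegral_of_indepFun Finset.univ _ hind (fun i => by fun_prop)]
  have he : ∀ i : κ, ∫⁻ x, ENNReal.ofReal (exp (a i * (x i) ^ 2))
        ∂(Measure.pi fun _ : κ => gaussianReal 0 1)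
      = ∫⁻ t, ENNReal.ofReal (exp (a i * t ^ 2)) ∂(gaussianReal 0 1) := fun i =>
    (measurePreserving_eval (fun _ : κ => gaussianReal 0 1) i).lintegral_comp
      (f := fun t => ENNReal.ofReal (exp (a i * t ^ 2))) (by fun_prop)
  simp only [he]
  calc ∏ i, ∫⁻ t, ENNReal.ofReal (exp (a i * t ^ 2)) ∂(gaussianReal 0 1)
      ≤ ∏ i, ENNReal.ofReal (exp (2 * a i)) :=
        Finset.prod_le_prod' fun i _ => integral_exp_sq_gaussianReal (ha i).1 (ha i).2
    _ = _ := by rw [exp_sum, ENNReal.ofReal_prod_of_nonneg fun i _ => (exp_pos _).le]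

/-- Chernoff bound for weighted squares of Gaussian coordinates. -/
theorem gauss_tail (S : Finset κ) (c : κ → ℝ) (hc : ∀ i ∈ S, 0 ≤ c i ∧ c i ≤ 1) (t : ℝ) :
    stdGaussian (EuclideanSpace ℝ κ) {x | t < ∑ i ∈ S, c i * (x i) ^ 2}
      ≤ ENNReal.ofReal (exp ((∑ i ∈ S, c i) / 2 - t / 4)) := by
  classical
  rw [← map_pi_eq_stdGaussian, Measure.map_apply (by fun_prop)
    (measurableSet_lt measurable_const (by fun_prop))]
  obtain ⟨a, ha⟩ : ∃ a : κ → ℝ, a = fun i => if i ∈ S then c i / 4 else 0 := ⟨_, rfl⟩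
  have ha' : ∀ i, 0 ≤ a i ∧ a i ≤ 1 / 4 := by
    intro i
    simp only [ha]
    split_ifs with h
    · have := hc i h; constructor <;> linarith
    · norm_num
  have hsum : ∀ x : κ → ℝ, ∑ i, a i * (x i) ^ 2 = (∑ i ∈ S, c i * (x i) ^ 2) / 4 := by
    intro x
    simp only [ha, ite_mul, zero_mul, Finset.sum_ite_mem, Finset.univ_inter]
    rw [Finset.sum_div]
    exact Finset.sum_congr rfl fun i _ => by ring
  have h2 : ∑ i, 2 * a i = (∑ i ∈ S, c i) / 2 := by
    simp only [ha, mul_ite, mul_zero, Finset.sum_ite_mem, Finset.univ_inter]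
    rw [Finset.sum_div]
    exact Finset.sum_congr rfl fun i _ => by ring
  set μ := Measure.pi fun _ : κ => gaussianReal 0 1
  have key := lintegral_exp_quad a ha'
  rw [h2] at key
  have step : ENNReal.ofReal (exp (t / 4)) *
      μ ((WithLp.toLp 2) ⁻¹' {x : EuclideanSpace ℝ κ | t < ∑ i ∈ S, c i * (x i) ^ 2})
      ≤ ∫⁻ x, ENNReal.ofReal (exp (∑ i, a i * (x i) ^ 2)) ∂μ := by
    refine le_trans ?_ (mul_meas_ge_le_lintegral (μ := μ) (by fun_prop) (ENNReal.ofReal (exp (t / 4))))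
    gcongr
    intro x hx
    simp only [Set.mem_ofPred_eq, Set.mem_preimage] at hx ⊢
    rw [hsum]
    exact ENNReal.ofReal_le_ofReal (exp_le_exp.2 (by linarith))
  have hpos : ENNReal.ofReal (exp (t / 4)) ≠ 0 := by simp [exp_pos]
  have h3 := le_trans step key
  rw [mul_comm, ← ENNReal.le_div_iff_mul_le (Or.inl hpos) (Or.inl ENNReal.ofReal_ne_top),
    ← ENNReal.ofReal_div_of_pos (exp_pos _), ← exp_sub] at h3
  exact h3

end Vale.Agent.P262
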