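import Vale.Agent.P262.Step
import Mathlib.Analysis.LocallyConvex.Separation
import Mathlib.Data.Fin.Tuple.Sort
import Mathlib.Algebra.BigOperators.Group.Finset.Basic
import Mathlib.Analysis.Normed.Module.Basic

/-!
Signing with checkpoints, rounding, and ordered partition into groups (P262).
-/

namespace Vale.Agent.P262

open MeasureTheory ProbabilityTheory
open scoped Pointwise

variable {E : Type*} [NormedAddCommGroup E] [InnerProductSpace ℝ E]
  [FiniteDimensional ℝ E] [MeasurableSpace E] [BorelSpace E]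

/-- A body usable for `M` simultaneous constraints. -/
structure GoodBody (K : Set E) (M : ℕ) : Prop where
  convex : Convex ℝ K
  closed : IsClosed K
  symm : ∀ x ∈ K, -x ∈ K
  absorb : ∃ r : ℝ, 0 < r ∧ Metric.closedBall (0 : E) r ⊆ K
  measure : stdGaussian E Kᶜ ≤ ENNReal.ofReal (1 / (4096 * (M : ℝ)))

lemma GoodBody.zero_mem {K : Set E} {M : ℕ} (hK : GoodBody K M) : (0 : E) ∈ K := by
  obtain ⟨r, hr, hsub⟩ := hK.absorb
  exact hsub (Metric.mem_closedBall_self hr.le)

lemma GoodBody.mono {K : Set E} {M M' : ℕ} (hK : GoodBody K M) (h1 : 1 ≤ M') (h : M' ≤ M) :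
    GoodBody K M' := by
  refine ⟨hK.convex, hK.closed, hK.symm, hK.absorb, hK.measure.trans ?_⟩
  apply ENNReal.ofReal_le_ofReal
  gcongr

lemma GoodBody.add_mem {K : Set E} {M : ℕ} (hK : GoodBody K M) {p q : ℝ} (hp : 0 ≤ p)
    (hq : 0 ≤ q) {x y : E} (hx : x ∈ p • K) (hy : y ∈ q • K) : x + y ∈ (p + q) • K := by
  rw [hK.convex.add_smul hp hq]
  exact Set.add_mem_add hx hy

lemma GoodBody.mono_smul {K : Set E} {M : ℕ} (hK : GoodBody K M) {p q : ℝ} (hp : 0 ≤ p)
    (h : p ≤ q) {x : E} (hx : x ∈ p • K) : x ∈ q • K := by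
  have hz : (0 : E) ∈ (q - p) • K := ⟨0, hK.zero_mem, smul_zero _⟩
  have := hK.add_mem hp (sub_nonneg.2 h) hx hz
  simpa using this

lemma GoodBody.smul_mem {K : Set E} {M : ℕ} (hK : GoodBody K M) {p c : ℝ} (hp : 0 ≤ p)
    {x : E} (hx : x ∈ p • K) : c • x ∈ (|c| * p) • K := by
  obtain ⟨k, hk, rfl⟩ := hx
  rcases le_or_gt 0 c with hc | hc
  · exact ⟨k, hk, by simp [abs_of_nonneg hc, smul_smul]⟩
  · exact ⟨-k, hK.symm k hk, by simp [abs_of_neg hc, smul_smul]⟩

lemma GoodBody.neg_mem {K : Set E} {M : ℕ} (hK : GoodBody K M) {p : ℝ} {x : E}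
    (hx : x ∈ p • K) : -x ∈ p • K := by
  obtain ⟨k, hk, rfl⟩ := hx
  exact ⟨-k, hK.symm k hk, smul_neg _ _⟩

/-- Every radius is eventually enough. -/
lemma GoodBody.exists_absorb {K : Set E} {M : ℕ} (hK : GoodBody K M) (A : ℝ) :
    ∃ B : ℝ, 1 ≤ B ∧ ∀ x : E, ‖x‖ ≤ A → x ∈ B • K := by
  obtain ⟨r, hr, hsub⟩ := hK.absorb
  refine ⟨max 1 (A / r), le_max_left _ _, fun x hx => ?_⟩
  have hB : (0 : ℝ) < max 1 (A / r) := lt_of_lt_of_le one_pos (le_max_left _ _)
  refine ⟨(max 1 (A / r))⁻¹ • x, hsub ?_, smul_inv_smul₀ hB.ne' x⟩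
  rw [Metric.mem_closedBall, dist_zero_right, norm_smul, Real.norm_eq_abs, abs_inv, abs_of_pos hB,
    inv_mul_le_iff₀ hB]
  refine hx.trans ?_
  rw [← div_le_iff₀ hr]
  exact le_max_right _ _

lemma exists_ball_measure_compl_le {δ : ℝ} (hδ : 0 < δ) :
    ∃ R : ℝ, stdGaussian E (Metric.closedBall (0 : E) R)ᶜ ≤ ENNReal.ofReal δ := by
  have hanti : Antitone fun n : ℕ => (Metric.closedBall (0 : E) n)ᶜ := fun a c hac =>
    Set.compl_subset_compl.2 (Metric.closedBall_subset_closedBall (by exact_mod_cast hac))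
  have hinter : (⋂ n : ℕ, (Metric.closedBall (0 : E) n)ᶜ) = ∅ := by
    ext x
    simp only [Set.mem_iInter, Set.mem_compl_iff, Metric.mem_closedBall, dist_zero_right,
      Set.mem_empty_iff_false, iff_false, not_forall, not_not]
    exact ⟨⌈‖x‖⌉₊, Nat.le_ceil _⟩
  have h := tendsto_measure_iInter_atTop (μ := stdGaussian E)
    (fun n : ℕ => (Metric.isClosed_closedBall.measurableSet.compl).nullMeasurableSet) hanti
    ⟨0, measure_ne_top _ _⟩
  rw [hinter, measure_empty] at h
  obtain ⟨n, hn⟩ := Filter.eventually_atTop.1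
    ((ENNReal.tendsto_nhds_zero.1 h) (ENNReal.ofReal δ) (by simpa using hδ))
  exact ⟨n, hn n le_rfl⟩

lemma zero_mem_of_measure {C : Set E} (hc : Convex ℝ C) (hcl : IsClosed C)
    (h : stdGaussian E Cᶜ ≤ ENNReal.ofReal (1 / 512)) : (0 : E) ∈ C := by
  by_contra h0
  obtain ⟨f, u, hf, hu⟩ := geometric_hahn_banach_closed_point hc hcl h0
  rw [map_zero] at hu
  let A : Set E := {x | 0 ≤ f x}
  have hA : A ⊆ Cᶜ := fun x hx hxC => by
    have := hf x hxC
    simp only [A, Set.mem_ofPred_eq] at hx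
    linarith
  have hAm : MeasurableSet A := measurableSet_le measurable_const f.continuous.measurable
  have hneg : stdGaussian E ((LinearIsometryEquiv.neg ℝ (E := E)) ⁻¹' A) = stdGaussian E A := by
    conv_rhs => rw [← stdGaussian_map (LinearIsometryEquiv.neg ℝ (E := E))]
    rw [Measure.map_apply (by fun_prop) hAm]
  have huniv : A ∪ (LinearIsometryEquiv.neg ℝ (E := E)) ⁻¹' A = Set.univ := by
    ext x
    simp only [A, Set.mem_union, Set.mem_preimage, Set.mem_ofPred_eq,
      LinearIsometryEquiv.coe_neg, map_neg, Set.mem_univ, iff_true]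
    rcases le_total 0 (f x) with h | h
    · exact Or.inl h
    · exact Or.inr (by linarith)
  have h1 : (1 : ENNReal) ≤ ENNReal.ofReal (1 / 512) + ENNReal.ofReal (1 / 512) := by
    calc (1 : ENNReal) = stdGaussian E (A ∪ (LinearIsometryEquiv.neg ℝ (E := E)) ⁻¹' A) := by
          rw [huniv, measure_univ]
      _ ≤ stdGaussian E A + stdGaussian E ((LinearIsometryEquiv.neg ℝ (E := E)) ⁻¹' A) :=
          measure_union_le _ _
      _ ≤ _ := by
          rw [hneg]
          exact add_le_add ((measure_mono hA).trans h) ((measure_mono hA).trans h)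
  rw [← ENNReal.ofReal_add (by norm_num) (by norm_num), ENNReal.one_le_ofReal] at h1
  norm_num at h1

lemma compl_le_of_le {A B : Set E} (hA : MeasurableSet A) (hB : MeasurableSet B)
    (h : stdGaussian E A ≤ stdGaussian E B) : stdGaussian E Bᶜ ≤ stdGaussian E Aᶜ := by
  rw [prob_compl_eq_one_sub hA, prob_compl_eq_one_sub hB]
  exact tsub_le_tsub_left h 1

theorem signing (K : Set E) (M : ℕ) (hK : GoodBody K M) (n : ℕ) (w : ℕ → E)
    (hw : ∀ i < n, ‖w i‖ ≤ 1) (S : Finset ℕ) (hS : S.card ≤ M) :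
    ∃ s : ℕ → ℝ, (∀ i, s i = 1 ∨ s i = -1) ∧
      ∀ k ∈ S, k ≤ n → (∑ i ∈ Finset.range k, s i • w i) ∈ (64 : ℝ) • K := by
  classical
  rcases Nat.eq_zero_or_pos M with rfl | hM
  · rw [Nat.le_zero, Finset.card_eq_zero] at hS
    subst hS
    exact ⟨fun _ => 1, fun _ => Or.inl rfl, by simp⟩
  have hMR : (1 : ℝ) ≤ M := by exact_mod_cast hM
  obtain ⟨δ, hδ⟩ : ∃ δ : ℝ, δ = 1 / (4096 * (M : ℝ)) := ⟨_, rfl⟩
  have hδ0 : 0 < δ := hδ ▸ by positivity
  obtain ⟨R, hR⟩ := exists_ball_measure_compl_le (E := E) hδ0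
  have hKm : stdGaussian E Kᶜ ≤ ENNReal.ofReal δ := hδ ▸ hK.measure
  let u : ℕ → E := fun i => (1 / 64 : ℝ) • w i
  let cnt : ℕ → ℕ := fun k => (S.filter fun q => k ≤ q ∧ q ≤ n).card
  have hsmall : ∀ k, ((cnt k + 1 : ℕ) : ℝ) * δ ≤ 1 / 512 := by
    intro k
    have h1 : ((cnt k : ℕ) : ℝ) ≤ M := by
      exact_mod_cast (Finset.card_filter_le _ _).trans hS
    rw [hδ, mul_one_div, div_le_iff₀ (by positivity)]
    push_cast
    linarith
  have key : ∀ j ≤ n, ∃ C : Set E, Convex ℝ C ∧ IsCompact C ∧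
      stdGaussian E Cᶜ ≤ ENNReal.ofReal (((cnt (n - j) + 1 : ℕ) : ℝ) * δ) ∧
      ∀ x ∈ C, ∃ s : ℕ → ℝ, (∀ i, s i = 1 ∨ s i = -1) ∧
        ∀ q ∈ S, n - j ≤ q → q ≤ n → x + ∑ i ∈ Finset.Ico (n - j) q, s i • u i ∈ K := by
    intro j hj
    induction j with
    | zero =>
      rw [Nat.sub_zero]
      by_cases hn : n ∈ S
      · refine ⟨K ∩ Metric.closedBall 0 R, hK.convex.inter (convex_closedBall _ _),
          (isCompact_closedBall _ _).inter_left hK.closed, ?_,
          fun x hx => ⟨fun _ => 1, fun _ => Or.inl rfl, fun q _ hq1 hq2 => ?_⟩⟩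
        · rw [Set.compl_inter]
          refine (measure_union_le _ _).trans ((add_le_add hKm hR).trans ?_)
          rw [← ENNReal.ofReal_add hδ0.le hδ0.le]
          apply ENNReal.ofReal_le_ofReal
          have hc : 0 < cnt n :=
            Finset.card_pos.2 ⟨n, Finset.mem_filter.2 ⟨hn, le_rfl, le_rfl⟩⟩
          have : (1 : ℝ) ≤ cnt n := by exact_mod_cast hc
          push_cast
          nlinarith
        · obtain rfl : q = n := le_antisymm hq2 hq1
          simpa using hx.1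
      · refine ⟨Metric.closedBall 0 R, convex_closedBall _ _, isCompact_closedBall _ _,
          hR.trans (ENNReal.ofReal_le_ofReal ?_),
          fun x _ => ⟨fun _ => 1, fun _ => Or.inl rfl, fun q hq hq1 hq2 => ?_⟩⟩
        · have : (0 : ℝ) ≤ cnt n := Nat.cast_nonneg _
          push_cast
          nlinarith
        · exact absurd (le_antisymm hq2 hq1 ▸ hq) hn
    | succ j ih =>
      obtain ⟨C, hCc, hCk, hCm, hCs⟩ := ih (by omega)
      obtain ⟨k, hk⟩ : ∃ k, k = n - (j + 1) := ⟨_, rfl⟩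
      rw [show n - j = k + 1 by omega] at hCm hCs
      rw [← hk]
      have hu : ‖u k‖ ≤ 1 / 64 := by
        simp only [u, norm_smul, Real.norm_eq_abs]
        rw [abs_of_pos (by norm_num : (0 : ℝ) < 1 / 64)]
        exact mul_le_of_le_one_right (by norm_num) (hw k (by omega))
      obtain ⟨C', hC'c, hC'k, hC'm, hC's⟩ := balancing_step C hCc hCk
        (hCm.trans (ENNReal.ofReal_le_ofReal (hsmall _))) (u k) hu
      have hC'compl : stdGaussian E C'ᶜ ≤ ENNReal.ofReal (((cnt (k + 1) + 1 : ℕ) : ℝ) * δ) :=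
        (compl_le_of_le hCk.measurableSet hC'k.measurableSet hC'm).trans hCm
      have hext : ∀ x ∈ C', ∃ s : ℕ → ℝ, (∀ i, s i = 1 ∨ s i = -1) ∧
          ∀ q ∈ S, k + 1 ≤ q → q ≤ n → x + ∑ i ∈ Finset.Ico k q, s i • u i ∈ K := by
        intro x hx
        obtain ⟨e, he, hxe⟩ : ∃ e : ℝ, (e = 1 ∨ e = -1) ∧ x + e • u k ∈ C := by
          rcases hC's x hx with h | h
          · exact ⟨1, Or.inl rfl, by simpa using h⟩
          · exact ⟨-1, Or.inr rfl, by simpa [sub_eq_add_neg] using h⟩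
        obtain ⟨s, hs, hsq⟩ := hCs _ hxe
        refine ⟨Function.update s k e, fun i => ?_, fun q hq hq1 hq2 => ?_⟩
        · rcases eq_or_ne i k with rfl | hik
          · simpa using he
          · simpa [hik] using hs i
        · rw [Finset.sum_eq_sum_Ico_succ_bot (by omega), Function.update_self, ← add_assoc]
          have : ∑ i ∈ Finset.Ico (k + 1) q, Function.update s k e i • u i
              = ∑ i ∈ Finset.Ico (k + 1) q, s i • u i := by
            refine Finset.sum_congr rfl fun i hi => ?_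
            rw [Function.update_of_ne (by simp only [Finset.mem_Ico] at hi; omega)]
          rw [this]
          exact hsq q hq hq1 hq2
      by_cases hkS : k ∈ S
      · have hcnt : cnt (k + 1) + 1 ≤ cnt k := by
          refine Finset.card_lt_card ?_
          rw [Finset.ssubset_iff_of_subset]
          · exact ⟨k, Finset.mem_filter.2 ⟨hkS, le_rfl, by omega⟩, by simp⟩
          · intro q hq
            simp only [Finset.mem_filter] at hq ⊢
            exact ⟨hq.1, by omega, hq.2.2⟩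
        refine ⟨K ∩ C', hK.convex.inter hC'c, hC'k.inter_left hK.closed, ?_, fun x hx => ?_⟩
        · rw [Set.compl_inter]
          refine (measure_union_le _ _).trans ((add_le_add hKm hC'compl).trans ?_)
          rw [← ENNReal.ofReal_add hδ0.le (by positivity)]
          apply ENNReal.ofReal_le_ofReal
          have : ((cnt (k + 1) : ℕ) : ℝ) + 1 ≤ cnt k := by exact_mod_cast hcnt
          push_cast
          nlinarith
        · obtain ⟨s, hs, hsq⟩ := hext x hx.2
          refine ⟨s, hs, fun q hq hq1 hq2 => ?_⟩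
          rcases eq_or_lt_of_le hq1 with rfl | hlt
          · simpa using hx.1
          · exact hsq q hq hlt hq2
      · have hcnt : cnt (k + 1) ≤ cnt k := by
          refine Finset.card_le_card fun q hq => ?_
          simp only [Finset.mem_filter] at hq ⊢
          exact ⟨hq.1, by omega, hq.2.2⟩
        refine ⟨C', hC'c, hC'k, hC'compl.trans (ENNReal.ofReal_le_ofReal ?_), fun x hx => ?_⟩
        · gcongr
        · obtain ⟨s, hs, hsq⟩ := hext x hx
          refine ⟨s, hs, fun q hq hq1 hq2 => hsq q hq ?_ hq2⟩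
          rcases eq_or_lt_of_le hq1 with rfl | hlt
          · exact absurd hq hkS
          · exact hlt
  obtain ⟨C, hCc, hCk, hCm, hCs⟩ := key n le_rfl
  rw [Nat.sub_self] at hCm hCs
  obtain ⟨s, hs, hsq⟩ := hCs 0
    (zero_mem_of_measure hCc hCk.isClosed (hCm.trans (ENNReal.ofReal_le_ofReal (hsmall _))))
  refine ⟨s, hs, fun q hq hqn => ?_⟩
  have h := hsq q hq (Nat.zero_le _) hqn
  rw [zero_add, Nat.Ico_zero_eq_range] at h
  refine ⟨_, h, ?_⟩
  simp only [u, Finset.smul_sum, smul_smul]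
  exact Finset.sum_congr rfl fun i _ => by ring_nf

/-- Signs for the items of a finite set, with checkpoints at the group boundaries. -/
lemma signing_groups {ι : Type*} [DecidableEq ι] (K : Set E) (L : ℕ)
    (hK : GoodBody K (L + 1)) (J : Finset ι) (w : ι → E) (hw : ∀ i ∈ J, ‖w i‖ ≤ 1) (g : ι → ℕ) :
    ∃ s : ι → ℝ, (∀ i, s i = 1 ∨ s i = -1) ∧ ∀ r ≤ L,
      (∑ i ∈ J.filter (fun i => g i < r), s i • w i) ∈ (64 : ℝ) • K := by
  classical
  let e : Fin J.card ≃ J := J.equivFin.symm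
  let σ := Tuple.sort fun p => g (e p)
  have hmono : Monotone fun p => g (e (σ p)) := Tuple.monotone_sort fun p => g (e p)
  let f : Fin J.card ≃ J := σ.trans e
  let w' : ℕ → E := fun q => if h : q < J.card then w (f ⟨q, h⟩) else 0
  let cut : ℕ → ℕ := fun r => (J.filter fun i => g i < r).card
  have hw' : ∀ q < J.card, ‖w' q‖ ≤ 1 := fun q hq => by
    simp only [w', dif_pos hq]; exact hw _ (f ⟨q, hq⟩).2
  obtain ⟨s, hs, hsq⟩ := signing K (L + 1) hK J.card w' hw'
    ((Finset.range (L + 1)).image cut) (Finset.card_image_le.trans (by simp))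
  refine ⟨fun i => if h : i ∈ J then s (f.symm ⟨i, h⟩ : ℕ) else 1, fun i => ?_, fun r hr => ?_⟩
  · dsimp only
    split_ifs
    · exact hs _
    · exact Or.inl rfl
  have hiff : ∀ p : Fin J.card, g (f p) < r ↔ (p : ℕ) < cut r := by
    have hcard : cut r = (Finset.univ.filter fun p : Fin J.card => g (f p) < r).card := by
      refine (Finset.card_bij (fun p _ => ((f p : J) : ι)) (fun p hp => ?_) (fun p _ q _ h => ?_)
        (fun i hi => ?_)).symm
      · exact Finset.mem_filter.2 ⟨(f p).2, (Finset.mem_filter.1 hp).2⟩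
      · exact f.injective (Subtype.ext h)
      · obtain ⟨h1, h2⟩ := Finset.mem_filter.1 hi
        exact ⟨f.symm ⟨i, h1⟩, by simp [h2], by simp⟩
    intro p
    rw [hcard]
    constructor
    · intro hp
      calc (p : ℕ) < (Finset.Iic p).card := by simp
        _ ≤ _ := Finset.card_le_card fun q hq => Finset.mem_filter.2
          ⟨Finset.mem_univ _, lt_of_le_of_lt (hmono (Finset.mem_Iic.1 hq)) hp⟩
    · intro hp
      by_contra hge
      have : (Finset.univ.filter fun q : Fin J.card => g (f q) < r).card ≤ (p : ℕ) := by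
        refine (Finset.card_le_card (t := Finset.Iio p) fun q hq => Finset.mem_Iio.2 ?_).trans
          (by simp)
        by_contra hqp
        exact hge (lt_of_le_of_lt (hmono (not_lt.1 hqp)) (Finset.mem_filter.1 hq).2)
      omega
  have hcut : cut r ≤ J.card := Finset.card_filter_le _ _
  have h := hsq (cut r) (Finset.mem_image.2 ⟨r, Finset.mem_range.2 (by omega), rfl⟩) hcut
  convert h using 1
  refine Finset.sum_bij' (fun i hi => (f.symm ⟨i, (Finset.mem_filter.1 hi).1⟩ : ℕ))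
    (fun q hq => ((f ⟨q, lt_of_lt_of_le (Finset.mem_range.1 hq) hcut⟩ : J) : ι))
    (fun i hi => ?_) (fun q hq => ?_) (fun i hi => ?_) (fun q hq => ?_) (fun i hi => ?_)
  · rw [Finset.mem_range, ← hiff, Equiv.apply_symm_apply]
    exact (Finset.mem_filter.1 hi).2
  · refine Finset.mem_filter.2 ⟨(f _).2, ?_⟩
    exact (hiff _).2 (Finset.mem_range.1 hq)
  · simp
  · simp
  · have h1 := (Finset.mem_filter.1 hi).1
    simp only [dif_pos h1, w', dif_pos (Fin.is_lt (f.symm ⟨i, h1⟩)), Fin.eta,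
      Equiv.apply_symm_apply]

theorem rounding {ι : Type*} [DecidableEq ι] (K : Set E) (M : ℕ) (hM : 1 ≤ M)
    (hK : GoodBody K M) (J : Finset ι) (w : ι → E) (hw : ∀ i ∈ J, ‖w i‖ ≤ 1)
    (y : ι → ℝ) (hy : ∀ i ∈ J, 0 ≤ y i ∧ y i ≤ 1) :
    ∃ S ⊆ J, (∑ i ∈ S, w i - ∑ i ∈ J, y i • w i) ∈ (65 : ℝ) • K := by
  classical
  obtain ⟨B, hB1, hB⟩ := hK.exists_absorb (J.card : ℝ)
  have hsign : ∀ H ⊆ J, ∃ s : ι → ℝ, (∀ i, s i = 1 ∨ s i = -1) ∧
      (∑ i ∈ H, s i • w i) ∈ (64 : ℝ) • K := by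
    intro H hH
    have hsub : H.card ≤ J.card := Finset.card_le_card hH
    let e : Fin H.card ≃ H := H.equivFin.symm
    let w' : ℕ → E := fun q => if h : q < H.card then w (e ⟨q, h⟩) else 0
    obtain ⟨s, hs, hsq⟩ := signing K M hK H.card w'
      (fun q hq => by simp only [w', dif_pos hq]; exact hw _ (hH (e ⟨q, hq⟩).2))
      {H.card} (by simpa using hM)
    refine ⟨fun i => if h : i ∈ H then s (e.symm ⟨i, h⟩ : ℕ) else 1, fun i => ?_, ?_⟩
    · dsimp only
      split_ifs
      · exact hs _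
      · exact Or.inl rfl
    · convert hsq H.card (Finset.mem_singleton_self _) le_rfl using 1
      refine Finset.sum_bij' (fun i hi => (e.symm ⟨i, hi⟩ : ℕ))
        (fun q hq => ((e ⟨q, Finset.mem_range.1 hq⟩ : H) : ι))
        (fun i hi => Finset.mem_range.2 (Fin.is_lt _)) (fun q hq => (e _).2)
        (fun i hi => by simp) (fun q hq => by simp) (fun i hi => ?_)
      simp only [dif_pos hi, w', dif_pos (Fin.is_lt (e.symm ⟨i, hi⟩)), Fin.eta,
        Equiv.apply_symm_apply]
  have key : ∀ n : ℕ, ∀ y : ι → ℝ, (∀ i ∈ J, 0 ≤ y i ∧ y i ≤ 1) →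
      ∃ S ⊆ J, (∑ i ∈ S, w i - ∑ i ∈ J, y i • w i) ∈ (64 + B / 2 ^ n) • K := by
    intro n
    induction n with
    | zero =>
      intro y hy
      refine ⟨∅, Finset.empty_subset _, hK.mono_smul (by linarith) (by simp) (hB _ ?_)⟩
      rw [Finset.sum_empty, zero_sub, norm_neg]
      refine (norm_sum_le _ _).trans ((Finset.sum_le_card_nsmul J _ 1 fun i hi => ?_).trans
        (by simp))
      rw [norm_smul, Real.norm_eq_abs, abs_of_nonneg (hy i hi).1]
      exact mul_le_one₀ (hy i hi).2 (norm_nonneg _) (hw i hi)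
    | succ n ih =>
      intro y hy
      let b : ι → ℝ := fun i => if 1 / 2 ≤ y i then 1 else 0
      let z : ι → ℝ := fun i => 2 * y i - b i
      obtain ⟨Sz, hSz, hSzmem⟩ := ih z (fun i hi => by
        have := hy i hi
        simp only [z, b]
        split_ifs <;> constructor <;> linarith)
      let H : Finset ι := J.filter fun i => ¬ (1 / 2 ≤ y i ↔ i ∈ Sz)
      obtain ⟨s, hs, hsmem⟩ := hsign H (Finset.filter_subset _ _)
      let S : Finset ι := J.filter fun i =>
        (1 / 2 ≤ y i ∧ i ∈ Sz) ∨ (i ∈ H ∧ s i = 1)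
      refine ⟨S, Finset.filter_subset _ _, ?_⟩
      have heq : ∑ i ∈ S, w i - ∑ i ∈ J, y i • w i
          = (1 / 2 : ℝ) • (∑ i ∈ Sz, w i - ∑ i ∈ J, z i • w i)
            + (1 / 2 : ℝ) • ∑ i ∈ H, s i • w i := by
        have e1 : ∑ i ∈ Sz, w i = ∑ i ∈ J, (if i ∈ Sz then (1 : ℝ) else 0) • w i := by
          simp only [ite_smul, one_smul, zero_smul]
          rw [Finset.sum_ite_mem, Finset.inter_eq_right.2 hSz]
        simp only [S, H, Finset.sum_filter, e1]
        rw [← Finset.sum_sub_distrib, ← Finset.sum_sub_distrib, Finset.smul_sum, Finset.smul_sum,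
          ← Finset.sum_add_distrib]
        refine Finset.sum_congr rfl fun i hi => ?_
        simp only [z, b, Finset.mem_filter, hi, true_and]
        by_cases h1 : 1 / 2 ≤ y i <;> by_cases h2 : i ∈ Sz <;> rcases hs i with h3 | h3 <;>
          simp only [h1, h2, h3, ↓reduceIte, true_and, and_true, false_and, and_false, or_false,
            false_or, true_or, or_true, not_true_eq_false, not_false_iff, iff_true, iff_false,
            show (-1 : ℝ) ≠ 1 by norm_num] <;> module
      rw [heq]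
      have hp : (0 : ℝ) ≤ B / 2 ^ n := div_nonneg (by linarith) (by positivity)
      have h1 := hK.smul_mem (c := 1 / 2) (by linarith) hSzmem
      have h2 := hK.smul_mem (c := 1 / 2) (by norm_num) hsmem
      have h3 := hK.add_mem (by positivity) (by positivity) h1 h2
      refine hK.mono_smul (by positivity) (le_of_eq ?_) h3
      rw [abs_of_pos (by norm_num : (0 : ℝ) < 1 / 2), pow_succ]
      ring
  obtain ⟨n, hn⟩ := pow_unbounded_of_one_lt B (by norm_num : (1 : ℝ) < 2)
  obtain ⟨S, hS, hmem⟩ := key n y hy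
  refine ⟨S, hS, hK.mono_smul (by positivity) ?_ hmem⟩
  have : B / 2 ^ n ≤ 1 := (div_le_one (by positivity)).2 hn.le
  linarith

/-- Chobanyan-type transference: an ordered partition in `2 * m` groups, all boundary sums close
to proportional.  If radius `R` is achievable then so is `(R + 64) / 2`. -/
theorem group_partition {ι : Type*} [DecidableEq ι] (K : Set E) (m : ℕ) (hm : 1 ≤ m)
    (hK : GoodBody K (2 * m + 1)) (J : Finset ι) (w : ι → E) (hw : ∀ i ∈ J, ‖w i‖ ≤ 1) :
    ∃ g : ι → ℕ, (∀ i ∈ J, g i < 2 * m) ∧ ∀ r ≤ 2 * m,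
      (∑ i ∈ J.filter (fun i => g i < r), w i - ((r : ℝ) / (2 * m)) • ∑ i ∈ J, w i)
        ∈ (65 : ℝ) • K := by
  classical
  obtain ⟨B, hB1, hB⟩ := hK.exists_absorb (2 * (J.card : ℝ))
  have hmR : (1 : ℝ) ≤ m := by exact_mod_cast hm
  have key : ∀ n : ℕ, ∃ g : ι → ℕ, (∀ i ∈ J, g i < 2 * m) ∧ ∀ r ≤ 2 * m,
      (∑ i ∈ J.filter (fun i => g i < r), w i - ((r : ℝ) / (2 * m)) • ∑ i ∈ J, w i)
        ∈ (64 + B / 2 ^ n) • K := by
    intro n
    induction n with
    | zero =>
      refine ⟨fun _ => 0, fun i _ => show 0 < 2 * m by omega, fun r hr =>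
        hK.mono_smul (by linarith) (by simp) (hB _ ?_)⟩
      have hle : ∀ T ⊆ J, ‖∑ i ∈ T, w i‖ ≤ (J.card : ℝ) := fun T hT =>
        (norm_sum_le _ _).trans ((Finset.sum_le_card_nsmul T _ 1 fun i hi => hw i (hT hi)).trans
          (by simpa using Finset.card_le_card hT))
      refine (norm_sub_le _ _).trans ?_
      rw [show (2 : ℝ) * (J.card : ℝ) = J.card + J.card from two_mul _]
      refine add_le_add (hle _ (Finset.filter_subset _ _)) ?_
      rw [norm_smul, Real.norm_eq_abs, abs_of_nonneg (by positivity)]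
      refine (mul_le_of_le_one_left (norm_nonneg _) ?_).trans (hle J subset_rfl)
      rw [div_le_one (by positivity)]
      exact_mod_cast hr
    | succ n ih =>
      obtain ⟨g, hg, hdev⟩ := ih
      obtain ⟨s, hs, hsig⟩ := signing_groups K (2 * m) hK J w hw g
      let g' : ι → ℕ := fun i => if s i = 1 then g i / 2 else 2 * m - 1 - g i / 2
      refine ⟨g', fun i hi => by simp only [g']; have := hg i hi; split_ifs <;> omega,
        fun r hr => ?_⟩
      have hnew : (64 + B / 2 ^ (n + 1)) = 1 / 2 * (64 + B / 2 ^ n) + 1 / 2 * 64 := by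
        rw [pow_succ]; ring
      have hnn : (0 : ℝ) ≤ 64 + B / 2 ^ n :=
        add_nonneg (by norm_num) (div_nonneg (by linarith) (by positivity))
      rw [hnew]
      rcases le_or_gt r m with hrm | hrm
      · have heq : ∑ i ∈ J.filter (fun i => g' i < r), w i
            = (1 / 2 : ℝ) • ∑ i ∈ J.filter (fun i => g i < 2 * r), w i
              + (1 / 2 : ℝ) • ∑ i ∈ J.filter (fun i => g i < 2 * r), s i • w i := by
          simp only [Finset.sum_filter, Finset.smul_sum, ← Finset.sum_add_distrib]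
          refine Finset.sum_congr rfl fun i hi => ?_
          have := hg i hi
          rcases hs i with h | h
          · have e : g' i = g i / 2 := if_pos h
            by_cases h2 : g i < 2 * r
            · rw [if_pos (by omega : g' i < r), if_pos h2, if_pos h2, h]; module
            · rw [if_neg (by omega : ¬ g' i < r), if_neg h2, if_neg h2]; simp
          · have e : g' i = 2 * m - 1 - g i / 2 := if_neg (by rw [h]; norm_num)
            rw [if_neg (by omega : ¬ g' i < r)]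
            by_cases h2 : g i < 2 * r
            · rw [if_pos h2, if_pos h2, h]; module
            · rw [if_neg h2, if_neg h2]; simp
        have h1 := hK.smul_mem (c := 1 / 2) hnn (hdev (2 * r) (by omega))
        have h2 := hK.smul_mem (c := 1 / 2) (by norm_num) (hsig (2 * r) (by omega))
        rw [abs_of_pos (by norm_num : (0 : ℝ) < 1 / 2)] at h1 h2
        convert hK.add_mem (by positivity) (by positivity) h1 h2 using 1
        rw [heq]
        push_cast
        module
      · obtain ⟨q, hq⟩ : ∃ q, q = 2 * (2 * m - r) := ⟨_, rfl⟩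
        have hqR : (q : ℝ) = 2 * (2 * (m : ℝ) - r) := by
          rw [hq, Nat.cast_mul, Nat.cast_sub hr]; push_cast; ring
        have heq : ∑ i ∈ J.filter (fun i => g' i < r), w i
            = ∑ i ∈ J, w i - ((1 / 2 : ℝ) • ∑ i ∈ J.filter (fun i => g i < q), w i
              - (1 / 2 : ℝ) • ∑ i ∈ J.filter (fun i => g i < q), s i • w i) := by
          simp only [Finset.sum_filter, Finset.smul_sum, ← Finset.sum_sub_distrib]
          refine Finset.sum_congr rfl fun i hi => ?_
          have := hg i hi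
          rcases hs i with h | h
          · have e : g' i = g i / 2 := if_pos h
            rw [if_pos (by omega : g' i < r)]
            by_cases h2 : g i < q
            · rw [if_pos h2, if_pos h2, h]; module
            · rw [if_neg h2, if_neg h2]; simp
          · have e : g' i = 2 * m - 1 - g i / 2 := if_neg (by rw [h]; norm_num)
            by_cases h2 : g i < q
            · rw [if_neg (by omega : ¬ g' i < r), if_pos h2, if_pos h2, h]; module
            · rw [if_pos (by omega : g' i < r), if_neg h2, if_neg h2]; simp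
        have h1 := hK.neg_mem (hK.smul_mem (c := 1 / 2) hnn (hdev q (by omega)))
        have h2 := hK.smul_mem (c := 1 / 2) (by norm_num) (hsig q (by omega))
        rw [abs_of_pos (by norm_num : (0 : ℝ) < 1 / 2)] at h1 h2
        convert hK.add_mem (by positivity) (by positivity) h1 h2 using 1
        rw [heq, hqR]
        match_scalars <;> field_simp <;> ring
  obtain ⟨n, hn⟩ := pow_unbounded_of_one_lt B (by norm_num : (1 : ℝ) < 2)
  obtain ⟨g, hg, hdev⟩ := key n
  refine ⟨g, hg, fun r hr => hK.mono_smul ?_ ?_ (hdev r hr)⟩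
  · exact add_nonneg (by norm_num) (div_nonneg (by linarith) (by positivity))
  · have : B / 2 ^ n ≤ 1 := (div_le_one (by positivity)).2 hn.le
    linarith

lemma stdGaussian_map_of_isometry_section {F : Type*} [NormedAddCommGroup F]
    [InnerProductSpace ℝ F] [FiniteDimensional ℝ F] [MeasurableSpace F] [BorelSpace F]
    (p : F →L[ℝ] E) (hp : ∀ x, ‖p x‖ ≤ ‖x‖) (q : E → F) (hq : ∀ x, p (q x) = x)
    (hq' : ∀ x, ‖q x‖ = ‖x‖) : (stdGaussian F).map p = stdGaussian E := by
  apply Measure.ext_of_charFunDual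
  ext L
  rw [charFunDual_map, charFunDual_stdGaussian, charFunDual_stdGaussian]
  have hnorm : ‖L.comp p‖ = ‖L‖ := by
    refine le_antisymm (ContinuousLinearMap.opNorm_le_bound _ (norm_nonneg _) fun x => ?_)
      (ContinuousLinearMap.opNorm_le_bound _ (norm_nonneg _) fun x => ?_)
    · exact (L.le_opNorm _).trans (mul_le_mul_of_nonneg_left (hp x) (norm_nonneg _))
    · have := (L.comp p).le_opNorm (q x)
      rwa [ContinuousLinearMap.comp_apply, hq, hq'] at this
  rw [hnorm]

/-- The partition used in one stage: the first and the last of the `2*m+2` groups are shifted by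
the fractional amounts `x₁`, `x₃`; the boundaries in between are linear. -/
theorem stage_partition {ι : Type*} [DecidableEq ι] (K : Set E) (m : ℕ) (hm : 1 ≤ m)
    (hK : GoodBody K (2 * m + 2)) (J : Finset ι) (w : ι → E) (hw : ∀ i ∈ J, ‖w i‖ ≤ 1)
    (x₁ x₃ : ι → ℝ)
    (hx₁ : ∀ i ∈ J, |x₁ i| ≤ 1 / (2 * (2 * m + 2 : ℝ)))
    (hx₃ : ∀ i ∈ J, |x₃ i| ≤ 1 / (2 * (2 * m + 2 : ℝ))) :
    ∃ g : ι → ℕ, (∀ i ∈ J, g i < 2 * m + 2) ∧ ∀ r, 1 ≤ r → r ≤ 2 * m + 1 →
      (∑ i ∈ J.filter (fun i => g i < r), w i -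
        (((r : ℝ) / (2 * m + 2)) • (∑ i ∈ J, w i)
          + (1 - ((r : ℝ) - 1) / (2 * m)) • (∑ i ∈ J, x₁ i • w i)
          - (((r : ℝ) - 1) / (2 * m)) • (∑ i ∈ J, x₃ i • w i)))
        ∈ (500 : ℝ) • K := by
  classical
  let E2 := WithLp 2 (E × E)
  letI : MeasurableSpace E2 := borel E2
  haveI : BorelSpace E2 := ⟨rfl⟩
  let p1 : E2 →L[ℝ] E := WithLp.fstL 2 ℝ E E
  let p2 : E2 →L[ℝ] E := WithLp.sndL 2 ℝ E E
  have hn1 : ∀ x : E2, ‖p1 x‖ ≤ ‖x‖ ∧ ‖p2 x‖ ≤ ‖x‖ := by
    intro x
    have h := WithLp.prod_norm_sq_eq_of_L2 x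
    refine ⟨(abs_le_of_sq_le_sq' ?_ (norm_nonneg _)).2, (abs_le_of_sq_le_sq' ?_ (norm_nonneg _)).2⟩
    · change ‖x.fst‖ ^ 2 ≤ _
      rw [h]; exact le_add_of_nonneg_right (sq_nonneg _)
    · change ‖x.snd‖ ^ 2 ≤ _
      rw [h]; exact le_add_of_nonneg_left (sq_nonneg _)
  have hmap1 : (stdGaussian E2).map p1 = stdGaussian E :=
    stdGaussian_map_of_isometry_section p1 (fun x => (hn1 x).1) (fun x => WithLp.toLp 2 (x, (0 : E)))
      (fun x => rfl) (fun x => WithLp.norm_toLp_fst 2 E E x)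
  have hmap2 : (stdGaussian E2).map p2 = stdGaussian E :=
    stdGaussian_map_of_isometry_section p2 (fun x => (hn1 x).2) (fun x => WithLp.toLp 2 ((0 : E), x))
      (fun x => rfl) (fun x => WithLp.norm_toLp_snd 2 E E x)
  let K2 : Set E2 := p1 ⁻¹' K ∩ p2 ⁻¹' K
  have hM4 : (4 : ℝ) ≤ 2 * (m : ℝ) + 2 := by
    have : (1 : ℝ) ≤ m := by exact_mod_cast hm
    linarith
  have hK2 : GoodBody K2 1 := by
    refine ⟨(hK.convex.linear_preimage p1.toLinearMap).inter
        (hK.convex.linear_preimage p2.toLinearMap),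
      (hK.closed.preimage p1.continuous).inter (hK.closed.preimage p2.continuous),
      fun x hx => ⟨by simpa [Set.mem_preimage] using hK.symm _ hx.1,
        by simpa [Set.mem_preimage] using hK.symm _ hx.2⟩, ?_, ?_⟩
    · obtain ⟨r, hr, hsub⟩ := hK.absorb
      refine ⟨r, hr, fun x hx => ?_⟩
      rw [Metric.mem_closedBall, dist_zero_right] at hx
      exact ⟨hsub (by simpa using (hn1 x).1.trans hx), hsub (by simpa using (hn1 x).2.trans hx)⟩
    · have hm1 : MeasurableSet Kᶜ := hK.closed.measurableSet.compl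
      rw [Set.compl_inter, ← Set.preimage_compl, ← Set.preimage_compl]
      refine (measure_union_le _ _).trans ?_
      rw [← Measure.map_apply p1.continuous.measurable hm1,
        ← Measure.map_apply p2.continuous.measurable hm1, hmap1, hmap2]
      refine (add_le_add hK.measure hK.measure).trans ?_
      rw [← ENNReal.ofReal_add (by positivity) (by positivity)]
      apply ENNReal.ofReal_le_ofReal
      push_cast
      rw [← add_div, div_le_div_iff₀ (by positivity) (by norm_num)]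
      linarith
  obtain ⟨MR, hMR⟩ : ∃ MR : ℝ, MR = 2 * (m : ℝ) + 2 := ⟨_, rfl⟩
  rw [← hMR] at hx₁ hx₃ hM4 ⊢
  let y₁ : ι → ℝ := fun i => 1 / MR + x₁ i
  let y₃ : ι → ℝ := fun i => 1 / MR + x₃ i
  have hy : ∀ i ∈ J, 0 ≤ y₁ i ∧ 0 ≤ y₃ i ∧ y₃ i < 1 ∧ y₁ i ≤ 1 - y₃ i := by
    intro i hi
    have h1 := abs_le.1 (hx₁ i hi)
    have h3 := abs_le.1 (hx₃ i hi)
    have he : 1 / (2 * MR) = 1 / MR / 2 := by rw [div_div, mul_comm]
    have hle : 1 / MR ≤ 1 / 4 := div_le_div_of_nonneg_left zero_le_one (by norm_num) hM4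
    have hpos : 0 ≤ 1 / MR := by positivity
    rw [he] at h1 h3
    simp only [y₁, y₃]
    refine ⟨?_, ?_, ?_, ?_⟩ <;> linarith
  let ρ : ι → ℝ := fun i => y₁ i / (1 - y₃ i)
  have hρ : ∀ i ∈ J, 0 ≤ ρ i ∧ ρ i ≤ 1 := fun i hi => by
    obtain ⟨h1, _, h3, h4⟩ := hy i hi
    exact ⟨div_nonneg h1 (by linarith), (div_le_one (by linarith)).2 h4⟩
  let w2 : ι → E2 := fun i => WithLp.toLp 2 ((1 / 2 : ℝ) • w i, (1 / 2 : ℝ) • (ρ i • w i))
  have hw2 : ∀ i ∈ J, ‖w2 i‖ ≤ 1 := by
    intro i hi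
    refine (abs_le_of_sq_le_sq' ?_ zero_le_one).2
    rw [WithLp.prod_norm_sq_eq_of_L2]
    simp only [w2, WithLp.toLp_fst, WithLp.toLp_snd, norm_smul, Real.norm_eq_abs]
    obtain ⟨h0, h1⟩ := hρ i hi
    rw [abs_of_nonneg h0, abs_of_pos (by norm_num : (0 : ℝ) < 1 / 2)]
    have h2 := hw i hi
    have h3 : 0 ≤ ρ i * ‖w i‖ := mul_nonneg h0 (norm_nonneg _)
    have h4 : ρ i * ‖w i‖ ≤ 1 := mul_le_one₀ h1 (norm_nonneg _) h2
    nlinarith [norm_nonneg (w i), pow_le_one₀ (n := 2) (norm_nonneg (w i)) h2,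
      pow_le_one₀ (n := 2) h3 h4]
  obtain ⟨T, hT, hTmem⟩ := rounding K2 1 le_rfl hK2 J w2 hw2 y₃
    (fun i hi => ⟨(hy i hi).2.1, (hy i hi).2.2.1.le⟩)
  obtain ⟨z2, hz2, hz2eq⟩ := hTmem
  have hK1 : GoodBody K 1 := hK.mono le_rfl (by omega)
  obtain ⟨F, hF, hFmem⟩ := rounding K 1 le_rfl hK1 (J \ T) w
    (fun i hi => hw i (Finset.mem_sdiff.1 hi).1) ρ (fun i hi => hρ i (Finset.mem_sdiff.1 hi).1)
  -- the two roundings
  have hfst := congrArg p1 hz2eq
  have hsnd := congrArg p2 hz2eq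
  simp only [map_smul, map_sub, map_sum] at hfst hsnd
  have hw2f : ∀ i, p1 (w2 i) = (1 / 2 : ℝ) • w i := fun i => rfl
  have hw2s : ∀ i, p2 (w2 i) = (1 / 2 : ℝ) • (ρ i • w i) := fun i => rfl
  simp only [hw2f, hw2s] at hfst hsnd
  obtain ⟨e3, he3⟩ : ∃ e3, e3 = ∑ i ∈ T, w i - ∑ i ∈ J, y₃ i • w i := ⟨_, rfl⟩
  obtain ⟨e2, he2⟩ : ∃ e2, e2 = ∑ i ∈ T, ρ i • w i - ∑ i ∈ J, y₃ i • (ρ i • w i) := ⟨_, rfl⟩
  have he3m : e3 ∈ (130 : ℝ) • K := by
    refine ⟨p1 z2, hz2.1, ?_⟩
    change (130 : ℝ) • p1 z2 = e3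
    rw [he3, show (130 : ℝ) = 2 * 65 by norm_num, ← smul_smul, hfst]
    rw [smul_sub, Finset.smul_sum, Finset.smul_sum]
    congr 1 <;> exact Finset.sum_congr rfl fun i _ => by module
  have he2m : e2 ∈ (130 : ℝ) • K := by
    refine ⟨p2 z2, hz2.2, ?_⟩
    change (130 : ℝ) • p2 z2 = e2
    rw [he2, show (130 : ℝ) = 2 * 65 by norm_num, ← smul_smul, hsnd]
    rw [smul_sub, Finset.smul_sum, Finset.smul_sum]
    congr 1 <;> exact Finset.sum_congr rfl fun i _ => by module
  have hρy : ∀ i ∈ J, ρ i • w i - y₃ i • (ρ i • w i) = y₁ i • w i := fun i hi => by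
    rw [smul_smul, ← sub_smul]
    congr 1
    have h3 : (1 : ℝ) - y₃ i ≠ 0 := by linarith [(hy i hi).2.2.1]
    simp only [ρ]
    field_simp
  have he1m : ∑ i ∈ F, w i - ∑ i ∈ J, y₁ i • w i ∈ (195 : ℝ) • K := by
    have : ∑ i ∈ F, w i - ∑ i ∈ J, y₁ i • w i
        = (∑ i ∈ F, w i - ∑ i ∈ J \ T, ρ i • w i) + -e2 := by
      rw [← Finset.sum_congr rfl hρy, Finset.sum_sub_distrib, he2,
        Finset.sum_sdiff_eq_sub hT]
      abel
    rw [this]
    have := hK.add_mem (by norm_num) (by norm_num) hFmem (hK.neg_mem he2m)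
    exact hK.mono_smul (by norm_num) (by norm_num) this
  let R : Finset ι := (J \ T) \ F
  obtain ⟨g0, hg0, hdev⟩ := group_partition K m hm (hK.mono (by omega) (by omega)) R w
    (fun i hi => hw i (Finset.mem_sdiff.1 (Finset.mem_sdiff.1 hi).1).1)
  let g : ι → ℕ := fun i => if i ∈ F then 0 else if i ∈ T then 2 * m + 1 else g0 i + 1
  refine ⟨g, fun i hi => ?_, fun r hr1 hr2 => ?_⟩
  · simp only [g]
    split_ifs with h1 h2
    · omega
    · omega
    · have := hg0 i (Finset.mem_sdiff.2 ⟨Finset.mem_sdiff.2 ⟨hi, h2⟩, h1⟩)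
      omega
  have hset : J.filter (fun i => g i < r) = F ∪ R.filter (fun i => g0 i < r - 1) := by
    ext i
    simp only [Finset.mem_filter, Finset.mem_union, R, Finset.mem_sdiff, g]
    constructor
    · rintro ⟨h1, h2⟩
      by_cases hiF : i ∈ F
      · exact Or.inl hiF
      · by_cases hiT : i ∈ T
        · simp [hiF, hiT] at h2; omega
        · simp [hiF, hiT] at h2
          exact Or.inr ⟨⟨⟨h1, hiT⟩, hiF⟩, by omega⟩
    · rintro (h | ⟨⟨⟨h1, h2⟩, h3⟩, h4⟩)
      · exact ⟨(Finset.mem_sdiff.1 (hF h)).1, by simp [h]; omega⟩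
      · exact ⟨h1, by simp [h2, h3]; omega⟩
  have hdisj : Disjoint F (R.filter fun i => g0 i < r - 1) := by
    rw [Finset.disjoint_left]
    intro i hi hi'
    exact (Finset.mem_sdiff.1 (Finset.mem_filter.1 hi').1).2 hi
  obtain ⟨s, hs⟩ : ∃ s : ℝ, s = ((r : ℝ) - 1) / (2 * m) := ⟨_, rfl⟩
  have hmR : (0 : ℝ) < 2 * m := by positivity
  have hs0 : 0 ≤ s := by
    rw [hs]
    have : (1 : ℝ) ≤ r := by exact_mod_cast hr1
    exact div_nonneg (by linarith) hmR.le
  have hs1 : s ≤ 1 := by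
    rw [hs, div_le_one hmR]
    have : (r : ℝ) ≤ 2 * m + 1 := by exact_mod_cast hr2
    linarith
  have hd := hdev (r - 1) (by omega)
  rw [Nat.cast_sub hr1, Nat.cast_one, ← hs] at hd
  have hRsum : ∑ i ∈ R, w i = ∑ i ∈ J, w i - ∑ i ∈ T, w i - ∑ i ∈ F, w i := by
    rw [Finset.sum_sdiff_eq_sub hF, Finset.sum_sdiff_eq_sub hT]
  have heq : ∑ i ∈ J.filter (fun i => g i < r), w i -
        (((r : ℝ) / MR) • (∑ i ∈ J, w i) + (1 - s) • (∑ i ∈ J, x₁ i • w i)
          - s • (∑ i ∈ J, x₃ i • w i))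
      = (∑ i ∈ R.filter (fun i => g0 i < r - 1), w i - s • ∑ i ∈ R, w i)
        + ((1 - s) • (∑ i ∈ F, w i - ∑ i ∈ J, y₁ i • w i) + (-s) • e3) := by
    rw [hset, Finset.sum_union hdisj, hRsum, he3]
    simp only [y₁, y₃, add_smul, Finset.sum_add_distrib, ← Finset.smul_sum]
    have hr : (r : ℝ) / MR = (1 - s) * (1 / MR) + s * (1 - 1 / MR) := by
      rw [hs, hMR]; field_simp; ring
    rw [hr]
    module
  rw [← hs, heq]
  have h1 := hK.smul_mem (c := 1 - s) (by norm_num) he1m
  have h2 := hK.smul_mem (c := -s) (by norm_num) he3m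
  have h12 := hK.add_mem (by positivity) (by positivity) h1 h2
  have h := hK.add_mem (by norm_num) (by positivity) hd h12
  refine hK.mono_smul (by positivity) ?_ h
  rw [abs_of_nonneg (by linarith : (0 : ℝ) ≤ 1 - s), abs_neg, abs_of_nonneg hs0]
  linarith

end Vale.Agent.P262
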