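import Vale.Agent.P262.Setup
import Vale.Agent.P262.GaussTail
import Vale.Agent.P262.Balance
import Mathlib.Analysis.Convex.Mul
import Mathlib.Analysis.Complex.ExponentialBounds

/-!
The Gaussian body used at stage `k` of the multiscale ordering (P262).
-/

namespace Vale.Agent.P262

open MeasureTheory ProbabilityTheory Real

variable {d : ℕ} (b : Fin d → ℕ)

/-- Index type of the lifted statistics at stage `k`. -/
abbrev Kap (d k : ℕ) : Type := (Fin d ⊕ Fin d × Fin d) ⊕ Fin (k + 1)

/-- Tolerance term of stage `k`. -/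
noncomputable def tol (k : ℕ) : ℝ := 24 * len b k + 48

/-- The high coordinates of stage `k` below the band threshold `T`. -/
noncomputable def lowSet (k T : ℕ) : Finset (Fin d) :=
  Finset.univ.filter fun j => k < coh b j ∧ b j < T

/-- The body of stage `k`. -/
noncomputable def stageBody (k : ℕ) : Set (EuclideanSpace ℝ (Kap d k)) :=
  {g | (∀ T, ∑ j ∈ lowSet b k T, g (.inl (.inl j)) ^ 2 ≤ 6 * (lowSet b k T).card + tol b k) ∧
    (∀ j, k + 1 < coh b j → |g (.inl (.inl j))| ≤ 8 ^ hgt b (k + 1) j / devQ) ∧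
    (∑ p : Fin d × Fin d, (if k < coh b p.1 ∧ k < coh b p.2 then
        (qw b (k + 1) p.1 * qw b (k + 1) p.2) ^ 2 * g (.inl (.inr p)) ^ 2 else 0)
      ≤ 2 * crowd b (pos b (k + 1)) ^ 2 + tol b k) ∧
    (∀ c : Fin (k + 1), ∑ j ∈ Finset.univ.filter (fun j => coh b j = (c : ℕ)),
        g (.inl (.inl j)) ^ 2
      ≤ 6 * (cohCard b c : ℝ) + 8 * ((k - c : ℕ) : ℝ) + tol b k) ∧
    (∀ c : Fin (k + 1), g (.inr c) ^ 2 ≤ 2 + 8 * ((k - c : ℕ) : ℝ) + tol b k)}

lemma tol_pos (k : ℕ) : 0 < tol b k := by unfold tol; positivity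

lemma convex_stageBody (k : ℕ) : Convex ℝ (stageBody b k) := by
  intro g hg h hh s t hs ht hst
  obtain ⟨g1, g2, g3, g4, g5⟩ := hg
  obtain ⟨h1, h2, h3, h4, h5⟩ := hh
  have ht' : t = 1 - s := by linarith
  have sq : ∀ u w : ℝ, (s * u + t * w) ^ 2 ≤ s * u ^ 2 + t * w ^ 2 := by
    intro u w
    nlinarith [mul_nonneg (mul_nonneg hs ht) (sq_nonneg (u - w))]
  have mix : ∀ {A B C : ℝ}, A ≤ C → B ≤ C → s * A + t * B ≤ C := by
    intro A B C hA hB
    calc s * A + t * B ≤ s * C + t * C :=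
          add_le_add (mul_le_mul_of_nonneg_left hA hs) (mul_le_mul_of_nonneg_left hB ht)
      _ = C := by rw [← add_mul, hst, one_mul]
  have hsum : ∀ (S : Finset (Fin d)),
      ∑ j ∈ S, (s • g + t • h) (.inl (.inl j)) ^ 2
        ≤ s * ∑ j ∈ S, g (.inl (.inl j)) ^ 2 + t * ∑ j ∈ S, h (.inl (.inl j)) ^ 2 := by
    intro S
    rw [Finset.mul_sum, Finset.mul_sum, ← Finset.sum_add_distrib]
    exact Finset.sum_le_sum fun j _ => by simpa using sq _ _
  refine ⟨fun T => (hsum _).trans (mix (g1 T) (h1 T)), fun j hj => ?_, ?_,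
    fun c => (hsum _).trans (mix (g4 c) (h4 c)), fun c => ?_⟩
  · simp only [PiLp.add_apply, PiLp.smul_apply, smul_eq_mul]
    refine (abs_add_le _ _).trans ?_
    rw [abs_mul, abs_mul, abs_of_nonneg hs, abs_of_nonneg ht]
    exact mix (g2 j hj) (h2 j hj)
  · refine le_trans ?_ (mix g3 h3)
    rw [Finset.mul_sum, Finset.mul_sum, ← Finset.sum_add_distrib]
    refine Finset.sum_le_sum fun p _ => ?_
    split_ifs with hp
    · simp only [PiLp.add_apply, PiLp.smul_apply, smul_eq_mul]
      nlinarith [mul_le_mul_of_nonneg_left (sq (g (.inl (.inr p))) (h (.inl (.inr p))))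
        (sq_nonneg (qw b (k + 1) p.1 * qw b (k + 1) p.2))]
    · simp
  · simp only [PiLp.add_apply, PiLp.smul_apply, smul_eq_mul]
    exact (sq _ _).trans (mix (g5 c) (h5 c))

lemma isClosed_forall' {X α : Type*} [TopologicalSpace X] {P : α → X → Prop}
    (h : ∀ a, IsClosed {x | P a x}) : IsClosed {x | ∀ a, P a x} := by
  rw [show {x | ∀ a, P a x} = ⋂ a, {x | P a x} by ext; simp]
  exact isClosed_iInter h

lemma isClosed_stageBody (k : ℕ) : IsClosed (stageBody b k) := by
  refine IsClosed.inter (isClosed_forall' fun T => ?_) (IsClosed.inter (isClosed_forall' fun j => ?_)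
    (IsClosed.inter ?_ (IsClosed.inter (isClosed_forall' fun c => ?_)
      (isClosed_forall' fun c => ?_))))
  · exact isClosed_le (by fun_prop) continuous_const
  · by_cases hj : k + 1 < coh b j
    · simp only [hj, forall_const]
      exact isClosed_le (by fun_prop) continuous_const
    · simp [hj]
  · have h : Continuous fun g : EuclideanSpace ℝ (Kap d k) =>
        ∑ p : Fin d × Fin d, (if k < coh b p.1 ∧ k < coh b p.2 then
          (qw b (k + 1) p.1 * qw b (k + 1) p.2) ^ 2 * g (.inl (.inr p)) ^ 2 else 0) :=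
      continuous_finsetSum _ fun p _ => by split_ifs <;> fun_prop
    exact isClosed_le h continuous_const
  · exact isClosed_le (by fun_prop) continuous_const
  · exact isClosed_le (by fun_prop) continuous_const

lemma neg_mem_stageBody (k : ℕ) : ∀ g ∈ stageBody b k, -g ∈ stageBody b k := by
  rintro g ⟨g1, g2, g3, g4, g5⟩
  refine ⟨?_, ?_, ?_, ?_, ?_⟩ <;> simpa

lemma ball_subset_stageBody (k : ℕ) :
    Metric.closedBall (0 : EuclideanSpace ℝ (Kap d k)) (1 / devQ) ⊆ stageBody b k := by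
  intro g hg
  rw [Metric.mem_closedBall, dist_zero_right] at hg
  have hQ : (1 : ℝ) ≤ devQ := by norm_num [devQ]
  have h1 : ‖g‖ ≤ 1 := hg.trans (by rw [div_le_one (by linarith)]; exact hQ)
  have hsq : ∑ i, g i ^ 2 ≤ 1 := by
    rw [← EuclideanSpace.real_norm_sq_eq]
    exact pow_le_one₀ (norm_nonneg g) h1
  have ht : 48 ≤ tol b k := by unfold tol; linarith [Nat.cast_nonneg (α := ℝ) (len b k)]
  have hpart : ∀ S : Finset (Fin d), ∑ j ∈ S, g (.inl (.inl j)) ^ 2 ≤ 1 := by
    intro S
    rw [← Finset.sum_image (f := fun i => g i ^ 2) (g := fun j => (Sum.inl (Sum.inl j) : Kap d k))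
      (fun a _ c _ h => by simpa using h)]
    exact (Finset.sum_le_sum_of_subset_of_nonneg (Finset.subset_univ _)
      fun i _ _ => by positivity).trans hsq
  refine ⟨fun T => ?_, fun j _ => ?_, ?_, fun c => ?_, fun c => ?_⟩
  · have := hpart (lowSet b k T); have : (0 : ℝ) ≤ (lowSet b k T).card := Nat.cast_nonneg _
    linarith
  · refine (PiLp.norm_apply_le g _).trans (hg.trans ?_)
    exact div_le_div_of_nonneg_right (one_le_pow₀ (by norm_num)) (by linarith)
  · have hle : ∑ p : Fin d × Fin d, (if k < coh b p.1 ∧ k < coh b p.2 then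
        (qw b (k + 1) p.1 * qw b (k + 1) p.2) ^ 2 * g (.inl (.inr p)) ^ 2 else 0) ≤ 1 := by
      refine le_trans (Finset.sum_le_sum (g := fun p => g (.inl (.inr p)) ^ 2) fun p _ => ?_) ?_
      · have hw : ∀ j, qw b (k + 1) j ≤ 1 := fun j => pow_le_one₀ (by norm_num) (by norm_num)
        split_ifs
        · exact mul_le_of_le_one_left (by positivity) (pow_le_one₀
            (mul_nonneg (qw_pos b _ _).le (qw_pos b _ _).le)
            (mul_le_one₀ (hw _) (qw_pos b _ _).le (hw _)))
        · positivity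
      · rw [← Finset.sum_image (f := fun i => g i ^ 2)
          (g := fun p => (Sum.inl (Sum.inr p) : Kap d k)) (fun a _ c _ h => by simpa using h)]
        exact (Finset.sum_le_sum_of_subset_of_nonneg (Finset.subset_univ _)
          fun i _ _ => by positivity).trans hsq
    have := sq_nonneg (crowd b (pos b (k + 1)))
    linarith
  · have := hpart (Finset.univ.filter fun j => coh b j = (c : ℕ))
    have h2 : (0 : ℝ) ≤ cohCard b c := Nat.cast_nonneg _
    have h3 : (0 : ℝ) ≤ ((k - c : ℕ) : ℝ) := Nat.cast_nonneg _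
    linarith
  · have : g (.inr c) ^ 2 ≤ 1 := (Finset.single_le_sum (f := fun i => g i ^ 2)
      (fun i _ => by positivity) (Finset.mem_univ _)).trans hsq
    have h3 : (0 : ℝ) ≤ ((k - c : ℕ) : ℝ) := Nat.cast_nonneg _
    linarith

lemma measure_stageBody_compl (k : ℕ) :
    stdGaussian (EuclideanSpace ℝ (Kap d k)) (stageBody b k)ᶜ
      ≤ ENNReal.ofReal (1 / (4096 * ((256 ^ len b k : ℕ) : ℝ))) := by
  classical
  obtain ⟨μ, hμ⟩ : ∃ μ, μ = stdGaussian (EuclideanSpace ℝ (Kap d k)) := ⟨_, rfl⟩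
  obtain ⟨ε, hε⟩ : ∃ ε, ε = exp (-(tol b k) / 4) := ⟨_, rfl⟩
  have hε0 : 0 ≤ ε := hε ▸ (exp_pos _).le
  let H : Finset (Fin d) := Finset.univ.filter fun j => k < coh b j
  let 𝔉 : Finset (Finset (Fin d)) := H.image fun j => lowSet b k (b j + 1)
  let H' : Finset (Fin d) := Finset.univ.filter fun j => k + 1 < coh b j
  let B1 : Finset (Fin d) → Set (EuclideanSpace ℝ (Kap d k)) := fun F =>
    {g | 6 * (F.card : ℝ) + tol b k < ∑ j ∈ F, g (.inl (.inl j)) ^ 2}
  let B2 : Fin d → Set (EuclideanSpace ℝ (Kap d k)) := fun j =>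
    {g | 8 ^ hgt b (k + 1) j / devQ < |g (.inl (.inl j))|}
  let B3 : Set (EuclideanSpace ℝ (Kap d k)) :=
    {g | 2 * crowd b (pos b (k + 1)) ^ 2 + tol b k
      < ∑ p : Fin d × Fin d, (if k < coh b p.1 ∧ k < coh b p.2 then
        (qw b (k + 1) p.1 * qw b (k + 1) p.2) ^ 2 * g (.inl (.inr p)) ^ 2 else 0)}
  let B4 : Fin (k + 1) → Set (EuclideanSpace ℝ (Kap d k)) := fun c =>
    {g | 6 * (cohCard b c : ℝ) + 8 * ((k - c : ℕ) : ℝ) + tol b k
      < ∑ j ∈ Finset.univ.filter (fun j => coh b j = (c : ℕ)), g (.inl (.inl j)) ^ 2}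
  let B5 : Fin (k + 1) → Set (EuclideanSpace ℝ (Kap d k)) := fun c =>
    {g | 2 + 8 * ((k - c : ℕ) : ℝ) + tol b k < g (.inr c) ^ 2}
  have hcover : (stageBody b k)ᶜ ⊆
      (⋃ F ∈ 𝔉, B1 F) ∪ ((⋃ j ∈ H', B2 j) ∪ (B3 ∪
        ((⋃ c ∈ (Finset.univ : Finset (Fin (k + 1))), B4 c) ∪
          ⋃ c ∈ (Finset.univ : Finset (Fin (k + 1))), B5 c))) := by
    intro g hg
    simp only [stageBody, Set.mem_compl_iff, Set.mem_ofPred_eq, not_and_or, not_forall,
      not_le] at hg
    rcases hg with ⟨T, hT⟩ | ⟨j, hj, hT⟩ | hT | ⟨c, hT⟩ | ⟨c, hT⟩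
    · left
      have hne : (lowSet b k T).Nonempty := by
        rcases Finset.eq_empty_or_nonempty (lowSet b k T) with h | h
        · exfalso
          rw [h] at hT
          simp only [Finset.sum_empty, Finset.card_empty, Nat.cast_zero, mul_zero, zero_add] at hT
          linarith [tol_pos b k]
        · exact h
      obtain ⟨j, hjm, hjmax⟩ := Finset.exists_max_image _ b hne
      simp only [lowSet, Finset.mem_filter, Finset.mem_univ, true_and] at hjm hjmax
      have heq : lowSet b k T = lowSet b k (b j + 1) := by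
        ext i
        simp only [lowSet, Finset.mem_filter, Finset.mem_univ, true_and]
        exact ⟨fun hi => ⟨hi.1, Nat.lt_succ_of_le (hjmax i hi)⟩, fun hi => ⟨hi.1, by omega⟩⟩
      simp only [Set.mem_iUnion, exists_prop]
      exact ⟨lowSet b k (b j + 1), Finset.mem_image.2 ⟨j, by simp [H, hjm.1], rfl⟩, heq ▸ hT⟩
    · right; left
      simp only [Set.mem_iUnion, exists_prop]
      exact ⟨j, by simp [H', hj], hT⟩
    · right; right; left; exact hT
    · right; right; right; left
      simp only [Set.mem_iUnion, exists_prop]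
      exact ⟨c, Finset.mem_univ _, hT⟩
    · right; right; right; right
      simp only [Set.mem_iUnion, exists_prop]
      exact ⟨c, Finset.mem_univ _, hT⟩
  -- tails
  have tailL : ∀ (F : Finset (Fin d)) (t : ℝ),
      μ {g | t < ∑ j ∈ F, g (.inl (.inl j)) ^ 2}
        ≤ ENNReal.ofReal (exp ((F.card : ℝ) / 2 - t / 4)) := by
    intro F t
    have := gauss_tail (F.image fun j => (Sum.inl (Sum.inl j) : Kap d k)) (fun _ => (1 : ℝ))
      (fun _ _ => by norm_num) t
    have hinj : Set.InjOn (fun j => (Sum.inl (Sum.inl j) : Kap d k)) F :=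
      fun a _ c _ h => by simpa using h
    simp only [Finset.sum_image hinj, one_mul, Finset.sum_const, nsmul_one] at this
    subst hμ
    exact this
  have h1 : ∀ F ∈ 𝔉, μ (B1 F) ≤ ENNReal.ofReal (ε * (1 / 2) ^ F.card) := by
    intro F _
    refine (tailL F _).trans (ENNReal.ofReal_le_ofReal ?_)
    calc exp ((F.card : ℝ) / 2 - (6 * (F.card : ℝ) + tol b k) / 4)
        = ε * exp (-1) ^ F.card := by rw [hε, ← exp_nat_mul, ← exp_add]; congr 1; ring
      _ ≤ ε * (1 / 2) ^ F.card := by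
          gcongr
          rw [exp_neg, one_div]
          gcongr
          linarith [Real.exp_one_gt_d9]
  have h2 : ∀ j ∈ H', μ (B2 j) ≤ ENNReal.ofReal (ε * ((1 / 2) ^ hgt b (k + 1) j
      * (1 / 2) ^ hgt b (k + 1) j)) := by
    intro j hj
    simp only [H', Finset.mem_filter, Finset.mem_univ, true_and] at hj
    obtain ⟨x, hx⟩ : ∃ x, x = hgt b (k + 1) j := ⟨_, rfl⟩
    rw [← hx]
    have hxL : len b (k + 1) ≤ x := by
      have h1 := (lt_coh_iff b).1 hj
      rw [pos_succ b (k + 1)] at h1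
      rw [hx, hgt]; omega
    have hx20 : 20 ≤ x := (twenty_le_len b (k + 1)).trans hxL
    have hLk : (len b k : ℝ) ≤ 2 * x := by
      exact_mod_cast (len_le_two_mul b k).trans (by omega)
    have hsub : B2 j ⊆ {g | (8 ^ x / devQ) ^ 2
        < ∑ i ∈ ({j} : Finset (Fin d)), g (.inl (.inl i)) ^ 2} := by
      intro g hg
      simp only [B2, ← hx, Set.mem_ofPred_eq, Finset.sum_singleton] at hg ⊢
      rw [← sq_abs (g _)]
      exact pow_lt_pow_left₀ hg (by unfold devQ; positivity) two_ne_zero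
    refine (measure_mono hsub).trans ((tailL _ _).trans (ENNReal.ofReal_le_ofReal ?_))
    rw [Finset.card_singleton, hε]
    have hhalf : exp (-1) ≤ (1 / 2 : ℝ) := by
      rw [exp_neg, one_div]; gcongr; linarith [Real.exp_one_gt_d9]
    calc exp (((1 : ℕ) : ℝ) / 2 - (8 ^ x / devQ) ^ 2 / 4)
        ≤ exp (-(tol b k) / 4) * (exp (-1) ^ x * exp (-1) ^ x) := by
          rw [← exp_nat_mul, ← exp_add, ← exp_add]
          apply exp_le_exp.2
          have hb : 1 + (63 : ℝ) * ((x - 20 : ℕ) : ℝ) ≤ (1 + 63 : ℝ) ^ (x - 20) := by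
            have := one_add_mul_le_pow (a := (63 : ℝ)) (by norm_num) (x - 20)
            linarith
          have h64 : (8 ^ x / devQ) ^ 2 = (64 : ℝ) ^ 20 / devQ ^ 2 * (1 + 63 : ℝ) ^ (x - 20) := by
            rw [div_pow, ← pow_mul, mul_comm x 2, pow_mul,
              show ((8 : ℝ) ^ 2) = 64 by norm_num, show ((1 : ℝ) + 63) = 64 by norm_num,
              div_mul_eq_mul_div, ← pow_add]
            congr 2
            omega
          have hx' : (x : ℝ) = 20 + ((x - 20 : ℕ) : ℝ) := by
            exact_mod_cast (by omega : x = 20 + (x - 20))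
          have h0 : (0 : ℝ) ≤ ((x - 20 : ℕ) : ℝ) := Nat.cast_nonneg _
          have hbig : (10 ^ 9 : ℝ) ≤ (64 : ℝ) ^ 20 / devQ ^ 2 := by norm_num [devQ]
          rw [h64]
          unfold tol
          push_cast
          nlinarith [mul_le_mul hbig hb (by positivity) (le_trans (by norm_num) hbig)]
      _ ≤ exp (-(tol b k) / 4) * ((1 / 2) ^ x * (1 / 2) ^ x) := by gcongr
  have h3 : μ B3 ≤ ENNReal.ofReal ε := by
    let S : Finset (Fin d × Fin d) :=
      Finset.univ.filter fun p => k < coh b p.1 ∧ k < coh b p.2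
    let cw : Kap d k → ℝ := fun i => Sum.elim (Sum.elim (fun _ => 0)
      fun p => (qw b (k + 1) p.1 * qw b (k + 1) p.2) ^ 2) (fun _ => 0) i
    have hcw : ∀ i, 0 ≤ cw i ∧ cw i ≤ 1 := by
      have hw : ∀ j, qw b (k + 1) j ≤ 1 := fun j => pow_le_one₀ (by norm_num) (by norm_num)
      rintro ((_ | p) | _)
      · simp [cw]
      · exact ⟨sq_nonneg _, pow_le_one₀ (mul_nonneg (qw_pos b _ _).le (qw_pos b _ _).le)
          (mul_le_one₀ (hw _) (qw_pos b _ _).le (hw _))⟩
      · simp [cw]
    have key := gauss_tail (S.image fun p => (Sum.inl (Sum.inr p) : Kap d k)) cw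
      (fun i _ => hcw i) (2 * crowd b (pos b (k + 1)) ^ 2 + tol b k)
    have hinj : Set.InjOn (fun p => (Sum.inl (Sum.inr p) : Kap d k)) S :=
      fun a _ c _ h => by simpa using h
    simp only [Finset.sum_image hinj, cw, Sum.elim_inl, Sum.elim_inr] at key
    have hB : B3 = {g | 2 * crowd b (pos b (k + 1)) ^ 2 + tol b k < ∑ p ∈ S,
        (qw b (k + 1) p.1 * qw b (k + 1) p.2) ^ 2 * g (.inl (.inr p)) ^ 2} := by
      simp only [B3, S, Finset.sum_filter]
    rw [hB, hμ]
    refine key.trans (ENNReal.ofReal_le_ofReal ?_)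
    rw [hε]
    apply exp_le_exp.2
    have hs : ∑ p ∈ S, (qw b (k + 1) p.1 * qw b (k + 1) p.2) ^ 2
        ≤ crowd b (pos b (k + 1)) ^ 2 := by
      rw [sq (crowd b _), show S = H ×ˢ H by ext p; simp [S, H]]
      rw [Finset.sum_product]
      have hle : ∀ j ∈ H, qw b (k + 1) j ^ 2 ≤
          (if pos b (k + 1) ≤ b j then (1 / 2 : ℝ) ^ (b j - pos b (k + 1)) else 0) := by
        intro j hj
        simp only [H, Finset.mem_filter, Finset.mem_univ, true_and] at hj
        rw [if_pos ((lt_coh_iff b).1 hj), qw, ← pow_mul, mul_comm, pow_mul]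
        exact pow_le_pow_left₀ (by norm_num) (by norm_num) _
      have hH : ∑ j ∈ H, qw b (k + 1) j ^ 2 ≤ crowd b (pos b (k + 1)) := by
        refine (Finset.sum_le_sum hle).trans
          (Finset.sum_le_sum_of_subset_of_nonneg (Finset.subset_univ _) ?_)
        intros; split_ifs <;> positivity
      simp only [mul_pow, ← Finset.mul_sum, ← Finset.sum_mul]
      exact mul_le_mul hH hH (Finset.sum_nonneg fun _ _ => sq_nonneg _) (crowd_nonneg b _)
    linarith
  have hexp : ∀ a : ℕ, exp (-2 * (a : ℝ)) ≤ (1 / 2 : ℝ) ^ a := by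
    intro a
    rw [mul_comm, exp_nat_mul]
    gcongr
    rw [exp_neg, one_div]
    gcongr
    linarith [add_one_le_exp (2 : ℝ)]
  have h4 : ∀ c, μ (B4 c) ≤ ENNReal.ofReal (ε * (1 / 2) ^ (k - c : ℕ)) := by
    intro c
    refine (tailL _ _).trans (ENNReal.ofReal_le_ofReal ?_)
    refine le_trans ?_ (mul_le_mul_of_nonneg_left (hexp _) hε0)
    rw [hε, ← exp_add]
    apply exp_le_exp.2
    have : (0 : ℝ) ≤ cohCard b c := Nat.cast_nonneg _
    simp only [cohCard] at this ⊢
    linarith
  have h5 : ∀ c, μ (B5 c) ≤ ENNReal.ofReal (ε * (1 / 2) ^ (k - c : ℕ)) := by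
    intro c
    have key := gauss_tail ({Sum.inr c} : Finset (Kap d k)) (fun _ => (1 : ℝ))
      (fun _ _ => by norm_num) (2 + 8 * ((k - c : ℕ) : ℝ) + tol b k)
    simp only [Finset.sum_singleton, one_mul] at key
    subst hμ
    refine key.trans (ENNReal.ofReal_le_ofReal ?_)
    refine le_trans ?_ (mul_le_mul_of_nonneg_left (hexp _) hε0)
    rw [hε, ← exp_add]
    apply exp_le_exp.2
    linarith
  -- sums
  have hgeom : ∀ s : Finset ℕ, ∑ n ∈ s, (1 / 2 : ℝ) ^ n ≤ 2 := fun s =>
    (summable_geometric_two.sum_le_tsum _ fun _ _ => by positivity).trans tsum_geometric_two.le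
  have hs1 : ∑ F ∈ 𝔉, (1 / 2 : ℝ) ^ F.card ≤ 2 := by
    rw [← Finset.sum_image (f := fun n => (1 / 2 : ℝ) ^ n) (g := Finset.card) ?_]
    · exact hgeom _
    intro A hA B hB hAB
    obtain ⟨i, _, rfl⟩ := Finset.mem_image.1 hA
    obtain ⟨j, _, rfl⟩ := Finset.mem_image.1 hB
    rcases le_total (b i) (b j) with h | h
    · refine Finset.eq_of_subset_of_card_le ?_ hAB.ge
      intro x; simp only [lowSet, Finset.mem_filter, Finset.mem_univ, true_and]; omega
    · refine (Finset.eq_of_subset_of_card_le ?_ hAB.le).symm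
      intro x; simp only [lowSet, Finset.mem_filter, Finset.mem_univ, true_and]; omega
  have hs2 : ∑ j ∈ H', (1 / 2 : ℝ) ^ hgt b (k + 1) j * (1 / 2) ^ hgt b (k + 1) j ≤ 1 := by
    calc ∑ j ∈ H', (1 / 2 : ℝ) ^ hgt b (k + 1) j * (1 / 2) ^ hgt b (k + 1) j
        ≤ ∑ j ∈ H', (1 / 2 : ℝ) ^ len b (k + 1) * (1 / 2) ^ hgt b (k + 1) j := by
          refine Finset.sum_le_sum fun j hj => ?_
          simp only [H', Finset.mem_filter, Finset.mem_univ, true_and] at hj
          refine mul_le_mul_of_nonneg_right ?_ (by positivity)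
          apply pow_le_pow_of_le_one (by norm_num) (by norm_num)
          have h1 := (lt_coh_iff b).1 hj
          rw [pos_succ b (k + 1)] at h1
          rw [hgt]; omega
      _ ≤ (1 / 2 : ℝ) ^ len b (k + 1) * crowd b (pos b (k + 1)) := by
          rw [← Finset.mul_sum]
          gcongr
          refine le_trans (Finset.sum_le_sum (g := fun j => if pos b (k + 1) ≤ b j then
            (1 / 2 : ℝ) ^ (b j - pos b (k + 1)) else 0) fun j hj => ?_)
            (Finset.sum_le_sum_of_subset_of_nonneg (Finset.subset_univ _) ?_)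
          · simp only [H', Finset.mem_filter, Finset.mem_univ, true_and] at hj
            rw [if_pos ((lt_coh_iff b).1 (by omega)), hgt]
          · intros; split_ifs <;> positivity
      _ ≤ (1 / 2 : ℝ) ^ len b (k + 1) * 2 ^ len b (k + 1) := by
          gcongr
          have h1 := crowd_le_len b (k + 1)
          have h2 : (len b (k + 1) : ℝ) < 2 ^ len b (k + 1) := by
            exact_mod_cast Nat.lt_two_pow_self
          linarith
      _ = 1 := by rw [← mul_pow]; norm_num
  have hs4 : ∑ c : Fin (k + 1), (1 / 2 : ℝ) ^ (k - c : ℕ) ≤ 2 := by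
    rw [Fin.sum_univ_eq_sum_range (fun c => (1 / 2 : ℝ) ^ (k - c)) (k + 1)]
    have h := Finset.sum_range_reflect (fun n => (1 / 2 : ℝ) ^ n) (k + 1)
    simp only [Nat.add_sub_cancel] at h
    rw [h]
    exact hgeom _
  have bnd : ∀ {α : Type} (s : Finset α) (B : α → Set (EuclideanSpace ℝ (Kap d k))) (r : α → ℝ)
      (R : ℝ), (∀ i ∈ s, μ (B i) ≤ ENNReal.ofReal (ε * r i)) → (∀ i ∈ s, 0 ≤ r i) →
      ∑ i ∈ s, r i ≤ R → μ (⋃ i ∈ s, B i) ≤ ENNReal.ofReal (ε * R) := by
    intro α s B r R hB hr hR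
    refine (measure_biUnion_finset_le s B).trans ((Finset.sum_le_sum hB).trans ?_)
    rw [← ENNReal.ofReal_sum_of_nonneg fun i hi => mul_nonneg hε0 (hr i hi), ← Finset.mul_sum]
    exact ENNReal.ofReal_le_ofReal (mul_le_mul_of_nonneg_left hR hε0)
  rw [← hμ]
  have e1 := bnd 𝔉 B1 _ 2 h1 (fun _ _ => by positivity) hs1
  have e2 := bnd H' B2 _ 1 h2 (fun _ _ => by positivity) hs2
  have e4 := bnd Finset.univ B4 _ 2 (fun c _ => h4 c) (fun _ _ => by positivity) hs4
  have e5 := bnd Finset.univ B5 _ 2 (fun c _ => h5 c) (fun _ _ => by positivity) hs4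
  refine (measure_mono hcover).trans ?_
  refine (measure_union_le _ _).trans ?_
  refine (add_le_add e1 ((measure_union_le _ _).trans (add_le_add e2
    ((measure_union_le _ _).trans (add_le_add h3 ((measure_union_le _ _).trans
      (add_le_add e4 e5))))))).trans ?_
  rw [← ENNReal.ofReal_add (by positivity) (by positivity),
    ← ENNReal.ofReal_add hε0 (by positivity), ← ENNReal.ofReal_add (by positivity) (by positivity),
    ← ENNReal.ofReal_add (by positivity) (by positivity)]
  apply ENNReal.ofReal_le_ofReal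
  have hgoal : ε * 8 * (4096 * ((256 ^ len b k : ℕ) : ℝ)) ≤ 1 := by
    rw [hε, tol]
    have he : exp (-(24 * (len b k : ℝ) + 48) / 4) = exp (-6) ^ len b k * exp (-12) := by
      rw [← exp_nat_mul, ← exp_add]; congr 1; ring
    rw [he]
    push_cast
    have hE : (271828 / 100000 : ℝ) ≤ exp 1 := by linarith [Real.exp_one_gt_d9]
    have hneg : ∀ n : ℕ, exp (-(n : ℝ)) ≤ ((100000 : ℝ) / 271828) ^ n := by
      intro n
      rw [show -(n : ℝ) = (n : ℝ) * (-1) by ring, exp_nat_mul]
      gcongr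
      rw [exp_neg, inv_le_comm₀ (exp_pos _) (by norm_num), inv_div]
      exact hE
    have e6 : exp (-6) * 256 ≤ 1 := by
      have := hneg 6
      norm_num at this
      linarith
    have e12 : exp (-12) * 8 * 4096 ≤ 1 := by
      have := hneg 12
      norm_num at this
      linarith
    calc exp (-6) ^ len b k * exp (-12) * 8 * (4096 * 256 ^ len b k)
        = (exp (-6) * 256) ^ len b k * (exp (-12) * 8 * 4096) := by rw [mul_pow]; ring
      _ ≤ 1 := mul_le_one₀ (pow_le_one₀ (by positivity) e6) (by positivity) e12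
  rw [le_div_iff₀ (by positivity)]
  calc _ = ε * 8 * (4096 * ((256 ^ len b k : ℕ) : ℝ)) := by ring
    _ ≤ 1 := hgoal

lemma goodBody_stageBody (k : ℕ) : GoodBody (stageBody b k) (256 ^ len b k) :=
  ⟨convex_stageBody b k, isClosed_stageBody b k, neg_mem_stageBody b k,
    ⟨1 / devQ, by norm_num [devQ], ball_subset_stageBody b k⟩, measure_stageBody_compl b k⟩

end Vale.Agent.P262
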