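import Vale.Agent.P262.Shift
import Vale.Agent.P262.Body

/-!
Propagation of the endpoint invariant through one stage (P262).
-/

namespace Vale.Agent.P262

variable {d : ℕ} {b : Fin d → ℕ}

/-- Clipping of the coordinates which stay high. -/
noncomputable def clipPart (b : Fin d → ℕ) (k : ℕ) (P : Fin d → ℝ) : Fin d → ℝ := fun j =>
  if k + 1 < coh b j then max (-(8 ^ hgt b (k + 1) j)) (min (8 ^ hgt b (k + 1) j) (P j)) else 0

lemma abs_clipPart_le (k : ℕ) (P : Fin d → ℝ) (j : Fin d) :
    |clipPart b k P j| ≤ 8 ^ hgt b (k + 1) j := by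
  have h : (0 : ℝ) ≤ 8 ^ hgt b (k + 1) j := by positivity
  unfold clipPart
  split_ifs
  · rw [abs_le]
    exact ⟨le_max_left _ _, max_le (by linarith) (min_le_left _ _)⟩
  · simp

lemma clipPart_eq_zero (k : ℕ) (P : Fin d → ℝ) (j : Fin d) (h : ¬ k + 1 < coh b j) :
    clipPart b k P j = 0 := if_neg h

lemma abs_reset_add_le {R P e : ℝ} (hR : R < |P|) (he : |e| ≤ R) :
    |P - max (-R) (min R P) + e| ≤ |P| := by
  have hR0 : 0 ≤ R := (abs_nonneg e).trans he
  have he' := abs_le.1 he
  rcases le_or_gt 0 P with hP | hP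
  · rw [abs_of_nonneg hP] at hR ⊢
    rw [min_eq_left hR.le, max_eq_right (by linarith), abs_le]
    constructor <;> linarith
  · rw [abs_of_neg hP] at hR ⊢
    rw [min_eq_right (by linarith), max_eq_left (by linarith), abs_le]
    constructor <;> linarith

lemma reset_of_abs_le {R P : ℝ} (hR : |P| ≤ R) : P - max (-R) (min R P) = 0 := by
  have h := abs_le.1 hR
  rw [min_eq_right h.2, max_eq_right h.1, sub_self]

lemma endInv_mono (k : ℕ) {z : Fin d → ℝ} (hz : EndInv b k z) : EndInv b (k + 1) z := by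
  intro T
  have h := hz (max T (pos b (k + 2)))
  have hs : surplus b k ≤ surplus b (k + 1) := by
    rw [surplus_succ]
    have := acc_nonneg b k
    unfold devQ
    linarith
  have hc : (0 : ℝ) ≤ cHigh := by norm_num [cHigh, devQ]
  refine le_trans (Finset.sum_le_sum fun j _ => ?_) (le_trans h (add_le_add ?_ hs))
  · refine mul_le_mul_of_nonneg_right ?_ (sq_nonneg _)
    have h2 := two_le_highWt b k j
    unfold invWt
    by_cases h1 : coh b j ≤ k
    · rw [if_pos h1, if_pos (by omega)]
    · rw [if_neg h1]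
      by_cases h3 : coh b j ≤ k + 1
      · rw [if_pos h3, if_pos (lt_of_lt_of_le ((coh_le_iff b).1 h3) (le_max_right _ _))]
        linarith
      · rw [if_neg h3]
        by_cases h4 : b j < T
        · rw [if_pos h4, if_pos (lt_of_lt_of_le h4 (le_max_left _ _)), highWt_succ b (show k + 1 < coh b j by omega)]
          have : (0 : ℝ) ≤ (1 / 2 : ℝ) ^ hgt b (k + 1) j := by positivity
          linarith
        · rw [if_neg h4]
          split_ifs <;> linarith
  · refine Finset.sum_le_sum fun j _ => ?_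
    unfold invCap
    by_cases h1 : coh b j ≤ k
    · rw [if_pos h1, if_pos (by omega)]
    · rw [if_neg h1]
      by_cases h3 : coh b j ≤ k + 1
      · rw [if_pos h3]
        split_ifs <;> linarith
      · rw [if_neg h3]
        have h5 : pos b (k + 2) ≤ b j := (lt_coh_iff b).1 (by omega)
        by_cases h4 : b j < T
        · rw [if_pos h4, if_pos (lt_of_lt_of_le h4 (le_max_left _ _))]
        · rw [if_neg h4, if_neg]
          rw [not_lt]; exact max_le (by omega) h5

lemma endInv_convex (k : ℕ) {z w : Fin d → ℝ} (hz : EndInv b k z) (hw : EndInv b k w)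
    {t : ℝ} (ht0 : 0 ≤ t) (ht1 : t ≤ 1) :
    EndInv b k (fun j => (1 - t) * z j + t * w j) := by
  intro T
  calc ∑ j, invWt b k T j * ((1 - t) * z j + t * w j) ^ 2
      ≤ (1 - t) * ∑ j, invWt b k T j * z j ^ 2 + t * ∑ j, invWt b k T j * w j ^ 2 := by
        rw [Finset.mul_sum, Finset.mul_sum, ← Finset.sum_add_distrib]
        refine Finset.sum_le_sum fun j _ => ?_
        nlinarith [mul_nonneg (mul_nonneg (invWt_nonneg b k T j) (mul_nonneg ht0 (sub_nonneg.2 ht1)))
          (sq_nonneg (z j - w j))]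
    _ ≤ (1 - t) * ((∑ j, invCap b k T j) + surplus b k)
          + t * ((∑ j, invCap b k T j) + surplus b k) :=
        add_le_add (mul_le_mul_of_nonneg_left (hz T) (sub_nonneg.2 ht1))
          (mul_le_mul_of_nonneg_left (hw T) ht0)
    _ = _ := by ring

/-- One endpoint after resetting and adding the fresh deviation. -/
lemma endInv_reset (k : ℕ) {P : Fin d → ℝ} (hP : EndInv b k P) (e : Fin d → ℝ)
    (he0 : ∀ j, coh b j ≤ k → e j = 0)
    (he1 : ∀ T, ∑ j ∈ lowSet b k T, e j ^ 2
      ≤ devQ ^ 2 * (6 * ((lowSet b k T).card : ℝ) + tol b k))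
    (he2 : ∀ j, k + 1 < coh b j → |e j| ≤ 8 ^ hgt b (k + 1) j) :
    EndInv b (k + 1) (fun j => P j - clipPart b k P j + e j) := by
  classical
  intro T
  let S : Finset (Fin d) := Finset.univ.filter fun j =>
    k + 1 < coh b j ∧ b j < T ∧ (8 : ℝ) ^ hgt b (k + 1) j < |P j|
  let F : Finset (Fin d) := lowSet b k (max T (pos b (k + 2)))
  have hmemF : ∀ j, j ∈ F ↔ k < coh b j ∧ (coh b j = k + 1 ∨ b j < T) := by
    intro j
    simp only [F, lowSet, Finset.mem_filter, Finset.mem_univ, true_and, lt_max_iff]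
    constructor
    · rintro ⟨h1, h2 | h2⟩
      · exact ⟨h1, Or.inr h2⟩
      · exact ⟨h1, Or.inl (by have := (coh_le_iff b).2 h2; omega)⟩
    · rintro ⟨h1, h2 | h2⟩
      · exact ⟨h1, Or.inr ((coh_le_iff b).1 h2.le)⟩
      · exact ⟨h1, Or.inl h2⟩
  -- the threshold for the old invariant
  obtain ⟨U, hU2, hUS, hUwaste⟩ : ∃ U, pos b (k + 2) ≤ U ∧ (∀ j ∈ S, b j < U) ∧
      (∀ j, k + 1 < coh b j → b j < U → b j < T) ∧
      cHigh * (((Finset.univ.filter fun j => k + 1 < coh b j ∧ b j < U).card : ℕ) : ℝ)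
        ≤ ∑ j ∈ S, (1 / 2 : ℝ) ^ hgt b (k + 1) j * (8 ^ hgt b (k + 1) j) ^ 2 := by
    rcases Finset.eq_empty_or_nonempty S with hS | hS
    · refine ⟨pos b (k + 2), le_rfl, by simp [hS], fun j hj hj' => ?_, ?_⟩
      · exact absurd ((coh_le_iff b).2 hj') (by omega)
      · rw [hS, Finset.sum_empty,
          show (Finset.univ.filter fun j => k + 1 < coh b j ∧ b j < pos b (k + 2)) = ∅ by
            ext j
            simp only [Finset.mem_filter, Finset.mem_univ, true_and, Finset.notMem_empty,
              iff_false, not_and, not_lt]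
            exact fun h => (lt_coh_iff b).1 h]
        simp
    · obtain ⟨s, hs, hsmax⟩ := Finset.exists_max_image S b hS
      have hs' := (Finset.mem_filter.1 hs).2
      have hs2 : pos b (k + 2) ≤ b s := (lt_coh_iff b).1 hs'.1
      refine ⟨b s + 1, by omega, fun j hj => Nat.lt_succ_of_le (hsmax j hj),
        fun j _ hj' => by omega, ?_⟩
      obtain ⟨x, hx⟩ : ∃ x, x = hgt b (k + 1) s := ⟨_, rfl⟩
      have hxL : len b (k + 1) ≤ x := hx ▸ len_le_hgt hs'.1
      have hcount : (((Finset.univ.filter fun j => k + 1 < coh b j ∧ b j < b s + 1).card : ℕ) : ℝ)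
          ≤ crowd b (pos b (k + 1)) * 2 ^ x := by
        refine le_trans ?_ (card_band_le b (pos b (k + 1)) x)
        norm_cast
        refine Finset.card_le_card fun j hj => ?_
        simp only [Finset.mem_filter, Finset.mem_univ, true_and] at hj ⊢
        have := pos_le_of_le_coh b (k := k + 1) hj.1.le
        have := pos_lt_succ b (k + 1)
        rw [hx, hgt]
        exact ⟨pos_le_of_le_coh b (k := k + 1) hj.1.le, by omega⟩
      have hbig : cHigh * crowd b (pos b (k + 1)) * 2 ^ x
          ≤ (1 / 2 : ℝ) ^ x * (8 ^ x) ^ 2 := by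
        have h1 : (1 / 2 : ℝ) ^ x * (8 ^ x) ^ 2 = 16 ^ x * 2 ^ x := by
          rw [← pow_mul, mul_comm x 2, pow_mul, ← mul_pow, ← mul_pow]; norm_num
        rw [h1]
        refine mul_le_mul_of_nonneg_right ?_ (by positivity)
        have h2 := crowd_le_len b (k + 1)
        have h3 : (1000 : ℝ) * len b (k + 1) ≤ 2 ^ x := by
          refine le_trans ?_ (pow_le_pow_right₀ (by norm_num) hxL)
          exact_mod_cast len_mul_le_pow (twenty_le_len b (k + 1))
        have h4 : cHigh / 1000 ≤ (8 : ℝ) ^ x := by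
          refine le_trans ?_ (pow_le_pow_right₀ (by norm_num)
            ((twenty_le_len b (k + 1)).trans hxL))
          norm_num [cHigh, devQ]
        have hc : (0 : ℝ) ≤ cHigh := by norm_num [cHigh, devQ]
        calc cHigh * crowd b (pos b (k + 1)) ≤ cHigh / 1000 * (1000 * len b (k + 1)) := by
              have : cHigh * crowd b (pos b (k + 1)) ≤ cHigh * len b (k + 1) :=
                mul_le_mul_of_nonneg_left (by linarith) hc
              linarith
          _ ≤ 8 ^ x * 2 ^ x := mul_le_mul h4 h3 (by positivity) (by positivity)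
          _ = 16 ^ x := by rw [← mul_pow]; norm_num
      calc _ ≤ cHigh * (crowd b (pos b (k + 1)) * 2 ^ x) :=
            mul_le_mul_of_nonneg_left hcount (by norm_num [cHigh, devQ])
        _ ≤ (1 / 2 : ℝ) ^ x * (8 ^ x) ^ 2 := by linarith
        _ ≤ _ := hx ▸ Finset.single_le_sum
            (f := fun j => (1 / 2 : ℝ) ^ hgt b (k + 1) j * (8 ^ hgt b (k + 1) j) ^ 2)
            (fun j _ => by positivity) hs
  obtain ⟨hUT, hwaste⟩ := hUwaste
  -- pointwise comparison
  have key : ∀ j, invWt b (k + 1) T j * (P j - clipPart b k P j + e j) ^ 2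
      + (if j ∈ S then (1 / 2 : ℝ) ^ hgt b (k + 1) j * (8 ^ hgt b (k + 1) j) ^ 2 else 0)
      ≤ invWt b k U j * P j ^ 2 + (if j ∈ F then 4 * e j ^ 2 else 0) := by
    intro j
    have hG := two_le_highWt b k j
    have hG1 := two_le_highWt b (k + 1) j
    have hG4 := highWt_le_four b (k + 1) j
    by_cases h1 : coh b j ≤ k
    · have hS : j ∉ S := by simp [S]; omega
      have hF : j ∉ F := by simp [hmemF]; omega
      simp [invWt, h1, hS, hF, clipPart, he0 j h1, show coh b j ≤ k + 1 by omega,
        show ¬ k + 1 < coh b j by omega]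
    by_cases h2 : coh b j = k + 1
    · have hS : j ∉ S := by simp [S]; omega
      have hF : j ∈ F := (hmemF j).2 ⟨by omega, Or.inl h2⟩
      rw [if_neg hS, if_pos hF, clipPart_eq_zero k P j (by omega), sub_zero, invWt, invWt,
        if_pos (le_of_eq h2), if_neg h1,
        if_pos (lt_of_lt_of_le ((coh_le_iff b).1 h2.le) hU2)]
      nlinarith [sq_nonneg (P j - e j), mul_le_mul_of_nonneg_right hG (sq_nonneg (P j)),
        sq_nonneg (e j)]
    have h3 : k + 1 < coh b j := by omega
    by_cases hT : b j < T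
    · have hF : j ∈ F := (hmemF j).2 ⟨by omega, Or.inr hT⟩
      rw [if_pos hF, invWt, if_neg (by omega), if_pos hT, clipPart, if_pos h3]
      by_cases hS : j ∈ S
      · rw [if_pos hS, invWt, if_neg h1, if_pos (hUS j hS), highWt_succ b h3]
        have hR := (Finset.mem_filter.1 hS).2.2.2
        have hle := abs_reset_add_le hR (he2 j h3)
        have hsq : (P j - max (-(8 ^ hgt b (k + 1) j)) (min (8 ^ hgt b (k + 1) j) (P j)) + e j) ^ 2
            ≤ P j ^ 2 := sq_le_sq.2 hle
        have hRsq : ((8 : ℝ) ^ hgt b (k + 1) j) ^ 2 ≤ P j ^ 2 := by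
          rw [← sq_abs (P j)]
          exact pow_le_pow_left₀ (by positivity) hR.le 2
        have hp : (0 : ℝ) ≤ (1 / 2 : ℝ) ^ hgt b (k + 1) j := by positivity
        nlinarith [mul_le_mul_of_nonneg_left hsq (by linarith : (0 : ℝ) ≤ highWt b (k + 1) j),
          mul_le_mul_of_nonneg_left hRsq hp, sq_nonneg (e j)]
      · have hR : |P j| ≤ 8 ^ hgt b (k + 1) j := by
          simp [S, h3, hT] at hS
          exact hS
        rw [if_neg hS, reset_of_abs_le hR, zero_add, add_zero]
        nlinarith [mul_le_mul_of_nonneg_right hG4 (sq_nonneg (e j)),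
          mul_nonneg (invWt_nonneg b k U j) (sq_nonneg (P j))]
    · have hS : j ∉ S := by simp [S, hT]
      rw [if_neg hS, invWt, if_neg (by omega), if_neg hT, zero_mul, zero_add]
      refine add_nonneg (mul_nonneg (invWt_nonneg b k U j) (sq_nonneg _)) ?_
      split_ifs <;> positivity
  have hsum := Finset.sum_le_sum (s := Finset.univ) fun j _ => key j
  rw [Finset.sum_add_distrib, Finset.sum_add_distrib, Finset.sum_ite_mem, Finset.sum_ite_mem,
    Finset.univ_inter, Finset.univ_inter, ← Finset.mul_sum] at hsum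
  -- the deviation budget
  have hdev : 4 * ∑ j ∈ F, e j ^ 2 ≤ cHigh * F.card + 96 * devQ ^ 2 * acc b k := by
    have hacc := acc_nonneg b k
    rcases Finset.eq_empty_or_nonempty F with h | h
    · rw [h]; simp; positivity
    · have hn : (1 : ℝ) ≤ (F.card : ℝ) := by exact_mod_cast h.card_pos
      have h1 := he1 (max T (pos b (k + 2)))
      have h2 := len_le_acc b k
      have h3 : tol b k ≤ 576 * (F.card : ℝ) + 24 * acc b k := by
        unfold tol; nlinarith
      have h4 : devQ ^ 2 * (6 * (F.card : ℝ) + tol b k)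
          ≤ devQ ^ 2 * (582 * (F.card : ℝ) + 24 * acc b k) :=
        mul_le_mul_of_nonneg_left (by linarith) (sq_nonneg _)
      rw [cHigh]
      linarith
  have hcap : ∑ j, invCap b k U j + cHigh * F.card
      ≤ ∑ j, invCap b (k + 1) T j
        + cHigh * (((Finset.univ.filter fun j => k + 1 < coh b j ∧ b j < U).card : ℕ) : ℝ) := by
    rw [Finset.card_eq_sum_ones F, Finset.card_eq_sum_ones, Nat.cast_sum, Nat.cast_sum,
      Finset.mul_sum, Finset.mul_sum, Finset.sum_filter]
    rw [show ∑ i ∈ F, cHigh * ((1 : ℕ) : ℝ) = ∑ j, if j ∈ F then cHigh else 0 by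
      rw [Finset.sum_ite_mem, Finset.univ_inter]; simp]
    rw [← Finset.sum_add_distrib, ← Finset.sum_add_distrib]
    refine Finset.sum_le_sum fun j _ => ?_
    have hc : (0 : ℝ) ≤ cHigh := by norm_num [cHigh, devQ]
    simp only [hmemF, invCap, Nat.cast_one, mul_one]
    by_cases h1 : coh b j ≤ k
    · rw [if_pos h1, if_pos (show coh b j ≤ k + 1 by omega), if_neg (by omega), if_neg (by omega)]
    by_cases h2 : coh b j = k + 1
    · have hb : b j < U := lt_of_lt_of_le ((coh_le_iff b).1 h2.le) hU2
      simp [h2, hb]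
      linarith
    have h3 : k + 1 < coh b j := by omega
    by_cases hT : b j < T
    · by_cases hU : b j < U
      · simp [h1, h2, h3, hT, hU, show ¬ coh b j ≤ k + 1 by omega, show k < coh b j by omega]
      · simp [h1, h2, h3, hT, hU, show ¬ coh b j ≤ k + 1 by omega, show k < coh b j by omega]
    · have hU : ¬ b j < U := fun h => hT (hUT j h3 h)
      simp [h1, h2, h3, hT, hU, show ¬ coh b j ≤ k + 1 by omega]
  have hinv := hP U
  rw [surplus_succ]
  linarith

end Vale.Agent.P262
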