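import Vale.Agent.P262.Body

/-!
The lifted statistics of an item at stage `k` and the partition they give (P262).
-/

namespace Vale.Agent.P262

open scoped Pointwise

variable {d : ℕ} (b : Fin d → ℕ)

/-- Lifted statistics of an item. -/
noncomputable def liftVec (k : ℕ) (u : Fin d → ℝ) : EuclideanSpace ℝ (Kap d k) :=
  WithLp.toLp 2 fun q => Sum.elim
    (Sum.elim
      (fun j => if k < coh b j then u j
        else agec (k - coh b j) / sig (k - coh b j) * (smallInd b (k - coh b j) (coh b j) u * u j))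
      (fun p => if k < coh b p.1 ∧ k < coh b p.2 then u p.1 * u p.2 else 0))
    (fun c : Fin (k + 1) => agec (k - (c : ℕ)) / sig (k - (c : ℕ)) ^ 2
      * (smallInd b (k - (c : ℕ)) c u * cmass b c u)) q

lemma sum_agec_sq_le (s : Finset ℕ) : ∑ a ∈ s, agec a ^ 2 ≤ 16 / 7 := by
  have h : ∀ a : ℕ, agec a ^ 2 = (9 / 16 : ℝ) ^ a := fun a => by
    rw [agec, ← pow_mul, mul_comm a 2, pow_mul]; norm_num
  simp only [h]
  have hs : Summable fun a : ℕ => (9 / 16 : ℝ) ^ a :=
    summable_geometric_of_lt_one (by norm_num) (by norm_num)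
  refine (hs.sum_le_tsum _ fun _ _ => by positivity).trans ?_
  rw [tsum_geometric_of_lt_one (by norm_num) (by norm_num)]
  norm_num

lemma norm_liftVec_le (k : ℕ) {u : Fin d → ℝ} (hu : ∑ j, u j ^ 2 ≤ 1) : ‖liftVec b k u‖ ≤ 3 := by
  have hsmall : ∀ a c : ℕ, smallInd b a c u * cmass b c u ≤ sig a ^ 2 := by
    intro a c
    unfold smallInd
    split_ifs with h
    · rwa [one_mul]
    · rw [zero_mul]; positivity
  have hagesum : ∑ c : Fin (k + 1), agec (k - (c : ℕ)) ^ 2 ≤ 16 / 7 := by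
    rw [Fin.sum_univ_eq_sum_range (fun c => agec (k - c) ^ 2) (k + 1)]
    have h := Finset.sum_range_reflect (fun n => agec n ^ 2) (k + 1)
    simp only [Nat.add_sub_cancel] at h
    rw [h]
    exact sum_agec_sq_le _
  have hsq : ‖liftVec b k u‖ ^ 2 ≤ 9 := by
    rw [EuclideanSpace.real_norm_sq_eq, Fintype.sum_sum_type, Fintype.sum_sum_type]
    simp only [liftVec, Sum.elim_inl, Sum.elim_inr]
    have h1 : ∑ j, (if k < coh b j then u j
        else agec (k - coh b j) / sig (k - coh b j) * (smallInd b (k - coh b j) (coh b j) u * u j)) ^ 2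
        ≤ 1 + 16 / 7 := by
      calc _ = ∑ j, ((if k < coh b j then u j ^ 2 else 0) + ∑ c : Fin (k + 1),
            (if coh b j = (c : ℕ) then agec (k - c) ^ 2 / sig (k - c) ^ 2
              * (smallInd b (k - c) c u * u j ^ 2) else 0)) := by
            refine Finset.sum_congr rfl fun j _ => ?_
            by_cases hj : k < coh b j
            · rw [if_pos hj, if_pos hj, Finset.sum_eq_zero fun c _ => if_neg ?_, add_zero]
              have := c.isLt
              omega
            · rw [if_neg hj, if_neg hj, zero_add,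
                Finset.sum_eq_single_of_mem (⟨coh b j, by omega⟩ : Fin (k + 1)) (Finset.mem_univ _)
                  (fun c _ hc => if_neg fun h => hc (Fin.ext h.symm)), if_pos rfl]
              rw [mul_pow, mul_pow, div_pow, smallInd_sq]
        _ ≤ _ := by
            rw [Finset.sum_add_distrib, Finset.sum_comm]
            refine add_le_add (le_trans (Finset.sum_le_sum fun j _ => ?_) hu)
              (le_trans (Finset.sum_le_sum fun c _ => ?_) hagesum)
            · split_ifs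
              · exact le_rfl
              · exact sq_nonneg _
            · have hs := sig_pos (k - (c : ℕ))
              have : ∑ j, (if coh b j = (c : ℕ) then agec (k - c) ^ 2 / sig (k - c) ^ 2
                  * (smallInd b (k - c) c u * u j ^ 2) else 0)
                  = agec (k - c) ^ 2 / sig (k - c) ^ 2
                    * (smallInd b (k - c) c u * cmass b c u) := by
                simp only [cmass, Finset.mul_sum]
                exact Finset.sum_congr rfl fun j _ => by split_ifs <;> simp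
              rw [this, div_mul_eq_mul_div, div_le_iff₀ (by positivity)]
              exact mul_le_mul_of_nonneg_left (hsmall _ _) (sq_nonneg _)
    have h2 : ∑ p : Fin d × Fin d, (if k < coh b p.1 ∧ k < coh b p.2 then u p.1 * u p.2 else 0) ^ 2
        ≤ 1 := by
      refine le_trans (Finset.sum_le_sum (g := fun p => u p.1 ^ 2 * u p.2 ^ 2) fun p _ => ?_) ?_
      · split_ifs
        · rw [mul_pow]
        · rw [sq, mul_zero]; positivity
      · rw [Fintype.sum_prod_type]
        simp only []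
        rw [← Finset.sum_mul_sum]
        exact mul_le_one₀ hu (Finset.sum_nonneg fun j _ => sq_nonneg _) hu
    have h3 : ∑ c : Fin (k + 1), (agec (k - (c : ℕ)) / sig (k - (c : ℕ)) ^ 2
        * (smallInd b (k - (c : ℕ)) c u * cmass b c u)) ^ 2 ≤ 16 / 7 := by
      refine le_trans (Finset.sum_le_sum fun c _ => ?_) hagesum
      have hs := sig_pos (k - (c : ℕ))
      have ha := agec_pos (k - (c : ℕ))
      refine pow_le_pow_left₀ (mul_nonneg (by positivity)
        (mul_nonneg (smallInd_nonneg b _ _ _) (cmass_nonneg b _ _))) ?_ 2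
      rw [div_mul_eq_mul_div, div_le_iff₀ (by positivity)]
      exact mul_le_mul_of_nonneg_left (hsmall _ _) ha.le
    linarith
  refine abs_le_of_sq_le_sq' ?_ (by norm_num) |>.2
  linarith

/-- The partition of stage `k`, in terms of the lifted statistics. -/
lemma exists_lift_partition {ι : Type*} (k : ℕ) (J : Finset ι) (v : ι → Fin d → ℝ)
    (hv : ∀ i ∈ J, ∑ j, v i j ^ 2 ≤ 1) (x₁ x₃ : ι → ℝ)
    (hx₁ : ∀ i ∈ J, |x₁ i| ≤ 1 / (4 * 256 ^ len b k))
    (hx₃ : ∀ i ∈ J, |x₃ i| ≤ 1 / (4 * 256 ^ len b k)) :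
    ∃ (g : ι → ℕ) (cA cB : ℕ → ℝ) (ζ : ℕ → EuclideanSpace ℝ (Kap d k)),
      (∀ i ∈ J, g i < 256 ^ len b k) ∧
      (∀ r, |cA r| ≤ 1 ∧ |cB r| ≤ 1) ∧
      (cA 0 = 0 ∧ cB 0 = 0 ∧ cA (256 ^ len b k) = 0 ∧ cB (256 ^ len b k) = 0) ∧
      (∀ r : ℕ, 1 ≤ r → r < 256 ^ len b k →
        cA r * (1 - 1 / (256 : ℝ) ^ len b k) - cB r * (1 / (256 : ℝ) ^ len b k)
          = 1 - (r : ℝ) / (256 : ℝ) ^ len b k ∧
        cA r * (1 / (256 : ℝ) ^ len b k) - cB r * (1 - 1 / (256 : ℝ) ^ len b k)
          = (r : ℝ) / (256 : ℝ) ^ len b k) ∧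
      (∀ r ≤ 256 ^ len b k, ζ r ∈ stageBody b k) ∧
      (ζ 0 = 0 ∧ ζ (256 ^ len b k) = 0) ∧
      (∀ r ≤ 256 ^ len b k, ∀ q : Kap d k,
        ∑ i ∈ J.filter (fun i => g i < r), liftVec b k (v i) q
          = (r : ℝ) / (256 : ℝ) ^ len b k * ∑ i ∈ J, liftVec b k (v i) q
            + cA r * ∑ i ∈ J, x₁ i * liftVec b k (v i) q
            + cB r * ∑ i ∈ J, x₃ i * liftVec b k (v i) q
            + devQ * ζ r q) := by
  classical
  obtain ⟨M, hM⟩ : ∃ M : ℕ, M = 256 ^ len b k := ⟨_, rfl⟩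
  have hM256 : 256 ≤ M := hM ▸ Nat.le_self_pow (by have := twenty_le_len b k; omega) _
  have heven : 2 ∣ M := hM ▸ Dvd.dvd.trans (by norm_num)
    (dvd_pow_self 256 (by have := twenty_le_len b k; omega))
  obtain ⟨m, hm⟩ : ∃ m, M = 2 * m + 2 := ⟨M / 2 - 1, by omega⟩
  have hm1 : 1 ≤ m := by omega
  have hMR : (256 : ℝ) ^ len b k = 2 * (m : ℝ) + 2 := by
    exact_mod_cast hM.symm.trans hm
  have hmR : (1 : ℝ) ≤ m := by exact_mod_cast hm1
  have hgood : GoodBody (stageBody b k) (2 * m + 2) := by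
    rw [← hm, hM]; exact goodBody_stageBody b k
  have hw : ∀ i ∈ J, ‖(1 / 3 : ℝ) • liftVec b k (v i)‖ ≤ 1 := by
    intro i hi
    rw [norm_smul, Real.norm_eq_abs, abs_of_pos (by norm_num : (0 : ℝ) < 1 / 3)]
    linarith [norm_liftVec_le b k (hv i hi)]
  have hhalf : (1 : ℝ) / (4 * 256 ^ len b k) ≤ 1 / (2 * (2 * m + 2)) := by
    rw [hMR]
    exact div_le_div_of_nonneg_left zero_le_one (by positivity) (by linarith)
  obtain ⟨g, hg, hdev⟩ := stage_partition (stageBody b k) m hm1 hgood J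
    (fun i => (1 / 3 : ℝ) • liftVec b k (v i)) hw x₁ x₃
    (fun i hi => (hx₁ i hi).trans hhalf) (fun i hi => (hx₃ i hi).trans hhalf)
  let cA : ℕ → ℝ := fun r => if 1 ≤ r ∧ r < M then 1 - ((r : ℝ) - 1) / (2 * m) else 0
  let cB : ℕ → ℝ := fun r => if 1 ≤ r ∧ r < M then -(((r : ℝ) - 1) / (2 * m)) else 0
  have hz : ∀ r, ∃ z : EuclideanSpace ℝ (Kap d k), (r ≤ M → z ∈ stageBody b k) ∧
      ((r = 0 ∨ r = M) → z = 0) ∧
      (1 ≤ r → r < M → (500 : ℝ) • z = ∑ i ∈ J.filter (fun i => g i < r),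
        (1 / 3 : ℝ) • liftVec b k (v i) -
        (((r : ℝ) / (2 * m + 2)) • (∑ i ∈ J, (1 / 3 : ℝ) • liftVec b k (v i))
          + (1 - ((r : ℝ) - 1) / (2 * m)) • (∑ i ∈ J, x₁ i • ((1 / 3 : ℝ) • liftVec b k (v i)))
          - (((r : ℝ) - 1) / (2 * m)) • (∑ i ∈ J, x₃ i • ((1 / 3 : ℝ) • liftVec b k (v i))))) := by
    intro r
    by_cases hr : 1 ≤ r ∧ r < M
    · obtain ⟨z, hz, hz'⟩ := Set.mem_smul_set.1 (hdev r hr.1 (by omega))
      exact ⟨z, fun _ => hz, fun h => by omega, fun _ _ => hz'⟩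
    · refine ⟨0, fun _ => ?_, fun _ => rfl, fun h1 h2 => absurd ⟨h1, h2⟩ hr⟩
      exact ball_subset_stageBody b k (Metric.mem_closedBall_self (by norm_num [devQ]))
  choose ζ hζmem hζ0 hζeq using hz
  refine ⟨g, cA, cB, ζ, fun i hi => by rw [← hM, hm]; exact hg i hi, fun r => ?_, ?_, ?_,
    fun r hr => hζmem r (hM ▸ hr), ⟨hζ0 0 (Or.inl rfl), hζ0 _ (Or.inr hM.symm)⟩, ?_⟩
  · simp only [cA, cB]
    split_ifs with hr
    · have h1 : (1 : ℝ) ≤ r := by exact_mod_cast hr.1
      have h2 : (r : ℝ) - 1 ≤ 2 * m := by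
        have : r ≤ 2 * m + 1 := by omega
        have : (r : ℝ) ≤ 2 * m + 1 := by exact_mod_cast this
        linarith
      have h3 : ((r : ℝ) - 1) / (2 * m) ≤ 1 := (div_le_one (by positivity)).2 h2
      have h4 : 0 ≤ ((r : ℝ) - 1) / (2 * m) := div_nonneg (by linarith) (by positivity)
      simp only [abs_neg, abs_of_nonneg h4]
      exact ⟨abs_le.2 ⟨by linarith, by linarith⟩, h3⟩
    · simp
  · simp [cA, cB, hM]
  · intro r h1 h2
    rw [← hM] at h2
    simp only [cA, cB, if_pos (And.intro h1 h2), hMR]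
    have : (2 * (m : ℝ)) ≠ 0 := by positivity
    constructor <;> field_simp <;> ring
  · intro r hr q
    rw [← hM] at hr
    rcases Nat.eq_zero_or_pos r with rfl | hr0
    · simp [cA, cB, hζ0 0 (Or.inl rfl)]
    rcases eq_or_lt_of_le hr with heq | hr'
    · subst heq
      rw [Finset.filter_true_of_mem fun i hi => by rw [hm]; exact hg i hi, hζ0 _ (Or.inr rfl)]
      have : (r : ℝ) / (256 : ℝ) ^ len b k = 1 := by
        rw [hM]; push_cast; exact div_self (by positivity)
      simp [cA, cB, this]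
    · have h := congrArg (fun z : EuclideanSpace ℝ (Kap d k) => z q) (hζeq r hr0 hr')
      simp only [PiLp.smul_apply, PiLp.sub_apply, PiLp.add_apply, WithLp.ofLp_sum,
        Finset.sum_apply, smul_eq_mul] at h
      simp only [cA, cB, if_pos (And.intro (show 1 ≤ r from hr0) hr'), hMR]
      rw [← Finset.mul_sum, ← Finset.mul_sum] at h
      have e1 : ∀ x : ι → ℝ, ∑ i ∈ J, x i * (1 / 3 * liftVec b k (v i) q)
          = 1 / 3 * ∑ i ∈ J, x i * liftVec b k (v i) q := fun x => by
        rw [Finset.mul_sum]; exact Finset.sum_congr rfl fun i _ => by ring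
      rw [e1, e1] at h
      rw [show devQ = 3 * 500 by norm_num [devQ], mul_assoc (3 : ℝ) 500, h]
      ring

end Vale.Agent.P262
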