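import Vale.Agent.P262.Setup
import Mathlib.Algebra.Order.BigOperators.Ring.Finset
import Mathlib.Analysis.SpecificLimits.Basic

/-!
Summation of the residual bounds over all cohorts (P262).
-/

namespace Vale.Agent.P262

variable {d : ℕ} (b : Fin d → ℕ)

/-- The elementary term of the residual sums. -/
noncomputable def termU (c a : ℕ) : ℝ :=
  (2 / 3 : ℝ) ^ a * √(6 * (cohCard b c : ℝ) + 8 * a + (24 * len b (c + a) + 48))

/-- Rescaled energy bound. -/
noncomputable def termE (c a : ℕ) : ℝ := 2 ^ a * energyBd b c a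

lemma one_le_root (c a : ℕ) :
    1 ≤ √(6 * (cohCard b c : ℝ) + 8 * a + (24 * len b (c + a) + 48)) := by
  rw [Real.one_le_sqrt]
  have h1 : (0 : ℝ) ≤ cohCard b c := Nat.cast_nonneg _
  have h2 : (0 : ℝ) ≤ a := Nat.cast_nonneg _
  have h3 : (0 : ℝ) ≤ len b (c + a) := Nat.cast_nonneg _
  linarith

lemma pow_le_termU (c a : ℕ) : (2 / 3 : ℝ) ^ a ≤ termU b c a :=
  le_mul_of_one_le_right (by positivity) (one_le_root b c a)

lemma sig_div_agec_le (a : ℕ) : sig a / agec a ≤ 4 * (2 / 3 : ℝ) ^ a := by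
  rw [div_le_iff₀ (agec_pos a), agec, mul_assoc, ← mul_pow, sig,
    show (2 / 3 : ℝ) * (3 / 4) = 1 / 2 by norm_num]
  rcases le_or_gt a 2 with h | h
  · interval_cases a <;> norm_num
  · obtain ⟨e, rfl⟩ : ∃ e, a = e + 2 := ⟨a - 2, by omega⟩
    rw [Nat.add_sub_cancel, pow_add]
    norm_num
    linarith [show (0 : ℝ) ≤ 1 / 2 ^ e by positivity]

lemma energyErr_le {c : ℕ} (hc : 1 ≤ cohCard b c) (a : ℕ) :
    energyErr b c a ≤ 32 * devQ * ((1 / 2 : ℝ) ^ a * termU b c a) := by
  have h1 : sig a ^ 2 / agec a ≤ 16 * ((1 / 2 : ℝ) ^ a * (2 / 3) ^ a) := by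
    have hs : sig a ≤ 4 * (1 / 2 : ℝ) ^ a := by
      unfold sig
      rcases le_or_gt a 2 with h | h
      · interval_cases a <;> norm_num
      · obtain ⟨e, rfl⟩ : ∃ e, a = e + 2 := ⟨a - 2, by omega⟩
        rw [Nat.add_sub_cancel, pow_add]
        norm_num
        linarith [show (0 : ℝ) ≤ 1 / 2 ^ e by positivity]
    calc sig a ^ 2 / agec a = sig a * (sig a / agec a) := by ring
      _ ≤ (4 * (1 / 2 : ℝ) ^ a) * (4 * (2 / 3 : ℝ) ^ a) :=
          mul_le_mul hs (sig_div_agec_le a) (div_nonneg (sig_pos a).le (agec_pos a).le)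
            (by positivity)
      _ = _ := by ring
  have h2 : √(2 + 8 * (a : ℝ) + (24 * len b (c + a) + 48))
      ≤ √(6 * (cohCard b c : ℝ) + 8 * a + (24 * len b (c + a) + 48)) := by
    apply Real.sqrt_le_sqrt
    have : (1 : ℝ) ≤ cohCard b c := by exact_mod_cast hc
    linarith
  have hQ : (0 : ℝ) ≤ devQ := by norm_num [devQ]
  rw [energyErr, termU]
  calc 2 * (sig a ^ 2 / agec a) * devQ * √(2 + 8 * (a : ℝ) + (24 * len b (c + a) + 48))
      ≤ 2 * (16 * ((1 / 2 : ℝ) ^ a * (2 / 3) ^ a)) * devQ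
        * √(6 * (cohCard b c : ℝ) + 8 * a + (24 * len b (c + a) + 48)) := by gcongr
    _ = _ := by ring

lemma thousand_mul_le_two_pow {n : ℕ} (h : 20 ≤ n) : n * 1000 ≤ 2 ^ n := by
  induction n, h using Nat.le_induction with
  | base => norm_num
  | succ n hn ih => rw [pow_succ]; nlinarith

lemma energyBd_zero_le (c : ℕ) :
    energyBd b c 0 / (256 ^ len b c * 256 ^ len b (c + 1)) ≤ 1 := by
  have hLL := len_le_two_mul b c
  have hnat : 40000 * len b c ^ 2 * 2 ^ len b c ≤ 256 ^ len b (c + 1) := by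
    have h1 := thousand_mul_le_two_pow (twenty_le_len b c)
    calc 40000 * len b c ^ 2 * 2 ^ len b c
        ≤ (len b c * 1000) * (len b c * 1000) * 2 ^ len b c := by
          refine Nat.mul_le_mul_right _ ?_; nlinarith
      _ ≤ 2 ^ len b c * 2 ^ len b c * 2 ^ len b c := by gcongr
      _ = 8 ^ len b c := by rw [← mul_pow, ← mul_pow, show (2 * 2 * 2 : ℕ) = 8 by norm_num]
      _ ≤ 16 ^ len b c := Nat.pow_le_pow_left (by norm_num) _
      _ ≤ 16 ^ (2 * len b (c + 1)) := Nat.pow_le_pow_right (by norm_num) hLL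
      _ = 256 ^ len b (c + 1) := by rw [pow_mul, show (16 ^ 2 : ℕ) = 256 by norm_num]
  rw [div_le_one (by positivity), energyBd, mul_comm ((256 : ℝ) ^ len b c)]
  exact mul_le_mul_of_nonneg_right (by exact_mod_cast hnat) (by positivity)

lemma early_energy_le {c : ℕ} (hc : 1 ≤ cohCard b c) :
    energyBd b c 1 / 256 ^ len b (c + 1) ≤ 2 + 32 * devQ * termU b c 0 ∧
      termE b c 2 ≤ 16 + 256 * devQ * termU b c 0 + 64 * devQ * termU b c 1 := by
  have e0 : energyErr b c 0 ≤ 32 * devQ * termU b c 0 := by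
    simpa using energyErr_le b hc 0
  have e1 : energyErr b c 1 ≤ 16 * devQ * termU b c 1 := by
    have := energyErr_le b hc 1
    linarith
  have hM : (1 : ℝ) ≤ 256 ^ len b (c + 1) := one_le_pow₀ (by norm_num)
  have hnn := energyErr_nonneg b c 0
  have h1 : energyBd b c 1 / 256 ^ len b (c + 1) ≤ 2 + 32 * devQ * termU b c 0 := by
    have hrec : energyBd b c 1 = 2 * energyBd b c 0 / 256 ^ len b (c + 0) + energyErr b c 0 := rfl
    rw [hrec, add_zero, add_div]
    refine add_le_add ?_ ((div_le_self hnn hM).trans e0)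
    rw [div_div, mul_div_assoc]
    linarith [energyBd_zero_le b c]
  refine ⟨h1, ?_⟩
  have hrec : termE b c 2
      = 2 ^ 2 * (2 * energyBd b c 1 / 256 ^ len b (c + 1) + energyErr b c 1) := rfl
  rw [hrec, mul_div_assoc]
  linarith

lemma termE_nonneg (c a : ℕ) : 0 ≤ termE b c a :=
  mul_nonneg (by positivity) (energyBd_nonneg b c a)

lemma termE_succ_le {c : ℕ} (hc : 1 ≤ cohCard b c) (a : ℕ) :
    termE b c (a + 1) ≤ termE b c a / 2 + 64 * devQ * termU b c a := by
  have he := energyErr_le b hc a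
  have hM : (8 : ℝ) ≤ 256 ^ len b (c + a) := by
    refine le_trans (by norm_num) (pow_le_pow_right₀ (by norm_num)
      (show 1 ≤ len b (c + a) from le_trans (by norm_num) (twenty_le_len b (c + a))))
  have hnn := energyBd_nonneg b c a
  have hrec : energyBd b c (a + 1)
      = 2 * energyBd b c a / 256 ^ len b (c + a) + energyErr b c a := rfl
  have h2 : (2 : ℝ) ^ (a + 1) * ((1 / 2 : ℝ) ^ a) = 2 := by
    rw [pow_succ, mul_comm ((2 : ℝ) ^ a) 2, mul_assoc, ← mul_pow]; norm_num
  have h3 : 2 * energyBd b c a / 256 ^ len b (c + a) ≤ energyBd b c a / 4 := by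
    rw [div_le_div_iff₀ (by positivity) (by norm_num)]
    nlinarith
  rw [termE, termE, hrec, mul_add]
  refine add_le_add ?_ ?_
  · calc (2 : ℝ) ^ (a + 1) * (2 * energyBd b c a / 256 ^ len b (c + a))
        ≤ 2 ^ (a + 1) * (energyBd b c a / 4) := by gcongr
      _ = _ := by ring
  · calc (2 : ℝ) ^ (a + 1) * energyErr b c a
        ≤ 2 ^ (a + 1) * (32 * devQ * ((1 / 2 : ℝ) ^ a * termU b c a)) := by gcongr
      _ = 32 * devQ * termU b c a * (2 ^ (a + 1) * (1 / 2) ^ a) := by ring
      _ = _ := by rw [h2]; ring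

lemma sum_termE_le {c : ℕ} (hc : 1 ≤ cohCard b c) (n : ℕ) :
    ∑ i ∈ Finset.range n, termE b c (2 + i) + 2 * termE b c (2 + n)
      ≤ 2 * termE b c 2 + 128 * devQ * ∑ i ∈ Finset.range n, termU b c (2 + i) := by
  induction n with
  | zero => simp
  | succ n ih =>
    have := termE_succ_le b hc (2 + n)
    rw [Finset.sum_range_succ, Finset.sum_range_succ, show 2 + (n + 1) = 2 + n + 1 by omega]
    linarith

lemma step_bound (c : ℕ) (a : ℕ) :
    3 * devBd b c (2 + a) + 2 * annBd b c (2 + a)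
      ≤ 6 * termE b c (2 + a) + termE b c (2 + a + 1)
        + (12 * devQ + 6) * termU b c (2 + a) := by
  have hQ : (0 : ℝ) ≤ devQ := by norm_num [devQ]
  have he := energyBd_nonneg b c (2 + a)
  have hdev : devBd b c (2 + a)
      ≤ 2 * (termE b c (2 + a) + termU b c (2 + a)) + devQ * 4 * termU b c (2 + a) := by
    refine add_le_add ?_ ?_
    · rw [if_neg (by omega)]
      refine mul_le_mul_of_nonneg_left ?_ (by norm_num)
      refine le_trans ?_ (add_le_add le_rfl (pow_le_termU b c (2 + a)))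
      have hT : √(energyBd b c (2 + a) / (64 * 256 ^ len b (c + (2 + a))))
          ≤ √(energyBd b c (2 + a)) := by
        refine Real.sqrt_le_sqrt (div_le_self he ?_)
        have : (1 : ℝ) ≤ 256 ^ len b (c + (2 + a)) := one_le_pow₀ (by norm_num)
        linarith
      refine hT.trans ?_
      rw [Real.sqrt_le_iff]
      refine ⟨add_nonneg (termE_nonneg b c _) (by positivity), ?_⟩
      have hp : (1 : ℝ) ≤ 2 ^ (2 + a) * (2 / 3) ^ (2 + a) := by
        rw [← mul_pow]; exact one_le_pow₀ (by norm_num)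
      have h1 : energyBd b c (2 + a) ≤ termE b c (2 + a) * (2 / 3) ^ (2 + a) := by
        rw [termE, mul_right_comm]; exact le_mul_of_one_le_left he hp
      nlinarith [termE_nonneg b c (2 + a), pow_nonneg (by norm_num : (0:ℝ) ≤ 2/3) (2 + a)]
    · calc devQ * (sig (2 + a) / agec (2 + a))
            * √(6 * (cohCard b c : ℝ) + 8 * ((2 + a : ℕ) : ℝ) + (24 * len b (c + (2 + a)) + 48))
          ≤ devQ * (4 * (2 / 3 : ℝ) ^ (2 + a))
            * √(6 * (cohCard b c : ℝ) + 8 * ((2 + a : ℕ) : ℝ) + (24 * len b (c + (2 + a)) + 48)) :=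
          mul_le_mul_of_nonneg_right (mul_le_mul_of_nonneg_left (sig_div_agec_le _) hQ)
            (Real.sqrt_nonneg _)
        _ = _ := by rw [termU]; ring
  have hann : annBd b c (2 + a) = termE b c (2 + a + 1) / 4 := by
    have h : sig (2 + a + 1) = (1 / 2 : ℝ) ^ (a + 1) := by rw [sig]; congr 1; omega
    rw [annBd, if_neg (by omega), h, termE, one_div_pow, div_div_eq_mul_div, div_one,
      show 2 + a + 1 = (a + 1) + 2 by omega, pow_add (2 : ℝ) (a + 1) 2]
    ring
  have := termE_nonneg b c (2 + a + 1)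
  rw [hann]
  linarith

lemma step_bound_early {c : ℕ} (hc : 1 ≤ cohCard b c) :
    (3 * devBd b c 0 + 2 * annBd b c 0) + (3 * devBd b c 1 + 2 * annBd b c 1)
      ≤ 24 + 204 * devQ * termU b c 0 + 12 * devQ * termU b c 1 := by
  have hQ : (1 : ℝ) ≤ devQ := by norm_num [devQ]
  obtain ⟨h1, -⟩ := early_energy_le b hc
  have hu0 : 1 ≤ termU b c 0 := by simpa using pow_le_termU b c 0
  have hdev : ∀ a, devQ * (sig a / agec a)
      * √(6 * (cohCard b c : ℝ) + 8 * (a : ℝ) + (24 * len b (c + a) + 48))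
      ≤ 4 * devQ * termU b c a := by
    intro a
    calc _ ≤ devQ * (4 * (2 / 3 : ℝ) ^ a)
          * √(6 * (cohCard b c : ℝ) + 8 * (a : ℝ) + (24 * len b (c + a) + 48)) :=
          mul_le_mul_of_nonneg_right (mul_le_mul_of_nonneg_left (sig_div_agec_le _) (by linarith))
            (Real.sqrt_nonneg _)
      _ = _ := by rw [termU]; ring
  have hd0 : devBd b c 0 ≤ 2 + 4 * devQ * termU b c 0 := by
    have := hdev 0
    rw [devBd, if_pos rfl]
    linarith
  have hd1 : devBd b c 1 ≤ 2 * (3 + 32 * devQ * termU b c 0) + 4 * devQ * termU b c 1 := by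
    have := hdev 1
    rw [devBd, if_neg (by norm_num)]
    have hsq : √(energyBd b c 1 / (64 * 256 ^ len b (c + 1))) ≤ 3 + 32 * devQ * termU b c 0 := by
      have hR : 0 ≤ energyBd b c 1 / 256 ^ len b (c + 1) :=
        div_nonneg (energyBd_nonneg b c 1) (by positivity)
      have h2 : energyBd b c 1 / (64 * 256 ^ len b (c + 1))
          = energyBd b c 1 / 256 ^ len b (c + 1) / 64 := by rw [div_div, mul_comm (64 : ℝ)]
      have h3 : 0 ≤ devQ * termU b c 0 := by nlinarith
      rw [h2, Real.sqrt_le_iff]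
      exact ⟨by linarith, by nlinarith⟩
    linarith
  have ha0 : annBd b c 0 = 0 := if_pos (by norm_num)
  have ha1 : annBd b c 1 = 0 := if_pos (by norm_num)
  rw [ha0, ha1]
  linarith

lemma resBd_le {c K : ℕ} (hc : 1 ≤ cohCard b c) (hK : c + 2 ≤ K) :
    resBd b K c 0 ≤ 10000 * devQ * ∑ a ∈ Finset.range (K - c), termU b c a := by
  obtain ⟨n, hn⟩ : ∃ n, K - c = n + 1 + 1 := ⟨K - c - 2, by omega⟩
  have hQ : (1 : ℝ) ≤ devQ := by norm_num [devQ]
  rw [resBd, hn, ← Finset.range_eq_Ico, Finset.sum_range_succ', Finset.sum_range_succ',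
    Finset.sum_range_succ', Finset.sum_range_succ']
  simp only [show ∀ i : ℕ, i + 1 + 1 = 2 + i from fun i => by omega, zero_add]
  have hs := Finset.sum_le_sum (s := Finset.range n) fun a _ => step_bound b c a
  have hE := sum_termE_le b hc n
  obtain ⟨-, h2⟩ := early_energy_le b hc
  have hu0 : 1 ≤ termU b c 0 := by simpa using pow_le_termU b c 0
  have hu1 : 0 ≤ termU b c 1 := le_trans (by positivity) (pow_le_termU b c 1)
  have hU : 0 ≤ ∑ i ∈ Finset.range n, termU b c (2 + i) :=
    Finset.sum_nonneg fun i _ => le_trans (by positivity) (pow_le_termU b c _)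
  have hshift : ∑ a ∈ Finset.range n, termE b c (2 + a + 1)
      ≤ ∑ a ∈ Finset.range n, termE b c (2 + a) + termE b c (2 + n) := by
    have h := Finset.sum_range_succ' (fun a => termE b c (2 + a)) n
    rw [Finset.sum_range_succ] at h
    have := termE_nonneg b c 2
    simp only [add_zero, ← add_assoc] at h
    linarith
  simp only [Finset.sum_add_distrib, ← Finset.mul_sum] at hs ⊢
  have h01 := step_bound_early b hc
  have hEn : 0 ≤ ∑ i ∈ Finset.range n, termE b c (2 + i) :=
    Finset.sum_nonneg fun i _ => termE_nonneg b c _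
  have hEl := termE_nonneg b c (2 + n)
  nlinarith

lemma sum_two_thirds_le (n : ℕ) : ∑ a ∈ Finset.range n, (2 / 3 : ℝ) ^ a ≤ 3 := by
  have hs : Summable fun a : ℕ => (2 / 3 : ℝ) ^ a :=
    summable_geometric_of_lt_one (by norm_num) (by norm_num)
  refine (hs.sum_le_tsum _ fun _ _ => by positivity).trans ?_
  rw [tsum_geometric_of_lt_one (by norm_num) (by norm_num)]
  norm_num

lemma sum_index_two_thirds_le (n : ℕ) :
    ∑ a ∈ Finset.range n, (2 / 3 : ℝ) ^ a * a ≤ 24 := by
  have hterm : ∀ a : ℕ, (2 / 3 : ℝ) ^ a * a ≤ 4 * (5 / 6 : ℝ) ^ a := by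
    intro a
    have h := one_add_mul_le_pow (a := (1 / 4 : ℝ)) (by norm_num) a
    have h' : (a : ℝ) ≤ 4 * (5 / 4 : ℝ) ^ a := by norm_num at h ⊢; linarith
    calc (2 / 3 : ℝ) ^ a * a ≤ (2 / 3 : ℝ) ^ a * (4 * (5 / 4 : ℝ) ^ a) := by gcongr
      _ = 4 * ((2 / 3) * (5 / 4) : ℝ) ^ a := by rw [mul_pow]; ring
      _ = _ := by norm_num
  have hs : Summable fun a : ℕ => (5 / 6 : ℝ) ^ a :=
    summable_geometric_of_lt_one (by norm_num) (by norm_num)
  refine (Finset.sum_le_sum fun a _ => hterm a).trans ?_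
  rw [← Finset.mul_sum]
  have := (hs.sum_le_tsum (Finset.range n) fun _ _ => by positivity).trans_eq
    (tsum_geometric_of_lt_one (by norm_num) (by norm_num))
  norm_num at this ⊢
  linarith

lemma one_le_cohCard {c : ℕ} (hc : c ∈ Finset.univ.image (coh b)) : 1 ≤ cohCard b c := by
  obtain ⟨j, -, rfl⟩ := Finset.mem_image.1 hc
  exact Finset.card_pos.2 ⟨j, by simp⟩

lemma sum_resBd_sq_le {K : ℕ} (hK : ∀ j, coh b j + 2 ≤ K) :
    ∑ c ∈ Finset.univ.image (coh b), resBd b K c 0 ^ 2
      ≤ (10000 * devQ) ^ 2 * (7200 * d) := by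
  classical
  have hQ : (0 : ℝ) ≤ devQ := by norm_num [devQ]
  let W : ℕ → ℝ := fun c => ∑ a ∈ Finset.range (K - c), (2 / 3 : ℝ) ^ a * acc b (c + a)
  have hper : ∀ c ∈ Finset.univ.image (coh b), resBd b K c 0 ^ 2
      ≤ (10000 * devQ) ^ 2 * (3 * (2100 * (cohCard b c : ℝ) + 24 * W c)) := by
    intro c hc
    have hn := one_le_cohCard b hc
    have hn' : (1 : ℝ) ≤ cohCard b c := by exact_mod_cast hn
    have hcK : c + 2 ≤ K := by
      obtain ⟨j, -, rfl⟩ := Finset.mem_image.1 hc
      exact hK j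
    have h0 : 0 ≤ resBd b K c 0 := by
      unfold resBd
      have : 0 ≤ ∑ u ∈ Finset.Ico 0 (K - c), (3 * devBd b c u + 2 * annBd b c u) :=
        Finset.sum_nonneg fun u _ => by
          have := devBd_nonneg b c u
          have := annBd_nonneg b c u
          positivity
      linarith
    refine (pow_le_pow_left₀ h0 (resBd_le b hn hcK) 2).trans ?_
    rw [mul_pow]
    refine mul_le_mul_of_nonneg_left ?_ (sq_nonneg _)
    calc (∑ a ∈ Finset.range (K - c), termU b c a) ^ 2
        ≤ (∑ a ∈ Finset.range (K - c), (2 / 3 : ℝ) ^ a) *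
          ∑ a ∈ Finset.range (K - c), (2 / 3 : ℝ) ^ a
            * (6 * (cohCard b c : ℝ) + 8 * a + (24 * len b (c + a) + 48)) := by
          refine Finset.sum_sq_le_sum_mul_sum_of_sq_le_mul _ (fun a _ => by positivity)
            (fun a _ => by positivity) fun a _ => le_of_eq ?_
          rw [termU, mul_pow, Real.sq_sqrt (by positivity)]
          ring
      _ ≤ 3 * (2100 * (cohCard b c : ℝ) + 24 * W c) := by
          refine mul_le_mul (sum_two_thirds_le _) ?_ (Finset.sum_nonneg fun a _ => by positivity)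
            (by norm_num)
          calc _ ≤ ∑ a ∈ Finset.range (K - c), ((582 * (cohCard b c : ℝ)) * (2 / 3 : ℝ) ^ a
                + 8 * ((2 / 3 : ℝ) ^ a * a) + 24 * ((2 / 3 : ℝ) ^ a * acc b (c + a))) := by
                refine Finset.sum_le_sum fun a _ => ?_
                have h1 := len_le_acc b (c + a)
                calc (2 / 3 : ℝ) ^ a * (6 * (cohCard b c : ℝ) + 8 * a + (24 * len b (c + a) + 48))
                    ≤ (2 / 3 : ℝ) ^ a * (582 * (cohCard b c : ℝ) + 8 * a + 24 * acc b (c + a)) := by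
                      gcongr ?_ * ?_
                      linarith
                  _ = _ := by ring
            _ ≤ _ := by
                rw [Finset.sum_add_distrib, Finset.sum_add_distrib, ← Finset.mul_sum,
                  ← Finset.mul_sum, ← Finset.mul_sum]
                have h2 := sum_two_thirds_le (K - c)
                have h3 := sum_index_two_thirds_le (K - c)
                have h4 := mul_le_mul_of_nonneg_left h2
                  (by positivity : (0 : ℝ) ≤ 582 * cohCard b c)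
                simp only [W]
                linarith
  refine (Finset.sum_le_sum hper).trans ?_
  rw [← Finset.mul_sum]
  refine mul_le_mul_of_nonneg_left ?_ (sq_nonneg _)
  rw [← Finset.mul_sum, Finset.sum_add_distrib, ← Finset.mul_sum, ← Finset.mul_sum]
  have hcard : ∑ c ∈ Finset.univ.image (coh b), (cohCard b c : ℝ) = d := by
    rw [← Nat.cast_sum]
    have := Finset.card_eq_sum_card_image (coh b) (Finset.univ : Finset (Fin d))
    simp only [Finset.card_univ, Fintype.card_fin] at this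
    exact_mod_cast this.symm
  have hW : ∑ c ∈ Finset.univ.image (coh b), W c ≤ 12 * d := by
    have hWeq : ∀ c ∈ Finset.range K,
        W c = ∑ u ∈ Finset.range K, if c ≤ u then (2 / 3 : ℝ) ^ (u - c) * acc b u else 0 := by
      intro c hc
      rw [← Finset.sum_filter,
        show (Finset.range K).filter (fun u => c ≤ u) = Finset.Ico c K by
          ext u; simp only [Finset.mem_filter, Finset.mem_range, Finset.mem_Ico]; omega,
        Finset.sum_Ico_eq_sum_range]
      simp [W]
    have hsub : Finset.univ.image (coh b) ⊆ Finset.range K := by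
      intro c hc
      obtain ⟨j, -, rfl⟩ := Finset.mem_image.1 hc
      have := hK j
      simp only [Finset.mem_range]; omega
    refine (Finset.sum_le_sum_of_subset_of_nonneg hsub fun c _ _ =>
      Finset.sum_nonneg fun a _ => mul_nonneg (by positivity) (acc_nonneg b _)).trans ?_
    rw [Finset.sum_congr rfl hWeq, Finset.sum_comm]
    calc _ ≤ ∑ u ∈ Finset.range K, 3 * acc b u := by
          refine Finset.sum_le_sum fun u _ => ?_
          rw [← Finset.sum_filter, ← Finset.sum_mul]
          refine mul_le_mul_of_nonneg_right ?_ (acc_nonneg b u)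
          refine le_trans (Finset.sum_le_sum_of_subset_of_nonneg
            (t := Finset.range (u + 1)) ?_ fun c _ _ => by positivity) ?_
          · intro c hc
            simp only [Finset.mem_filter, Finset.mem_range] at hc ⊢
            omega
          · have h := Finset.sum_range_reflect (fun n => (2 / 3 : ℝ) ^ n) (u + 1)
            simp only [Nat.add_sub_cancel] at h
            rw [h]
            exact sum_two_thirds_le _
      _ ≤ _ := by rw [← Finset.mul_sum]; linarith [sum_acc_le b K]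
  rw [hcard]
  linarith [Nat.cast_nonneg (α := ℝ) d]

lemma surplus_le (K : ℕ) : surplus b K ≤ 384 * devQ ^ 2 * d := by
  have := mul_le_mul_of_nonneg_left (sum_acc_le b K)
    (by norm_num [devQ] : (0 : ℝ) ≤ 96 * devQ ^ 2)
  unfold surplus
  linarith

end Vale.Agent.P262
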