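import Vale.Agent.P262.Tree
import Vale.Agent.P262.Sums
import Mathlib.Analysis.InnerProductSpace.Spectrum
import Mathlib.Data.Nat.Log
import Mathlib.Data.Fin.Tuple.Basic
import Mathlib.Data.List.NodupEquivFin

/-!
Zero-sum families in the Euclidean ball can be ordered with all partial sums `O(√d)` (P262).
-/

namespace Vale.Agent.P262

open scoped RealInnerProductSpace

/-- Constant of the main theorem, before taking the square root. -/
noncomputable def steinitzSq : ℝ :=
  2 * ((10000 * devQ) ^ 2 * 7200) + 2 * (2 * cHigh + 384 * devQ ^ 2)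

lemma steinitzSq_nonneg : 0 ≤ steinitzSq := by
  norm_num [steinitzSq, devQ, cHigh]

/-- The band of a nonnegative number. -/
noncomputable def band (x : ℝ) : ℕ := Nat.log 256 ⌊x⌋₊

lemma banded_band {d : ℕ} (lam : Fin d → ℝ) (h : ∀ j, 0 ≤ lam j) :
    Banded (fun j => band (lam j)) lam := by
  refine ⟨h, fun j => ?_, fun j hj => ?_⟩
  · have h1 : ⌊lam j⌋₊ + 1 ≤ 256 ^ (band (lam j) + 1) :=
      Nat.lt_pow_succ_log_self (by norm_num) _
    refine (Nat.lt_floor_add_one _).trans_le ?_
    exact_mod_cast h1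
  · have hne : ⌊lam j⌋₊ ≠ 0 := fun h0 => by simp [band, h0] at hj
    refine le_trans ?_ (Nat.floor_le (h j))
    exact_mod_cast Nat.pow_log_le_self 256 hne

/-- The ordering, in a basis diagonalizing the second moments. -/
theorem exists_perm_of_diag {d N : ℕ} (v : Fin N → Fin d → ℝ) (hv : ∀ i, ∑ j, v i j ^ 2 ≤ 1)
    (hsum : ∀ j, ∑ i, v i j = 0) (hdiag : ∀ j h, j ≠ h → ∑ i, v i j * v i h = 0) :
    ∃ π : Equiv.Perm (Fin N), ∀ k ≤ N,
      ∑ j, (∑ i ∈ Finset.univ.filter (fun i : Fin N => (i : ℕ) < k), v (π i) j) ^ 2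
        ≤ steinitzSq * d := by
  classical
  let lam : Fin d → ℝ := fun j => ∑ i, v i j ^ 2
  let b : Fin d → ℕ := fun j => band (lam j)
  have hband : Banded b lam := banded_band lam fun j => Finset.sum_nonneg fun i _ => sq_nonneg _
  obtain ⟨K, hKdef⟩ : ∃ K, K = Finset.univ.sup (coh b) + N + 2 := ⟨_, rfl⟩
  have hK : ∀ j, coh b j + N + 2 ≤ K := fun j => by
    have := Finset.le_sup (f := coh b) (Finset.mem_univ j)
    omega
  have hcov : ‖covVec b lam v 0 Finset.univ‖ ≤ psi b 0 := by
    have : covVec b lam v 0 Finset.univ = 0 := by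
      ext p
      obtain ⟨j, h⟩ := p
      rcases eq_or_ne j h with rfl | hjh
      · simp [covVec, covEntry, lam, pos_zero, sq]
      · simp [covVec, covEntry, hjh, hdiag j h hjh]
    rw [this, norm_zero]
    unfold psi
    positivity
  have hinv : EndInv b 0 (fun _ => 0) := by
    intro T
    have h1 : 0 ≤ ∑ j, invCap b 0 T j := Finset.sum_nonneg fun j _ => by
      unfold invCap cHigh devQ
      split_ifs <;> norm_num
    have h2 := surplus_nonneg b 0
    simp
    linarith
  obtain ⟨l, hnd, hl, hgood⟩ := exists_good_order (v := v) hband K N hK K 0 (Nat.zero_add K)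
    Finset.univ (fun _ => 0) (fun _ => 0) (by simp) (fun i _ => hv i)
    (fun j _ => by simp [hsum j]) hinv hinv hcov (fun c hc => by
      obtain rfl := Nat.le_zero.1 hc
      exact energy_zero_le hband 0 Finset.univ (fun i _ => hv i) hcov)
  have hmem : ∀ x, x ∈ l := fun x => List.mem_toFinset.1 (hl ▸ Finset.mem_univ x)
  have hlen : l.length = N := by
    rw [← List.toFinset_card_of_nodup hnd, hl, Finset.card_univ, Fintype.card_fin]
  let π : Equiv.Perm (Fin N) :=
    (finCongr hlen.symm).trans (hnd.getEquivOfForallMemList l hmem)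
  refine ⟨π, fun k hk => ?_⟩
  have hπ : ∀ i : Fin N, π i = l[(i : ℕ)]'(hlen.symm ▸ i.2) := fun i => rfl
  have hA : (Finset.univ.filter fun i : Fin N => (i : ℕ) < k).image π
      = (l.take k).toFinset := by
    ext x
    simp only [Finset.mem_image, Finset.mem_filter, Finset.mem_univ, true_and,
      List.mem_toFinset, List.mem_take_iff_getElem]
    constructor
    · rintro ⟨i, hi, rfl⟩
      exact ⟨i, by omega, (hπ i).symm⟩
    · rintro ⟨i, hi, rfl⟩
      exact ⟨⟨i, by omega⟩, (show i < k by omega), hπ _⟩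
  obtain ⟨t, z, _, _, hz0, hzsq, hlow, hhigh⟩ := hgood k (hlen.symm ▸ hk)
  let S : Fin d → ℝ := fun j => ∑ i ∈ (l.take k).toFinset, v i j
  have hS : ∀ j, ∑ i ∈ Finset.univ.filter (fun i : Fin N => (i : ℕ) < k), v (π i) j = S j := by
    intro j
    simp only [S, ← hA]
    rw [Finset.sum_image fun x _ y _ h => π.injective h]
  simp only [hS]
  have hres : ∀ c ∈ Finset.univ.image (coh b), cmass b c (S - z) ≤ resBd b K c 0 ^ 2 := by
    intro c _
    rw [← norm_cvec_sq]
    refine pow_le_pow_left₀ (norm_nonneg _) ?_ 2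
    rcases Nat.eq_zero_or_pos c with rfl | hc
    · have h := hlow 0 le_rfl
      have hsmall : ∀ s : Finset (Fin N), ∑ i ∈ s, smallPart b 0 0 (v i)
          = cvec b 0 (∑ i ∈ s, v i) := by
        intro s
        rw [cvec_sum]
        refine Finset.sum_congr rfl fun i _ => ?_
        rw [smallPart, smallInd_of_le_two b (by norm_num) 0 (hv i), one_smul]
      have hJ : (∑ i, v i) = 0 := by funext j; simp [hsum j]
      have hzero : cvec b 0 (0 : Fin d → ℝ) = 0 := by ext j; simp [cvec]
      rw [Nat.sub_zero, hsmall, hsmall, hJ, hzero, smul_zero, sub_zero] at h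
      refine le_of_eq_of_le (congrArg _ ?_) h
      ext j
      by_cases hj : coh b j = 0
      · simp [cvec, S, hj, hz0 j hj.le, Finset.sum_apply]
      · simp [cvec, hj]
    · refine le_of_eq_of_le (congrArg _ ?_) (hhigh c hc)
      congr 1
      funext j
      simp [S]
  have h1 : ∑ j, (S j - z j) ^ 2 ≤ (10000 * devQ) ^ 2 * (7200 * d) := by
    calc ∑ j, (S j - z j) ^ 2 = ∑ c ∈ Finset.univ.image (coh b), cmass b c (S - z) := by
          rw [sum_cmass b _ (fun j => Finset.mem_image_of_mem _ (Finset.mem_univ j))]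
          rfl
      _ ≤ ∑ c ∈ Finset.univ.image (coh b), resBd b K c 0 ^ 2 := Finset.sum_le_sum hres
      _ ≤ _ := sum_resBd_sq_le b fun j => by have := hK j; omega
  have h2 := hzsq.trans (add_le_add_right (surplus_le b K) _)
  calc ∑ j, S j ^ 2 ≤ ∑ j, (2 * (S j - z j) ^ 2 + 2 * z j ^ 2) :=
        Finset.sum_le_sum fun j _ => by nlinarith [sq_nonneg (S j - 2 * z j)]
    _ ≤ 2 * ((10000 * devQ) ^ 2 * (7200 * d)) + 2 * (2 * cHigh * d + 384 * devQ ^ 2 * d) := by
        rw [Finset.sum_add_distrib, ← Finset.mul_sum, ← Finset.mul_sum]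
        linarith
    _ = steinitzSq * d := by rw [steinitzSq]; ring

/-- Upper bound of order `√d` for the Euclidean Steinitz constant. -/
theorem steinitz_upper : ∀ (d N : ℕ) (v : Fin N → EuclideanSpace ℝ (Fin d)),
    (∀ i, ‖v i‖ ≤ 1) → ∑ i, v i = 0 →
    ∃ π : Equiv.Perm (Fin N), ∀ k ≤ N,
      ‖∑ i ∈ Finset.univ.filter (fun i : Fin N => (i : ℕ) < k), v (π i)‖
        ≤ √steinitzSq * √(d : ℝ) := by
  intro d N v hv hsum
  let T : EuclideanSpace ℝ (Fin d) →ₗ[ℝ] EuclideanSpace ℝ (Fin d) :=
    ∑ i, (innerₛₗ ℝ (v i)).smulRight (v i)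
  have hTi : ∀ x y, ⟪T x, y⟫ = ∑ i, ⟪v i, x⟫ * ⟪v i, y⟫ := fun x y => by
    simp [T, sum_inner, real_inner_smul_left]
  have hT : T.IsSymmetric := fun x y => by
    rw [hTi, real_inner_comm, hTi]
    exact Finset.sum_congr rfl fun i _ => mul_comm _ _
  let e := hT.eigenvectorBasis (n := d) (by simp)
  let u : Fin N → Fin d → ℝ := fun i j => e.repr (v i) j
  have hu : ∀ i j, u i j = ⟪v i, e j⟫ := fun i j => by
    simp only [u, e.repr_apply_apply, real_inner_comm]
  obtain ⟨π, hπ⟩ := exists_perm_of_diag u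
    (fun i => by
      have h := EuclideanSpace.real_norm_sq_eq (e.repr (v i))
      rw [e.repr.norm_map] at h
      simp only [u, ← h]
      exact pow_le_one₀ (norm_nonneg _) (hv i))
    (fun j => by
      calc ∑ i, u i j = e.repr (∑ i, v i) j := by simp [u, map_sum]
        _ = 0 := by simp [hsum])
    (fun j h hjh => by
      simp only [hu]
      rw [← hTi, hT.apply_eigenvectorBasis, real_inner_smul_left,
        e.orthonormal.2 hjh, mul_zero])
  refine ⟨π, fun k hk => ?_⟩
  rw [← Real.sqrt_mul steinitzSq_nonneg]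
  refine Real.le_sqrt_of_sq_le (le_of_eq_of_le ?_ (hπ k hk))
  rw [← e.repr.norm_map, EuclideanSpace.real_norm_sq_eq]
  simp [u, map_sum]

/-- The known lower bound of order `√d`. -/
theorem steinitz_lower : ∀ d : ℕ, 1 ≤ d →
    ∃ (N : ℕ) (v : Fin N → EuclideanSpace ℝ (Fin d)), (∀ i, ‖v i‖ ≤ 1) ∧ ∑ i, v i = 0 ∧
      ∀ π : Equiv.Perm (Fin N), ∃ k ≤ N, √(d : ℝ) / 4
        ≤ ‖∑ i ∈ Finset.univ.filter (fun i : Fin N => (i : ℕ) < k), v (π i)‖ := by
  classical
  intro d hd
  have hdR : (1 : ℝ) ≤ d := by exact_mod_cast hd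
  let w : EuclideanSpace ℝ (Fin d) := WithLp.toLp 2 fun _ => -(1 / (d : ℝ))
  let v : Fin (d + d) → EuclideanSpace ℝ (Fin d) :=
    Fin.append (fun i => EuclideanSpace.single i (1 : ℝ)) (fun _ => w)
  let q : Fin (d + d) → ℝ := Fin.append (fun _ => 0) (fun _ => 1 / (d : ℝ))
  have hcoord : ∀ x j, v x j = (if x = Fin.castAdd d j then (1 : ℝ) else 0) - q x := by
    intro x j
    induction x using Fin.addCases with
    | left i =>
      simp only [v, q, Fin.append_left, PiLp.single_apply, Fin.castAdd_inj, eq_comm (a := j),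
        sub_zero]
    | right i =>
      have hne : Fin.natAdd d i ≠ Fin.castAdd d j := fun h => by
        have := congrArg (Fin.val) h
        simp only [Fin.val_natAdd, Fin.val_castAdd] at this
        have := j.2
        omega
      simp only [v, q, w, Fin.append_right, hne, if_false, zero_sub]
  have hw : ‖w‖ ≤ 1 := by
    refine (abs_le_of_sq_le_sq' ?_ zero_le_one).2
    rw [EuclideanSpace.real_norm_sq_eq]
    simp only [w, neg_sq, Finset.sum_const, Finset.card_univ, Fintype.card_fin, nsmul_eq_mul]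
    rw [div_pow, one_pow, mul_one_div, div_le_one (by positivity)]
    nlinarith
  refine ⟨d + d, v, fun i => ?_, ?_, fun π => ?_⟩
  · induction i using Fin.addCases with
    | left i => simp [v]
    | right i => simpa only [v, Fin.append_right] using hw
  · ext j
    rw [Fin.sum_univ_add]
    simp only [v, w, Fin.append_left, Fin.append_right]
    simp
    field_simp
    ring
  rcases eq_or_lt_of_le hd with rfl | hd2
  · refine ⟨1, by norm_num, ?_⟩
    have h0 : Finset.univ.filter (fun i : Fin (1 + 1) => (i : ℕ) < 1) = {0} := by decide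
    rw [h0, Finset.sum_singleton, Nat.cast_one, Real.sqrt_one]
    have : ∀ x, ‖v x‖ = 1 := by
      intro x
      induction x using Fin.addCases with
      | left i => simp [v]
      | right i =>
        simp only [v, w, Fin.append_right]
        simp [EuclideanSpace.norm_eq]
    rw [this]
    norm_num
  let P : Fin d → ℕ := fun j => (π.symm (Fin.castAdd d j) : ℕ)
  have hP : Function.Injective P := fun x y h =>
    Fin.castAdd_injective d d (π.symm.injective (Fin.ext h))
  let f : ℕ → ℕ := fun k => (Finset.univ.filter fun j => P j < k).card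
  have hfN : f (d + d) = d := by
    simp only [f]
    rw [Finset.filter_true_of_mem fun j _ => (π.symm (Fin.castAdd d j)).2]
    simp
  have hstep : ∀ k, f (k + 1) ≤ f k + 1 := by
    intro k
    have hsub : (Finset.univ.filter fun j => P j < k + 1)
        ⊆ (Finset.univ.filter fun j => P j < k) ∪ (Finset.univ.filter fun j => P j = k) := by
      intro j hj
      simp only [Finset.mem_filter, Finset.mem_union, Finset.mem_univ, true_and] at hj ⊢
      omega
    refine (Finset.card_le_card hsub).trans ((Finset.card_union_le _ _).trans ?_)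
    refine Nat.add_le_add_left (Finset.card_le_one.2 fun x hx y hy => hP ?_) _
    rw [(Finset.mem_filter.1 hx).2, (Finset.mem_filter.1 hy).2]
  obtain ⟨m, hm⟩ : ∃ m, m = (d + 1) / 2 := ⟨_, rfl⟩
  have hex : ∃ k, m ≤ f k := ⟨d + d, by omega⟩
  have hfind : f (Nat.find hex) = m := by
    refine le_antisymm ?_ (Nat.find_spec hex)
    rcases Nat.eq_zero_or_pos (Nat.find hex) with h | h
    · rw [h]; simp [f]
    · have h1 := Nat.find_min hex (show Nat.find hex - 1 < Nat.find hex by omega)
      have h2 := hstep (Nat.find hex - 1)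
      rw [show Nat.find hex - 1 + 1 = Nat.find hex by omega] at h2
      omega
  obtain ⟨k, hk⟩ : ∃ k, k = Nat.find hex := ⟨_, rfl⟩
  rw [← hk] at hfind
  refine ⟨k, hk ▸ Nat.find_min' hex (by omega), ?_⟩
  obtain ⟨F, hF⟩ : ∃ F, F = Finset.univ.filter (fun i : Fin (d + d) => (i : ℕ) < k) := ⟨_, rfl⟩
  rw [← hF]
  obtain ⟨x, hx⟩ : ∃ x, x = ∑ i ∈ F, q (π i) := ⟨_, rfl⟩
  have hco : ∀ j, (∑ i ∈ F, v (π i)) j = (if P j < k then (1 : ℝ) else 0) - x := by
    intro j
    simp only [WithLp.ofLp_sum, Finset.sum_apply, hcoord, Finset.sum_sub_distrib, ← hx]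
    congr 1
    simp only [← Equiv.eq_symm_apply]
    rw [Finset.sum_ite_eq' F]
    simp [hF, P]
  have hsq : ‖∑ i ∈ F, v (π i)‖ ^ 2 = m - 2 * x * m + d * x ^ 2 := by
    rw [EuclideanSpace.real_norm_sq_eq]
    have hmc : ∑ j, (if P j < k then (1 : ℝ) else 0) = m := by
      rw [← hfind]; simp [f]
    calc ∑ j, (∑ i ∈ F, v (π i)) j ^ 2
        = ∑ j, ((if P j < k then (1 : ℝ) else 0) - 2 * x * (if P j < k then (1 : ℝ) else 0)
            + x ^ 2) := Finset.sum_congr rfl fun j _ => by rw [hco]; split_ifs <;> ring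
      _ = _ := by
          rw [Finset.sum_add_distrib, Finset.sum_sub_distrib, ← Finset.mul_sum, hmc]
          simp
  refine (abs_le_of_sq_le_sq' ?_ (norm_nonneg _)).2
  rw [div_pow, Real.sq_sqrt (by positivity), hsq]
  have hm1 : (d : ℝ) ≤ 2 * m := by exact_mod_cast (show d ≤ 2 * m by omega)
  have hm2 : (2 * m : ℝ) ≤ d + 1 := by exact_mod_cast (show 2 * m ≤ d + 1 by omega)
  have hd2' : (2 : ℝ) ≤ d := by exact_mod_cast hd2
  have key : (d : ℝ) ^ 2 ≤ 16 * (m * (d - m)) := by nlinarith
  refine le_of_mul_le_mul_left ?_ (show (0 : ℝ) < 16 * d by linarith)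
  nlinarith [sq_nonneg ((d : ℝ) * x - m)]

end Vale.Agent.P262
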