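import Mathlib.Analysis.SpecificLimits.Basic
import Mathlib.Algebra.Order.Floor.Semiring
import Mathlib.Data.Nat.Find
import Mathlib.Tactic.Positivity
import Mathlib.Tactic.Linarith
import Mathlib.Tactic.Ring
import Mathlib.Algebra.BigOperators.Field

/-!
The adaptive sequence of scales attached to bands `b : Fin d → ℕ` (P262).
-/

namespace Vale.Agent.P262

variable {d : ℕ} (b : Fin d → ℕ)

/-- Weighted number of coordinates above level `l`. -/
noncomputable def crowd (l : ℕ) : ℝ := ∑ j, if l ≤ b j then (1 / 2 : ℝ) ^ (b j - l) else 0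

/-- The pair (position, length) of the `k`-th stage. -/
noncomputable def stagePair : ℕ → ℕ × ℕ
  | 0 => (0, 20 + ⌈crowd b 0⌉₊)
  | k + 1 =>
    ((stagePair k).1 + (stagePair k).2,
      max (20 + ⌈crowd b ((stagePair k).1 + (stagePair k).2)⌉₊) (((stagePair k).2 + 1) / 2))

/-- Position of stage `k`. -/
noncomputable def pos (k : ℕ) : ℕ := (stagePair b k).1

/-- Length of stage `k`. -/
noncomputable def len (k : ℕ) : ℕ := (stagePair b k).2

/-- Accumulated crowding. -/
noncomputable def acc : ℕ → ℝ
  | 0 => crowd b 0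
  | k + 1 => crowd b (pos b (k + 1)) + acc k / 2

lemma pos_zero : pos b 0 = 0 := rfl

lemma pos_succ (k : ℕ) : pos b (k + 1) = pos b k + len b k := rfl

lemma len_zero : len b 0 = 20 + ⌈crowd b 0⌉₊ := rfl

lemma len_succ (k : ℕ) :
    len b (k + 1) = max (20 + ⌈crowd b (pos b (k + 1))⌉₊) ((len b k + 1) / 2) := rfl

lemma crowd_nonneg (l : ℕ) : 0 ≤ crowd b l := by
  unfold crowd
  exact Finset.sum_nonneg fun j _ => by split_ifs <;> positivity

lemma twenty_le_len (k : ℕ) : 20 ≤ len b k := by
  cases k with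
  | zero => rw [len_zero]; omega
  | succ k => rw [len_succ]; omega

lemma crowd_le_len (k : ℕ) : crowd b (pos b k) + 20 ≤ len b k := by
  have key : ∀ l, crowd b l + 20 ≤ ((20 + ⌈crowd b l⌉₊ : ℕ) : ℝ) := fun l => by
    have := Nat.le_ceil (crowd b l)
    push_cast
    linarith
  cases k with
  | zero => rw [len_zero, pos_zero]; exact key 0
  | succ k =>
    rw [len_succ]
    refine (key _).trans ?_
    exact_mod_cast le_max_left _ _

lemma len_le_two_mul (k : ℕ) : len b k ≤ 2 * len b (k + 1) := by
  rw [len_succ]; omega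

lemma pos_lt_succ (k : ℕ) : pos b k < pos b (k + 1) := by
  have := twenty_le_len b k
  rw [pos_succ]; omega

lemma pos_strictMono : StrictMono (pos b) := strictMono_nat_of_lt_succ (pos_lt_succ b)

lemma pos_mono {i k : ℕ} (h : i ≤ k) : pos b i ≤ pos b k := (pos_strictMono b).monotone h

lemma le_pos (k : ℕ) : k ≤ pos b k := (pos_strictMono b).id_le k

lemma acc_nonneg (k : ℕ) : 0 ≤ acc b k := by
  induction k with
  | zero => exact crowd_nonneg b 0
  | succ k ih =>
    have := crowd_nonneg b (pos b (k + 1))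
    simp only [acc]
    linarith

lemma crowd_le_acc (k : ℕ) : crowd b (pos b k) ≤ acc b k := by
  cases k with
  | zero => rw [pos_zero]; rfl
  | succ k =>
    have := acc_nonneg b k
    simp only [acc]
    linarith

lemma len_le_acc (k : ℕ) : (len b k : ℝ) ≤ 22 + acc b k := by
  have key : ∀ l, ((20 + ⌈crowd b l⌉₊ : ℕ) : ℝ) ≤ 21 + crowd b l := fun l => by
    have := Nat.ceil_lt_add_one (crowd_nonneg b l)
    push_cast
    linarith
  induction k with
  | zero =>
    rw [len_zero]
    have := key 0
    simp only [acc]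
    linarith
  | succ k ih =>
    have h1 := key (pos b (k + 1))
    have h2 := crowd_nonneg b (pos b (k + 1))
    have h3 := acc_nonneg b k
    rw [len_succ]
    simp only [acc]
    push_cast [Nat.cast_max]
    refine max_le ?_ ?_
    · push_cast at h1; linarith
    · have h4 : (2 : ℝ) * (((len b k + 1) / 2 : ℕ) : ℝ) ≤ (len b k : ℝ) + 1 := by
        exact_mod_cast Nat.mul_div_le (len b k + 1) 2
      linarith

lemma sum_crowd_le (K : ℕ) : ∑ k ∈ Finset.range K, crowd b (pos b k) ≤ 2 * d := by
  simp only [crowd]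
  rw [Finset.sum_comm]
  have hj : ∀ j : Fin d,
      ∑ k ∈ Finset.range K, (if pos b k ≤ b j then (1 / 2 : ℝ) ^ (b j - pos b k) else 0) ≤ 2 := by
    intro j
    rw [← Finset.sum_filter]
    have hinj : Set.InjOn (fun k => b j - pos b k)
        ((Finset.range K).filter fun k => pos b k ≤ b j : Finset ℕ) := by
      intro x hx y hy hxy
      simp only [Finset.coe_filter, Set.mem_ofPred_eq] at hx hy
      apply (pos_strictMono b).injective
      simp only at hxy
      omega
    rw [← Finset.sum_image (f := fun n => (1 / 2 : ℝ) ^ n) hinj]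
    exact (summable_geometric_two.sum_le_tsum _ fun _ _ => by positivity).trans
      tsum_geometric_two.le
  calc _ ≤ ∑ _j : Fin d, (2 : ℝ) := Finset.sum_le_sum fun j _ => hj j
    _ = 2 * d := by simp [mul_comm]

lemma sum_acc_le (K : ℕ) : ∑ k ∈ Finset.range K, acc b k ≤ 4 * d := by
  have key : ∀ n, ∑ k ∈ Finset.range (n + 1), acc b k + acc b n
      ≤ 2 * ∑ k ∈ Finset.range (n + 1), crowd b (pos b k) := by
    intro n
    induction n with
    | zero => simp [acc, pos_zero, two_mul]
    | succ n ih =>
      rw [Finset.sum_range_succ _ (n + 1), Finset.sum_range_succ _ (n + 1)]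
      simp only [acc]
      linarith
  cases K with
  | zero => simp
  | succ n =>
    have h := key n
    have h2 := acc_nonneg b n
    have h3 := sum_crowd_le b (n + 1)
    linarith

lemma card_band_le (l x : ℕ) :
    (((Finset.univ.filter fun j => l ≤ b j ∧ b j ≤ l + x)).card : ℝ) ≤ crowd b l * 2 ^ x := by
  rw [← div_le_iff₀ (by positivity)]
  rw [crowd, ← Finset.sum_filter, Finset.card_eq_sum_ones, Nat.cast_sum, Finset.sum_div]
  refine le_trans (Finset.sum_le_sum fun j hj => ?_)
    (Finset.sum_le_sum_of_subset_of_nonneg ?_ fun j _ _ => by positivity)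
  · simp only [Finset.mem_filter] at hj
    rw [Nat.cast_one, div_pow, one_pow]
    apply div_le_div_of_nonneg_left zero_le_one (by positivity)
    exact pow_le_pow_right₀ (by norm_num) (by omega)
  · intro j hj
    simp only [Finset.mem_filter] at hj ⊢
    exact ⟨hj.1, hj.2.1⟩

lemma exists_cohort (j : Fin d) : ∃ k, b j < pos b (k + 1) :=
  ⟨b j, lt_of_lt_of_le (Nat.lt_succ_self _) (le_pos b _)⟩

/-- The stage at which coordinate `j` stops being high. -/
noncomputable def coh (j : Fin d) : ℕ := Nat.find (exists_cohort b j)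

lemma lt_pos_coh_succ (j : Fin d) : b j < pos b (coh b j + 1) := Nat.find_spec (exists_cohort b j)

lemma coh_le_iff {j : Fin d} {k : ℕ} : coh b j ≤ k ↔ b j < pos b (k + 1) := by
  refine ⟨fun h => lt_of_lt_of_le (lt_pos_coh_succ b j) (pos_mono b (by omega)), fun h => ?_⟩
  exact Nat.find_le h

lemma lt_coh_iff {j : Fin d} {k : ℕ} : k < coh b j ↔ pos b (k + 1) ≤ b j := by
  rw [← not_le, coh_le_iff, not_lt]

lemma pos_le_of_le_coh {j : Fin d} {k : ℕ} (h : k ≤ coh b j) : pos b k ≤ b j := by
  cases k with
  | zero => simp [pos_zero]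
  | succ k => exact (lt_coh_iff b).1 h

lemma coh_le_band (j : Fin d) : coh b j ≤ b j :=
  (coh_le_iff b).2 (lt_of_lt_of_le (Nat.lt_succ_self _) (le_pos b _))

end Vale.Agent.P262
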