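import Vale.Agent.P262.Scales
import Mathlib.Analysis.InnerProductSpace.PiL2

/-!
Definitions used by the multiscale ordering (P262): bands, cohorts, weights and invariants.
-/

namespace Vale.Agent.P262

open scoped Real

variable {d : ℕ} (b : Fin d → ℕ) (lam : Fin d → ℝ)

/-- `lam` lives in the bands `b`. -/
structure Banded : Prop where
  nonneg : ∀ j, 0 ≤ lam j
  upper : ∀ j, lam j < 256 ^ (b j + 1)
  lower : ∀ j, 1 ≤ b j → (256 : ℝ) ^ b j ≤ lam j

/-- Height of coordinate `j` above stage `k`. -/
noncomputable def hgt (k : ℕ) (j : Fin d) : ℕ := b j - pos b k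

/-- Quarter weight. -/
noncomputable def qw (k : ℕ) (j : Fin d) : ℝ := (1 / 4) ^ hgt b k j

/-- Clipping size at age `a`. -/
noncomputable def sig (a : ℕ) : ℝ := (1 / 2) ^ (a - 2)

/-- Lifting coefficient at age `a`. -/
noncomputable def agec (a : ℕ) : ℝ := (3 / 4) ^ a

/-- Squared norm of the cohort `c` part. -/
noncomputable def cmass (c : ℕ) (u : Fin d → ℝ) : ℝ :=
  ∑ j, if coh b j = c then u j ^ 2 else 0

/-- The cohort `c` part as a Euclidean vector. -/
noncomputable def cvec (c : ℕ) (u : Fin d → ℝ) : EuclideanSpace ℝ (Fin d) :=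
  WithLp.toLp 2 fun j => if coh b j = c then u j else 0

/-- Indicator that the cohort part is small at age `a`. -/
noncomputable def smallInd (a c : ℕ) (u : Fin d → ℝ) : ℝ :=
  if cmass b c u ≤ sig a ^ 2 then 1 else 0

/-- The small part of cohort `c` at age `a`. -/
noncomputable def smallPart (a c : ℕ) (u : Fin d → ℝ) : EuclideanSpace ℝ (Fin d) :=
  smallInd b a c u • cvec b c u

variable {ι : Type*} (v : ι → Fin d → ℝ)

/-- Energy of small parts. -/
noncomputable def energy (a c : ℕ) (J : Finset ι) : ℝ :=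
  ∑ i ∈ J, smallInd b a c (v i) * cmass b c (v i)

/-- Covariance defect of a node of stage `k`. -/
noncomputable def covEntry (k : ℕ) (J : Finset ι) (j h : Fin d) : ℝ :=
  ∑ i ∈ J, v i j * v i h - if j = h then lam j / 256 ^ pos b k else 0

/-- Weighted covariance defect vector. -/
noncomputable def covVec (k : ℕ) (J : Finset ι) : EuclideanSpace ℝ (Fin d × Fin d) :=
  WithLp.toLp 2 fun p =>
    if k ≤ coh b p.1 ∧ k ≤ coh b p.2 then
      qw b k p.1 * qw b k p.2 * covEntry b lam v k J p.1 p.2 else 0

/-- Bound on the covariance defect. -/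
noncomputable def psi (k : ℕ) : ℝ := 30000 * len b k

/-- Scale of the deviations. -/
def devQ : ℝ := 1500

/-- Constant per high coordinate. -/
def cHigh : ℝ := 2328 * devQ ^ 2

/-- Surplus accumulated before stage `k`. -/
noncomputable def surplus (k : ℕ) : ℝ := 96 * devQ ^ 2 * ∑ u ∈ Finset.range k, acc b u

/-- The slowly decreasing weight of a coordinate which is high at stage `k`. -/
noncomputable def highWt (k : ℕ) (j : Fin d) : ℝ :=
  2 + ∑ u ∈ Finset.Ioo k (coh b j), (1 / 2 : ℝ) ^ (b j - pos b u)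

/-- Left hand weights of the endpoint invariant. -/
noncomputable def invWt (k T : ℕ) (j : Fin d) : ℝ :=
  if coh b j ≤ k then 1 else if b j < T then highWt b k j else 0

/-- Right hand weights of the endpoint invariant. -/
noncomputable def invCap (k T : ℕ) (j : Fin d) : ℝ :=
  if coh b j ≤ k then 2 * cHigh else if b j < T then cHigh else 0

/-- Endpoint invariant: for coordinates of cohort `≤ k` the vector records the history, for the
other coordinates the value. -/
def EndInv (k : ℕ) (z : Fin d → ℝ) : Prop :=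
  ∀ T, ∑ j, invWt b k T j * z j ^ 2 ≤ (∑ j, invCap b k T j) + surplus b k

/-- Error term of the energy recursion. -/
noncomputable def energyErr (c a : ℕ) : ℝ :=
  2 * (sig a ^ 2 / agec a) * devQ * √(2 + 8 * (a : ℝ) + (24 * len b (c + a) + 48))

/-- Energy bound for cohort `c` at age `a`. -/
noncomputable def energyBd (c : ℕ) : ℕ → ℝ
  | 0 => 40000 * (len b c : ℝ) ^ 2 * 2 ^ len b c * 256 ^ len b c
  | a + 1 => 2 * energyBd c a / 256 ^ len b (c + a) + energyErr b c a

/-- Number of coordinates of cohort `c`. -/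
noncomputable def cohCard (c : ℕ) : ℕ := (Finset.univ.filter fun j => coh b j = c).card

/-- Boundary deviation bound for cohort `c` at age `a`. -/
noncomputable def devBd (c a : ℕ) : ℝ :=
  2 * (if a = 0 then 1 else √(energyBd b c a / (64 * 256 ^ len b (c + a))))
    + devQ * (sig a / agec a) * √(6 * (cohCard b c : ℝ) + 8 * a + (24 * len b (c + a) + 48))

/-- Total norm of the parts which stop being small at age `a + 1`. -/
noncomputable def annBd (c a : ℕ) : ℝ :=
  if a < 2 then 0 else energyBd b c (a + 1) / sig (a + 1)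

/-- Residual bound for cohort `c` from age `a`, the last stage being `K`. -/
noncomputable def resBd (K c a : ℕ) : ℝ :=
  (∑ u ∈ Finset.Ico a (K - c), (3 * devBd b c u + 2 * annBd b c u)) + 2

section basics

lemma sig_pos (a : ℕ) : 0 < sig a := by unfold sig; positivity

lemma sig_le_one (a : ℕ) : sig a ≤ 1 := pow_le_one₀ (by norm_num) (by norm_num)

lemma sig_of_le_two {a : ℕ} (h : a ≤ 2) : sig a = 1 := by
  simp [sig, Nat.sub_eq_zero_of_le h]

lemma sig_succ_le (a : ℕ) : sig (a + 1) ≤ sig a :=
  pow_le_pow_of_le_one (by norm_num) (by norm_num) (by omega)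

lemma agec_pos (a : ℕ) : 0 < agec a := by unfold agec; positivity

lemma agec_le_one (a : ℕ) : agec a ≤ 1 := pow_le_one₀ (by norm_num) (by norm_num)

lemma qw_pos (k : ℕ) (j : Fin d) : 0 < qw b k j := by unfold qw; positivity

lemma cmass_nonneg (c : ℕ) (u : Fin d → ℝ) : 0 ≤ cmass b c u :=
  Finset.sum_nonneg fun j _ => by split_ifs <;> positivity

lemma norm_cvec_sq (c : ℕ) (u : Fin d → ℝ) : ‖cvec b c u‖ ^ 2 = cmass b c u := by
  rw [EuclideanSpace.real_norm_sq_eq, cmass]
  refine Finset.sum_congr rfl fun j _ => ?_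
  simp only [cvec]
  split_ifs <;> simp

lemma cmass_le (c : ℕ) (u : Fin d → ℝ) : cmass b c u ≤ ∑ j, u j ^ 2 :=
  Finset.sum_le_sum fun j _ => by split_ifs <;> first | exact le_rfl | positivity

lemma sum_cmass (s : Finset ℕ) (hs : ∀ j, coh b j ∈ s) (u : Fin d → ℝ) :
    ∑ c ∈ s, cmass b c u = ∑ j, u j ^ 2 := by
  simp only [cmass]
  rw [Finset.sum_comm]
  exact Finset.sum_congr rfl fun j _ => by simp [hs j]

lemma smallInd_nonneg (a c : ℕ) (u : Fin d → ℝ) : 0 ≤ smallInd b a c u := by
  unfold smallInd; split_ifs <;> norm_num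

lemma smallInd_le_one (a c : ℕ) (u : Fin d → ℝ) : smallInd b a c u ≤ 1 := by
  unfold smallInd; split_ifs <;> norm_num

lemma smallInd_sq (a c : ℕ) (u : Fin d → ℝ) : smallInd b a c u ^ 2 = smallInd b a c u := by
  unfold smallInd; split_ifs <;> norm_num

lemma smallInd_succ_le (a c : ℕ) (u : Fin d → ℝ) :
    smallInd b (a + 1) c u ≤ smallInd b a c u := by
  unfold smallInd
  have h := pow_le_pow_left₀ (sig_pos (a + 1)).le (sig_succ_le a) 2
  split_ifs with h1 h2 <;> linarith

lemma smallInd_of_le_two {a : ℕ} (h : a ≤ 2) (c : ℕ) {u : Fin d → ℝ} (hu : ∑ j, u j ^ 2 ≤ 1) :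
    smallInd b a c u = 1 := by
  rw [smallInd, sig_of_le_two h, if_pos]
  have := cmass_le b c u
  linarith

lemma norm_smallPart_sq (a c : ℕ) (u : Fin d → ℝ) :
    ‖smallPart b a c u‖ ^ 2 = smallInd b a c u * cmass b c u := by
  rw [smallPart, norm_smul, mul_pow, norm_cvec_sq, Real.norm_eq_abs, sq_abs, smallInd_sq]

lemma cvec_add (c : ℕ) (u w : Fin d → ℝ) : cvec b c (u + w) = cvec b c u + cvec b c w := by
  ext j; simp only [cvec, Pi.add_apply, PiLp.add_apply]; split_ifs <;> simp

lemma cvec_smul (c : ℕ) (r : ℝ) (u : Fin d → ℝ) : cvec b c (r • u) = r • cvec b c u := by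
  ext j; simp only [cvec, Pi.smul_apply, PiLp.smul_apply]; split_ifs <;> simp

lemma cvec_sum {α : Type*} (c : ℕ) (s : Finset α) (u : α → Fin d → ℝ) :
    cvec b c (∑ i ∈ s, u i) = ∑ i ∈ s, cvec b c (u i) := by
  classical
  induction s using Finset.induction_on with
  | empty => ext j; simp [cvec]
  | insert a s ha ih => rw [Finset.sum_insert ha, Finset.sum_insert ha, cvec_add, ih]

lemma two_le_highWt (k : ℕ) (j : Fin d) : 2 ≤ highWt b k j := by
  have : (0 : ℝ) ≤ ∑ u ∈ Finset.Ioo k (coh b j), (1 / 2 : ℝ) ^ (b j - pos b u) :=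
    Finset.sum_nonneg fun u _ => by positivity
  unfold highWt
  linarith

lemma highWt_le_four (k : ℕ) (j : Fin d) : highWt b k j ≤ 4 := by
  have hinj : Set.InjOn (fun u => b j - pos b u) (Finset.Ioo k (coh b j) : Finset ℕ) := by
    intro x hx y hy hxy
    simp only [Finset.coe_Ioo, Set.mem_Ioo] at hx hy
    have := pos_le_of_le_coh b hx.2.le
    have := pos_le_of_le_coh b hy.2.le
    apply (pos_strictMono b).injective
    simp only at hxy
    omega
  have : ∑ u ∈ Finset.Ioo k (coh b j), (1 / 2 : ℝ) ^ (b j - pos b u) ≤ 2 := by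
    rw [← Finset.sum_image (f := fun n => (1 / 2 : ℝ) ^ n) hinj]
    exact (summable_geometric_two.sum_le_tsum _ fun _ _ => by positivity).trans
      tsum_geometric_two.le
  unfold highWt
  linarith

lemma highWt_succ {k : ℕ} {j : Fin d} (h : k + 1 < coh b j) :
    highWt b k j = highWt b (k + 1) j + (1 / 2 : ℝ) ^ hgt b (k + 1) j := by
  have : Finset.Ioo k (coh b j) = insert (k + 1) (Finset.Ioo (k + 1) (coh b j)) := by
    ext u; simp only [Finset.mem_Ioo, Finset.mem_insert]; omega
  rw [highWt, highWt, this, Finset.sum_insert (by simp), hgt]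
  ring

lemma surplus_nonneg (k : ℕ) : 0 ≤ surplus b k :=
  mul_nonneg (by unfold devQ; norm_num) (Finset.sum_nonneg fun u _ => acc_nonneg b u)

lemma surplus_succ (k : ℕ) : surplus b (k + 1) = surplus b k + 96 * devQ ^ 2 * acc b k := by
  rw [surplus, surplus, Finset.sum_range_succ]; ring

lemma invWt_nonneg (k T : ℕ) (j : Fin d) : 0 ≤ invWt b k T j := by
  have := two_le_highWt b k j
  unfold invWt; split_ifs <;> linarith

lemma energyErr_nonneg (c a : ℕ) : 0 ≤ energyErr b c a := by
  unfold energyErr devQ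
  have := agec_pos a
  positivity

lemma energyBd_nonneg (c a : ℕ) : 0 ≤ energyBd b c a := by
  induction a with
  | zero => simp only [energyBd]; positivity
  | succ a ih =>
    have := energyErr_nonneg b c a
    simp only [energyBd]
    positivity

lemma devBd_nonneg (c a : ℕ) : 0 ≤ devBd b c a := by
  have := agec_pos a
  have := sig_pos a
  unfold devBd devQ
  split_ifs <;> positivity

lemma annBd_nonneg (c a : ℕ) : 0 ≤ annBd b c a := by
  have := energyBd_nonneg b c (a + 1)
  have := sig_pos (a + 1)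
  unfold annBd
  split_ifs <;> positivity

end basics

end Vale.Agent.P262
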