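import Vale.Agent.P262.Setup
import Mathlib.LinearAlgebra.FiniteDimensional.Lemmas
import Mathlib.Algebra.Order.BigOperators.Ring.Finset

/-!
Quadratic form of a node and the fractional shift which resets high coordinates (P262).
-/

namespace Vale.Agent.P262

variable {d : ℕ} {b : Fin d → ℕ} {lam : Fin d → ℝ} {ι : Type*} {v : ι → Fin d → ℝ}

lemma len_mul_le_pow {n : ℕ} (h : 20 ≤ n) : 1000 * n ≤ 2 ^ n := by
  induction n, h using Nat.le_induction with
  | base => norm_num
  | succ n hn ih => rw [pow_succ]; omega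

lemma hgt_eq_add {k : ℕ} {j : Fin d} (h : k < coh b j) :
    hgt b k j = hgt b (k + 1) j + len b k := by
  have h1 := (lt_coh_iff b).1 h
  rw [pos_succ] at h1
  rw [hgt, hgt, pos_succ]
  omega

lemma len_le_hgt {k : ℕ} {j : Fin d} (h : k < coh b j) : len b k ≤ hgt b k j := by
  rw [hgt_eq_add h]; omega

lemma qw_four (k : ℕ) (j : Fin d) : qw b k j ^ 4 * 256 ^ hgt b k j = 1 := by
  rw [qw, ← pow_mul, mul_comm (hgt b k j) 4, pow_mul, ← mul_pow]
  norm_num

lemma qw_sq_sixteen (k : ℕ) (j : Fin d) : qw b k j * qw b k j * 16 ^ hgt b k j = 1 := by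
  rw [qw, ← mul_pow, ← mul_pow]
  norm_num

lemma sum_quarter_le (k : ℕ) :
    ∑ j, (if k < coh b j then (1 / 4 : ℝ) ^ hgt b k j else 0) ≤ 1 / 1000 := by
  calc ∑ j, (if k < coh b j then (1 / 4 : ℝ) ^ hgt b k j else 0)
      ≤ ∑ j, (1 / 2 : ℝ) ^ len b k *
          (if pos b k ≤ b j then (1 / 2 : ℝ) ^ (b j - pos b k) else 0) := by
        refine Finset.sum_le_sum fun j _ => ?_
        by_cases h : k < coh b j
        · rw [if_pos h, if_pos (pos_le_of_le_coh b h.le),
            show (1 / 4 : ℝ) = 1 / 2 * (1 / 2) by norm_num, mul_pow, hgt]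
          refine mul_le_mul_of_nonneg_right ?_ (by positivity)
          exact pow_le_pow_of_le_one (by norm_num) (by norm_num) (len_le_hgt h)
        · rw [if_neg h]; split_ifs <;> positivity
    _ = (1 / 2 : ℝ) ^ len b k * crowd b (pos b k) := by rw [crowd, Finset.mul_sum]
    _ ≤ (1 / 2 : ℝ) ^ len b k * (2 ^ len b k / 1000) := by
        gcongr
        rw [le_div_iff₀ (by norm_num)]
        have h1 := crowd_le_len b k
        have h2 : (1000 : ℝ) * len b k ≤ 2 ^ len b k := by
          exact_mod_cast len_mul_le_pow (twenty_le_len b k)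
        linarith
    _ = 1 / 1000 := by rw [← mul_div_assoc, ← mul_pow]; norm_num

lemma psi_mul_le {k x : ℕ} (h : len b k ≤ x) :
    psi b k * 16 ^ x ≤ (256 : ℝ) ^ x / 4 := by
  have h1 : (4 : ℝ) * psi b k ≤ 16 ^ x := by
    have hnat : 4 * (30000 * len b k) ≤ 16 ^ x := by
      have h0 := len_mul_le_pow (twenty_le_len b k)
      have h2 : 120 ≤ 2 ^ len b k := le_trans (by norm_num) (Nat.pow_le_pow_right (by norm_num)
        ((twenty_le_len b k).trans' (by norm_num : 7 ≤ 20)))
      calc 4 * (30000 * len b k) = 120 * (1000 * len b k) := by ring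
        _ ≤ 2 ^ len b k * 2 ^ len b k := Nat.mul_le_mul h2 h0
        _ ≤ 16 ^ len b k := by rw [← mul_pow]; exact Nat.pow_le_pow_left (by norm_num) _
        _ ≤ 16 ^ x := Nat.pow_le_pow_right (by norm_num) h
    rw [psi]
    exact_mod_cast hnat
  rw [show (256 : ℝ) = 16 * 16 by norm_num, mul_pow, le_div_iff₀ (by norm_num)]
  nlinarith [mul_le_mul_of_nonneg_right h1 (pow_nonneg (by norm_num : (0:ℝ) ≤ 16) x)]

/-- The quadratic form of a node on its high coordinates is close to the ideal one. -/
lemma quad_form_bounds (hband : Banded b lam) (k : ℕ) (J : Finset ι)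
    (hcov : ‖covVec b lam v k J‖ ≤ psi b k) (y : Fin d → ℝ)
    (hy : ∀ j, ¬ k < coh b j → y j = 0) :
    3 / 4 * ∑ j, 256 ^ hgt b k j * y j ^ 2 ≤ ∑ i ∈ J, (∑ j, v i j * y j) ^ 2 ∧
      ∑ i ∈ J, (∑ j, v i j * y j) ^ 2 ≤ 257 * ∑ j, 256 ^ hgt b k j * y j ^ 2 := by
  obtain ⟨yy, hyy⟩ : ∃ yy : Fin d × Fin d → ℝ,
      yy = fun p => 16 ^ hgt b k p.1 * y p.1 * (16 ^ hgt b k p.2 * y p.2)
        * (qw b k p.1 * qw b k p.2) := ⟨_, rfl⟩
  have hexp : ∑ i ∈ J, (∑ j, v i j * y j) ^ 2
      = ∑ j, ∑ h, (∑ i ∈ J, v i j * v i h) * y j * y h := by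
    simp only [sq, Finset.sum_mul, Finset.mul_sum]
    rw [Finset.sum_comm]
    refine Finset.sum_congr rfl fun j _ => ?_
    rw [Finset.sum_comm]
    exact Finset.sum_congr rfl fun h _ => Finset.sum_congr rfl fun i _ => by ring
  have hsplit : ∑ j, ∑ h, (∑ i ∈ J, v i j * v i h) * y j * y h
      = ∑ p, covVec b lam v k J p * yy p + ∑ j, lam j / 256 ^ pos b k * y j ^ 2 := by
    rw [Fintype.sum_prod_type, ← Finset.sum_add_distrib]
    refine Finset.sum_congr rfl fun j _ => ?_
    have hd : lam j / 256 ^ pos b k * y j ^ 2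
        = ∑ h, (if j = h then lam j / 256 ^ pos b k else 0) * y j * y h := by
      simp [ite_mul, sq, mul_assoc]
    rw [hd, ← Finset.sum_add_distrib]
    refine Finset.sum_congr rfl fun h _ => ?_
    by_cases hj : k < coh b j
    · by_cases hh : k < coh b h
      · simp only [covVec, if_pos (And.intro hj.le hh.le), covEntry, hyy]
        have e1 := qw_sq_sixteen (b := b) k j
        have e2 := qw_sq_sixteen (b := b) k h
        have : ∀ E : ℝ, qw b k j * qw b k h * E * (16 ^ hgt b k j * y j * (16 ^ hgt b k h * y h)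
            * (qw b k j * qw b k h)) = E * y j * y h * ((qw b k j * qw b k j * 16 ^ hgt b k j)
              * (qw b k h * qw b k h * 16 ^ hgt b k h)) := fun E => by ring
        rw [this, e1, e2]
        ring
      · simp [hyy, hy h hh]
    · simp [hyy, hy j hj]
  have hy2 : ∑ p, yy p ^ 2 = (∑ j, 16 ^ hgt b k j * y j ^ 2) ^ 2 := by
    rw [Fintype.sum_prod_type, sq (∑ j, _), Finset.sum_mul_sum]
    refine Finset.sum_congr rfl fun j _ => Finset.sum_congr rfl fun h _ => ?_
    rw [hyy]
    calc _ = 16 ^ hgt b k j * y j ^ 2 * (16 ^ hgt b k h * y h ^ 2)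
          * ((qw b k j * qw b k j * 16 ^ hgt b k j) * (qw b k h * qw b k h * 16 ^ hgt b k h)) := by
          ring
      _ = _ := by rw [qw_sq_sixteen, qw_sq_sixteen]; ring
  have hN : 0 ≤ ∑ j, (16 : ℝ) ^ hgt b k j * y j ^ 2 :=
    Finset.sum_nonneg fun j _ => by positivity
  have herr : |∑ p, covVec b lam v k J p * yy p| ≤ psi b k * ∑ j, 16 ^ hgt b k j * y j ^ 2 := by
    have h1 := Finset.sum_mul_sq_le_sq_mul_sq Finset.univ (fun p => covVec b lam v k J p) yy
    rw [hy2, ← EuclideanSpace.real_norm_sq_eq, ← mul_pow] at h1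
    have h2 := abs_le_of_sq_le_sq h1 (mul_nonneg (norm_nonneg _) hN)
    exact h2.trans (mul_le_mul_of_nonneg_right hcov hN)
  have hmain : psi b k * ∑ j, 16 ^ hgt b k j * y j ^ 2
      ≤ 1 / 4 * ∑ j, 256 ^ hgt b k j * y j ^ 2 := by
    rw [Finset.mul_sum, Finset.mul_sum]
    refine Finset.sum_le_sum fun j _ => ?_
    by_cases hj : k < coh b j
    · have := mul_le_mul_of_nonneg_right (psi_mul_le (b := b) (len_le_hgt hj)) (sq_nonneg (y j))
      nlinarith
    · simp [hy j hj]
  have hdiag : ∀ j, 256 ^ hgt b k j * y j ^ 2 ≤ lam j / 256 ^ pos b k * y j ^ 2 ∧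
      lam j / 256 ^ pos b k * y j ^ 2 ≤ 256 * (256 ^ hgt b k j * y j ^ 2) := by
    intro j
    by_cases hj : k < coh b j
    · have h1 := (lt_coh_iff b).1 hj
      have h2 := pos_lt_succ b k
      have hp : (256 : ℝ) ^ hgt b k j * 256 ^ pos b k = 256 ^ b j := by
        rw [← pow_add]; congr 1; rw [hgt]; omega
      have hl := hband.lower j (by omega)
      have hu := hband.upper j
      rw [pow_succ, ← hp] at hu
      rw [← hp] at hl
      have hpp : (0 : ℝ) < 256 ^ pos b k := by positivity
      refine ⟨mul_le_mul_of_nonneg_right ((le_div_iff₀ hpp).2 hl) (sq_nonneg _), ?_⟩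
      rw [← mul_assoc]
      refine mul_le_mul_of_nonneg_right ?_ (sq_nonneg _)
      rw [div_le_iff₀ hpp]
      linarith
    · simp [hy j hj]
  have hl := Finset.sum_le_sum (s := Finset.univ) fun j _ => (hdiag j).1
  have hu := Finset.sum_le_sum (s := Finset.univ) fun j _ => (hdiag j).2
  rw [← Finset.mul_sum] at hu
  have habs := abs_le.1 herr
  constructor <;> rw [hexp, hsplit] <;> linarith

/-- The fractional shift. -/
lemma exists_shift (hband : Banded b lam) (k : ℕ) (J : Finset ι)
    (hv : ∀ i ∈ J, ∑ j, v i j ^ 2 ≤ 1)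
    (hcov : ‖covVec b lam v k J‖ ≤ psi b k) (δ : Fin d → ℝ)
    (hδ : ∀ j, ¬ k + 1 < coh b j → δ j = 0)
    (hδ' : ∀ j, |δ j| ≤ 8 ^ hgt b (k + 1) j) :
    ∃ x : ι → ℝ,
      (∀ i ∈ J, |x i| ≤ 1 / (4 * 256 ^ len b k)) ∧
      (∀ j, k < coh b j → ∑ i ∈ J, x i * v i j = δ j) ∧
      cmass b k (fun j => ∑ i ∈ J, x i * v i j) ≤ 1 ∧
      (∑ i ∈ J, x i ^ 2 ≤ 1 / (64 * 256 ^ len b k)) ∧
      ∑ p : Fin d × Fin d, (if k < coh b p.1 ∧ k < coh b p.2 then
        (qw b (k + 1) p.1 * qw b (k + 1) p.2) ^ 2 * (∑ i ∈ J, x i * (v i p.1 * v i p.2)) ^ 2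
          else 0) ≤ 5 := by
  classical
  let T : (Fin d → ℝ) →ₗ[ℝ] (Fin d → ℝ) :=
    LinearMap.pi fun h => if k < coh b h then
      ∑ j, (if k < coh b j then ∑ i ∈ J, v i h * v i j else 0) • LinearMap.proj j
      else LinearMap.proj h
  have hT : ∀ y h, T y h = if k < coh b h then
      ∑ j, (if k < coh b j then ∑ i ∈ J, v i h * v i j else 0) * y j else y h := by
    intro y h
    simp only [T, LinearMap.pi_apply]
    split_ifs
    · rw [LinearMap.sum_apply]
      exact Finset.sum_congr rfl fun j _ => by split_ifs <;> simp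
    · simp
  have hTy : ∀ y, (∀ j, ¬ k < coh b j → y j = 0) → ∀ h, k < coh b h →
      T y h = ∑ i ∈ J, v i h * ∑ j, v i j * y j := by
    intro y hy h hh
    rw [hT, if_pos hh]
    simp only [Finset.mul_sum]
    rw [Finset.sum_comm (s := J)]
    refine Finset.sum_congr rfl fun j _ => ?_
    by_cases hj : k < coh b j
    · rw [if_pos hj, Finset.sum_mul]
      exact Finset.sum_congr rfl fun i _ => by ring
    · simp [hy j hj]
  have hquad : ∀ y, (∀ j, ¬ k < coh b j → y j = 0) →
      ∑ i ∈ J, (∑ j, v i j * y j) ^ 2 = ∑ h, T y h * y h := by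
    intro y hy
    simp only [sq]
    calc ∑ i ∈ J, (∑ j, v i j * y j) * (∑ j, v i j * y j)
        = ∑ i ∈ J, ∑ h, (v i h * y h) * (∑ j, v i j * y j) := by
          simp only [Finset.sum_mul]
      _ = _ := by
          rw [Finset.sum_comm]
          refine Finset.sum_congr rfl fun h _ => ?_
          by_cases hh : k < coh b h
          · rw [hTy y hy h hh, Finset.sum_mul]
            exact Finset.sum_congr rfl fun i _ => by ring
          · simp [hy h hh]
  have hinj : Function.Injective T := by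
    rw [← LinearMap.ker_eq_bot, LinearMap.ker_eq_bot']
    intro y hy0
    have hlow : ∀ j, ¬ k < coh b j → y j = 0 := by
      intro j hj
      have := congrFun hy0 j
      rw [hT, if_neg hj] at this
      simpa using this
    have hq := (quad_form_bounds hband k J hcov y hlow).1
    have h0 : ∑ h, T y h * y h = 0 := by simp [hy0]
    rw [hquad y hlow, h0] at hq
    have hzero : ∑ j, (256 : ℝ) ^ hgt b k j * y j ^ 2 = 0 :=
      le_antisymm (by linarith) (Finset.sum_nonneg fun j _ => by positivity)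
    rw [Finset.sum_eq_zero_iff_of_nonneg fun j _ => by positivity] at hzero
    funext j
    have := hzero j (Finset.mem_univ j)
    simpa using this
  obtain ⟨z, hz⟩ := LinearMap.surjective_of_injective hinj δ
  have hlow : ∀ j, ¬ k < coh b j → z j = 0 := by
    intro j hj
    have := congrFun hz j
    rw [hT, if_neg hj] at this
    rw [this, hδ j (by omega)]
  obtain ⟨M, hM⟩ : ∃ M : ℝ, M = 256 ^ len b k := ⟨_, rfl⟩
  have hM0 : 0 < M := hM ▸ by positivity
  have hM1 : 1 ≤ M := hM ▸ one_le_pow₀ (by norm_num)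
  obtain ⟨N, hN⟩ : ∃ N : ℝ, N = ∑ j, 256 ^ hgt b k j * z j ^ 2 := ⟨_, rfl⟩
  have hN0 : 0 ≤ N := hN ▸ Finset.sum_nonneg fun j _ => by positivity
  have hq := quad_form_bounds hband k J hcov z hlow
  rw [← hN] at hq
  have hqeq : ∑ i ∈ J, (∑ j, v i j * z j) ^ 2 = ∑ h, δ h * z h := by
    rw [hquad z hlow, hz]
  -- the weighted size of δ
  have heps : ∑ j, δ j ^ 2 / 256 ^ hgt b k j ≤ 1 / 1000 / M := by
    have h1 := sum_quarter_le (b := b) (k + 1)
    rw [le_div_iff₀ hM0, Finset.sum_mul]
    refine le_trans (Finset.sum_le_sum fun j _ => ?_) h1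
    by_cases hj : k + 1 < coh b j
    · rw [if_pos hj, hgt_eq_add (show k < coh b j by omega), hM, pow_add, div_mul_eq_mul_div,
        div_le_iff₀ (by positivity)]
      have h2 : δ j ^ 2 ≤ (64 : ℝ) ^ hgt b (k + 1) j := by
        rw [show (64 : ℝ) = 8 * 8 by norm_num, mul_pow, ← sq, ← sq_abs (δ j)]
        exact pow_le_pow_left₀ (abs_nonneg _) (hδ' j) 2
      have h3 : (1 / 4 : ℝ) ^ hgt b (k + 1) j * (256 ^ hgt b (k + 1) j * 256 ^ len b k)
          = 64 ^ hgt b (k + 1) j * 256 ^ len b k := by
        rw [← mul_assoc, ← mul_pow]; norm_num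
      rw [h3]
      exact mul_le_mul_of_nonneg_right h2 (by positivity)
    · simp [hδ j hj, hj]
  have hcs : (∑ h, δ h * z h) ^ 2 ≤ (∑ j, δ j ^ 2 / 256 ^ hgt b k j) * N := by
      have := Finset.sum_mul_sq_le_sq_mul_sq Finset.univ
        (fun j => δ j / √((256 : ℝ) ^ hgt b k j)) (fun j => √((256 : ℝ) ^ hgt b k j) * z j)
      have e1 : ∀ j, δ j / √((256 : ℝ) ^ hgt b k j) * (√((256 : ℝ) ^ hgt b k j) * z j)
          = δ j * z j := fun j => by
        have : √((256 : ℝ) ^ hgt b k j) ≠ 0 := by positivity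
        field_simp
      have e2 : ∀ j, (δ j / √((256 : ℝ) ^ hgt b k j)) ^ 2 = δ j ^ 2 / 256 ^ hgt b k j :=
        fun j => by rw [div_pow, Real.sq_sqrt (by positivity)]
      have e3 : ∀ j, (√((256 : ℝ) ^ hgt b k j) * z j) ^ 2 = 256 ^ hgt b k j * z j ^ 2 :=
        fun j => by rw [mul_pow, Real.sq_sqrt (by positivity)]
      simpa only [e1, e2, e3, ← hN] using this
  have hNle : N ≤ 2 / 1000 / M := by
    have h1 : (3 / 4 * N) ^ 2 ≤ 1 / 1000 / M * N :=
      (pow_le_pow_left₀ (by positivity) (hqeq ▸ hq.1) 2).trans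
        (hcs.trans (mul_le_mul_of_nonneg_right heps hN0))
    rcases eq_or_lt_of_le hN0 with h | h
    · rw [← h]; positivity
    · have h2 : 9 / 16 * N ≤ 1 / 1000 / M := by
        refine le_of_mul_le_mul_right ?_ h
        linarith
      have h3 : 0 ≤ 1 / 1000 / M := by positivity
      have h4 : (2 : ℝ) / 1000 / M = 2 * (1 / 1000 / M) := by ring
      linarith
  let x : ι → ℝ := fun i => ∑ j, v i j * z j
  have hx2 : ∑ i ∈ J, x i ^ 2 ≤ 1 / (64 * M) := by
    have h1 : (∑ i ∈ J, x i ^ 2) ^ 2 ≤ (2 / 1000 / M) ^ 2 := by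
      refine (hqeq ▸ hcs.trans (mul_le_mul heps hNle hN0 (by positivity))).trans ?_
      rw [sq]
      refine mul_le_mul_of_nonneg_right ?_ (by positivity)
      rw [div_le_div_iff_of_pos_right hM0]; norm_num
    refine (abs_le_of_sq_le_sq h1 (by positivity)).trans' (le_abs_self _) |>.trans ?_
    rw [show (1 : ℝ) / (64 * M) = 1 / 64 / M by rw [div_div], div_le_div_iff_of_pos_right hM0]
    norm_num
  refine ⟨x, fun i hi => ?_, fun j hj => ?_, ?_, hM ▸ hx2, ?_⟩
  · have hcs := Finset.sum_mul_sq_le_sq_mul_sq Finset.univ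
      (fun j => if k < coh b j then v i j / √((256 : ℝ) ^ hgt b k j) else 0)
      (fun j => √((256 : ℝ) ^ hgt b k j) * z j)
    have e1 : ∀ j, (if k < coh b j then v i j / √((256 : ℝ) ^ hgt b k j) else 0)
        * (√((256 : ℝ) ^ hgt b k j) * z j) = v i j * z j := fun j => by
      by_cases hj : k < coh b j
      · have : √((256 : ℝ) ^ hgt b k j) ≠ 0 := by positivity
        rw [if_pos hj]
        field_simp
      · simp [hlow j hj]
    have e3 : ∀ j, (√((256 : ℝ) ^ hgt b k j) * z j) ^ 2 = 256 ^ hgt b k j * z j ^ 2 :=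
      fun j => by rw [mul_pow, Real.sq_sqrt (by positivity)]
    simp only [e1, e3, ← hN] at hcs
    have hsum : ∑ j, (if k < coh b j then v i j / √((256 : ℝ) ^ hgt b k j) else 0) ^ 2
        ≤ 1 / M := by
      refine le_trans (Finset.sum_le_sum (g := fun j => v i j ^ 2 / M) fun j _ => ?_) ?_
      · by_cases hj : k < coh b j
        · rw [if_pos hj, div_pow, Real.sq_sqrt (by positivity), hM]
          exact div_le_div_of_nonneg_left (sq_nonneg _) (by positivity)
            (pow_le_pow_right₀ (by norm_num) (len_le_hgt hj))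
        · rw [if_neg hj, sq, mul_zero]; positivity
      · rw [← Finset.sum_div]
        exact div_le_div_of_nonneg_right (hv i hi) hM0.le
    rw [← hM]
    refine abs_le_of_sq_le_sq (hcs.trans ?_) (by positivity)
    calc _ ≤ 1 / M * (2 / 1000 / M) := mul_le_mul hsum hNle hN0 (by positivity)
      _ ≤ (1 / (4 * M)) ^ 2 := by
          rw [div_mul_div_comm, div_pow, div_le_div_iff₀ (by positivity) (by positivity)]
          nlinarith
  · have := congrFun hz j
    rw [hTy z hlow j hj] at this
    rw [← this]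
    exact Finset.sum_congr rfl fun i _ => mul_comm _ _
  · -- age zero
    have hval : ∀ j, coh b j = k → ∑ i ∈ J, x i * v i j
        = ∑ h, covEntry b lam v k J j h * z h := by
      intro j hj
      simp only [x, Finset.sum_mul, covEntry, sub_mul, Finset.sum_sub_distrib]
      rw [Finset.sum_comm]
      have : ∑ h, (if j = h then lam j / 256 ^ pos b k else 0) * z h = 0 := by
        simp [hlow j (by omega)]
      rw [this, sub_zero]
      exact Finset.sum_congr rfl fun h _ => Finset.sum_congr rfl fun i _ => by ring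
    have hbound : cmass b k (fun j => ∑ i ∈ J, x i * v i j)
        ≤ ‖covVec b lam v k J‖ ^ 2 * N := by
      rw [EuclideanSpace.real_norm_sq_eq, Fintype.sum_prod_type, Finset.sum_mul]
      refine Finset.sum_le_sum fun j _ => ?_
      by_cases hj : coh b j = k
      · rw [if_pos hj]
        simp only [hval j hj]
        have hcs := Finset.sum_mul_sq_le_sq_mul_sq Finset.univ
          (fun h => if k < coh b h then covEntry b lam v k J j h / √((256 : ℝ) ^ hgt b k h) else 0)
          (fun h => √((256 : ℝ) ^ hgt b k h) * z h)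
        have e1 : ∀ h, (if k < coh b h then covEntry b lam v k J j h / √((256 : ℝ) ^ hgt b k h)
            else 0) * (√((256 : ℝ) ^ hgt b k h) * z h) = covEntry b lam v k J j h * z h :=
          fun h => by
          by_cases hh : k < coh b h
          · have : √((256 : ℝ) ^ hgt b k h) ≠ 0 := by positivity
            rw [if_pos hh]
            field_simp
          · simp [hlow h hh]
        have e3 : ∀ h, (√((256 : ℝ) ^ hgt b k h) * z h) ^ 2 = 256 ^ hgt b k h * z h ^ 2 :=
          fun h => by rw [mul_pow, Real.sq_sqrt (by positivity)]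
        simp only [e1, e3, ← hN] at hcs
        refine hcs.trans (mul_le_mul_of_nonneg_right (Finset.sum_le_sum fun h _ => ?_) hN0)
        by_cases hh : k < coh b h
        · simp only [covVec, if_pos hh, if_pos (And.intro hj.ge hh.le)]
          rw [div_pow, Real.sq_sqrt (by positivity), mul_pow, mul_comm]
          rw [div_le_iff₀ (by positivity)]
          have hle : hgt b k j ≤ hgt b k h := by
            have h1 := (coh_le_iff b).1 hj.le
            have h2 := (lt_coh_iff b).1 hh
            rw [hgt, hgt]; omega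
          have hqq : 1 ≤ (qw b k j * qw b k h) ^ 2 * 256 ^ hgt b k h := by
            have h4 := qw_four (b := b) k h
            have h5 : qw b k h ≤ qw b k j := pow_le_pow_of_le_one (by norm_num) (by norm_num) hle
            calc (1 : ℝ) = qw b k h ^ 4 * 256 ^ hgt b k h := h4.symm
              _ ≤ _ := by
                refine mul_le_mul_of_nonneg_right ?_ (by positivity)
                rw [show qw b k h ^ 4 = (qw b k h * qw b k h) ^ 2 by ring]
                exact pow_le_pow_left₀ (mul_nonneg (qw_pos b k h).le (qw_pos b k h).le)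
                  (mul_le_mul_of_nonneg_right h5 (qw_pos b k h).le) 2
          calc covEntry b lam v k J j h ^ 2 = covEntry b lam v k J j h ^ 2 * 1 := (mul_one _).symm
            _ ≤ covEntry b lam v k J j h ^ 2 *
                ((qw b k j * qw b k h) ^ 2 * 256 ^ hgt b k h) :=
              mul_le_mul_of_nonneg_left hqq (sq_nonneg _)
            _ = _ := by ring
        · rw [if_neg hh, sq, mul_zero]; positivity
      · rw [if_neg hj]
        exact mul_nonneg (Finset.sum_nonneg fun h _ => sq_nonneg _) hN0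
    refine hbound.trans ?_
    have h1 : ‖covVec b lam v k J‖ ^ 2 ≤ psi b k ^ 2 :=
      pow_le_pow_left₀ (norm_nonneg _) hcov 2
    have h2 := psi_mul_le (b := b) (le_refl (len b k))
    have h3 : psi b k ^ 2 ≤ M := by
      have h16 : M = 16 ^ len b k * 16 ^ len b k := by rw [hM, ← mul_pow]; norm_num
      rw [← hM, h16] at h2
      have hp : 0 < (16 : ℝ) ^ len b k := by positivity
      have hpsi : 0 ≤ psi b k := by unfold psi; positivity
      have : psi b k ≤ 16 ^ len b k := by
        refine le_of_mul_le_mul_right ?_ hp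
        linarith [mul_pos hp hp]
      rw [h16, sq]
      exact mul_le_mul this this hpsi hp.le
    calc ‖covVec b lam v k J‖ ^ 2 * N ≤ M * (2 / 1000 / M) :=
          mul_le_mul (h1.trans h3) hNle hN0 hM0.le
      _ ≤ 1 := by rw [mul_div_cancel₀ _ hM0.ne']; norm_num
  · -- covariance of the shift
    let F : Fin d → Fin d → ℝ := fun j h => ∑ i ∈ J, x i * (v i j * v i h)
    let y : Fin d → Fin d → ℝ := fun j h =>
      if k < coh b j ∧ k < coh b h then F j h * qw b (k + 1) h ^ 4 else 0
    obtain ⟨Nq, hNq⟩ : ∃ Nq : ℝ, Nq = ∑ j, ∑ h, F j h * y j h := ⟨_, rfl⟩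
    have hNq0 : 0 ≤ Nq := hNq ▸ Finset.sum_nonneg fun j _ => Finset.sum_nonneg fun h _ => by
      simp only [y]; split_ifs
      · have := qw_pos b (k + 1) h
        rw [← mul_assoc]; exact mul_nonneg (mul_self_nonneg _) (by positivity)
      · simp
    have hNqx : Nq = ∑ i ∈ J, x i * ∑ j, v i j * ∑ h, v i h * y j h := by
      rw [hNq]
      simp only [F, Finset.sum_mul, Finset.mul_sum]
      conv_rhs => rw [Finset.sum_comm]
      refine Finset.sum_congr rfl fun j _ => ?_
      rw [Finset.sum_comm]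
      exact Finset.sum_congr rfl fun i _ => Finset.sum_congr rfl fun h _ => by ring
    have hper : ∀ j, ∑ i ∈ J, (∑ h, v i h * y j h) ^ 2 ≤ 257 * M * ∑ h, F j h * y j h := by
      intro j
      refine ((quad_form_bounds hband k J hcov (y j) fun h hh => ?_).2).trans_eq ?_
      · simp [y, hh]
      · rw [mul_assoc, Finset.mul_sum (a := M)]
        congr 1
        refine Finset.sum_congr rfl fun h _ => ?_
        simp only [y]
        split_ifs with hp
        · rw [hgt_eq_add hp.2, pow_add, ← hM]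
          calc _ = M * (F j h * (F j h * qw b (k + 1) h ^ 4))
              * (qw b (k + 1) h ^ 4 * 256 ^ hgt b (k + 1) h) := by ring
            _ = _ := by rw [qw_four]; ring
        · simp
    have hcs : Nq ^ 2 ≤ (∑ i ∈ J, x i ^ 2) * (257 * M * Nq) := by
      calc Nq ^ 2 ≤ (∑ i ∈ J, x i ^ 2) * ∑ i ∈ J, (∑ j, v i j * ∑ h, v i h * y j h) ^ 2 :=
            hNqx ▸ Finset.sum_mul_sq_le_sq_mul_sq _ _ _
        _ ≤ _ := by
          refine mul_le_mul_of_nonneg_left ?_ (Finset.sum_nonneg fun i _ => sq_nonneg _)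
          rw [hNq, Finset.mul_sum]
          refine le_trans ?_ (Finset.sum_le_sum fun j _ => hper j)
          rw [Finset.sum_comm (s := Finset.univ)]
          refine Finset.sum_le_sum fun i hi => ?_
          refine (Finset.sum_mul_sq_le_sq_mul_sq _ _ _).trans ?_
          exact mul_le_of_le_one_left (Finset.sum_nonneg fun j _ => sq_nonneg _) (hv i hi)
    have hNq5 : Nq ≤ 5 := by
      rcases eq_or_lt_of_le hNq0 with h | h
      · linarith
      · have h2 : Nq * Nq ≤ 1 / (64 * M) * (257 * M * Nq) := by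
          rw [← sq]; exact hcs.trans (mul_le_mul_of_nonneg_right hx2 (by positivity))
        have h3 : 1 / (64 * M) * (257 * M * Nq) = 257 / 64 * Nq := by field_simp
        rw [h3] at h2
        linarith [le_of_mul_le_mul_right h2 h]
    refine le_trans ?_ hNq5
    have hsym : ∑ j, ∑ h, (if k < coh b j ∧ k < coh b h then qw b (k + 1) j ^ 4 * F j h ^ 2 else 0)
        = Nq := by
      rw [hNq, Finset.sum_comm]
      refine Finset.sum_congr rfl fun j _ => Finset.sum_congr rfl fun h _ => ?_
      have hF : F h j = F j h := Finset.sum_congr rfl fun i _ => by ring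
      simp only [y]
      by_cases hp : k < coh b j ∧ k < coh b h
      · rw [if_pos hp, if_pos hp.symm, hF]; ring
      · rw [if_neg hp, if_neg fun hp' => hp hp'.symm]; simp
    have hsame : ∑ j, ∑ h, (if k < coh b j ∧ k < coh b h then qw b (k + 1) h ^ 4 * F j h ^ 2 else 0)
        = Nq := by
      rw [hNq]
      refine Finset.sum_congr rfl fun j _ => Finset.sum_congr rfl fun h _ => ?_
      simp only [y]; split_ifs <;> ring
    rw [Fintype.sum_prod_type]
    calc _ ≤ ∑ j, ∑ h, (((if k < coh b j ∧ k < coh b h then qw b (k + 1) j ^ 4 * F j h ^ 2 else 0)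
            + (if k < coh b j ∧ k < coh b h then qw b (k + 1) h ^ 4 * F j h ^ 2 else 0)) / 2) := by
          refine Finset.sum_le_sum fun j _ => Finset.sum_le_sum fun h _ => ?_
          dsimp only [F]
          split_ifs
          · nlinarith [mul_nonneg (sq_nonneg (qw b (k + 1) j ^ 2 - qw b (k + 1) h ^ 2))
              (sq_nonneg (∑ i ∈ J, x i * (v i j * v i h)))]
          · simp
      _ = Nq := by
          simp only [← Finset.sum_div, Finset.sum_add_distrib, hsym, hsame]
          ring

end Vale.Agent.P262
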