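import Vale.Agent.P262.Invariant
import Vale.Agent.P262.Lift

/-!
One stage of the multiscale ordering (P262).
-/

namespace Vale.Agent.P262

variable {d : ℕ} {b : Fin d → ℕ} {lam : Fin d → ℝ} {ι : Type*} {v : ι → Fin d → ℝ}

/-- Energy of the cohort that has just stopped being high. -/
lemma energy_zero_le (hband : Banded b lam) (k : ℕ) (J : Finset ι)
    (hv : ∀ i ∈ J, ∑ j, v i j ^ 2 ≤ 1) (hcov : ‖covVec b lam v k J‖ ≤ psi b k) :
    energy b v 0 k J ≤ energyBd b k 0 := by
  classical
  have he : energy b v 0 k J = ∑ j, if coh b j = k then ∑ i ∈ J, v i j ^ 2 else 0 := by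
    rw [energy]
    calc ∑ i ∈ J, smallInd b 0 k (v i) * cmass b k (v i)
        = ∑ i ∈ J, ∑ j, if coh b j = k then v i j ^ 2 else 0 := by
          refine Finset.sum_congr rfl fun i hi => ?_
          rw [smallInd_of_le_two b (by norm_num) k (hv i hi), one_mul, cmass]
      _ = _ := by
          rw [Finset.sum_comm]
          exact Finset.sum_congr rfl fun j _ => by split_ifs <;> simp
  have hpsi : 0 ≤ psi b k := by unfold psi; positivity
  have hL : (20 : ℝ) ≤ len b k := by exact_mod_cast twenty_le_len b k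
  have hterm : ∀ j, coh b j = k →
      ∑ i ∈ J, v i j ^ 2 ≤ (1 + psi b k) * 256 ^ len b k := by
    intro j hj
    have h1 := pos_le_of_le_coh b hj.ge
    have h2 := (coh_le_iff b).1 hj.le
    rw [pos_succ] at h2
    have hx : hgt b k j + 1 ≤ len b k := by rw [hgt]; omega
    have hlam : lam j / 256 ^ pos b k ≤ (256 : ℝ) ^ (hgt b k j + 1) := by
      rw [div_le_iff₀ (by positivity), ← pow_add]
      have := (hband.upper j).le
      convert this using 2
      rw [hgt]; omega
    have hE : qw b k j * qw b k j * |covEntry b lam v k J j j| ≤ psi b k := by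
      refine le_trans ?_ ((PiLp.norm_apply_le (covVec b lam v k J) (j, j)).trans hcov)
      simp only [covVec, if_pos (And.intro hj.ge hj.ge), Real.norm_eq_abs, abs_mul]
      rw [abs_of_pos (qw_pos b k j)]
    have hE' : |covEntry b lam v k J j j| ≤ psi b k * 16 ^ hgt b k j := by
      calc |covEntry b lam v k J j j|
          = qw b k j * qw b k j * |covEntry b lam v k J j j| * 16 ^ hgt b k j := by
            have := qw_sq_sixteen (b := b) k j
            rw [mul_right_comm, this, one_mul]
        _ ≤ _ := mul_le_mul_of_nonneg_right hE (by positivity)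
    have heq : ∑ i ∈ J, v i j ^ 2 = covEntry b lam v k J j j + lam j / 256 ^ pos b k := by
      simp [covEntry, sq]
    rw [heq, add_mul, one_mul, add_comm (covEntry _ _ _ _ _ _ _)]
    refine add_le_add (hlam.trans (pow_le_pow_right₀ (by norm_num) hx)) ?_
    refine ((le_abs_self _).trans hE').trans (mul_le_mul_of_nonneg_left ?_ hpsi)
    calc (16 : ℝ) ^ hgt b k j ≤ 256 ^ hgt b k j := by gcongr; norm_num
      _ ≤ 256 ^ len b k := pow_le_pow_right₀ (by norm_num) (by omega)
  have hcount : (((Finset.univ.filter fun j => coh b j = k).card : ℕ) : ℝ)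
      ≤ len b k * 2 ^ len b k := by
    have h1 := card_band_le b (pos b k) (len b k)
    refine le_trans ?_ (h1.trans (mul_le_mul_of_nonneg_right
      (by linarith [crowd_le_len b k]) (by positivity)))
    norm_cast
    refine Finset.card_le_card fun j hj => ?_
    simp only [Finset.mem_filter, Finset.mem_univ, true_and] at hj ⊢
    have h2 := (coh_le_iff b).1 hj.le
    rw [pos_succ] at h2
    exact ⟨pos_le_of_le_coh b hj.ge, h2.le⟩
  rw [he, ← Finset.sum_filter]
  refine (Finset.sum_le_card_nsmul _ _ _ fun j hj => hterm j (Finset.mem_filter.1 hj).2).trans ?_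
  rw [nsmul_eq_mul, energyBd]
  calc _ ≤ (len b k : ℝ) * 2 ^ len b k * ((1 + psi b k) * 256 ^ len b k) :=
        mul_le_mul_of_nonneg_right hcount (mul_nonneg (by linarith) (by positivity))
    _ ≤ (len b k : ℝ) * 2 ^ len b k * (40000 * len b k * 256 ^ len b k) := by
        gcongr
        rw [psi]; linarith
    _ = _ := by ring

/-- All conclusions of one stage. -/
lemma stage_step (hband : Banded b lam) (k : ℕ) (J : Finset ι)
    (hv : ∀ i ∈ J, ∑ j, v i j ^ 2 ≤ 1) (P Q : Fin d → ℝ)
    (hlink : ∀ j, k < coh b j → Q j - P j = ∑ i ∈ J, v i j)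
    (hP : EndInv b k P) (hQ : EndInv b k Q)
    (hcov : ‖covVec b lam v k J‖ ≤ psi b k)
    (hen : ∀ c ≤ k, energy b v (k - c) c J ≤ energyBd b c (k - c)) :
    ∃ (g : ι → ℕ) (z : ℕ → Fin d → ℝ),
      (∀ i ∈ J, g i < 256 ^ len b k) ∧
      (∀ r ≤ 256 ^ len b k, ∀ j, coh b j ≤ k → z r j
        = (1 - (r : ℝ) / 256 ^ len b k) * P j + (r : ℝ) / 256 ^ len b k * Q j) ∧
      (∀ r ≤ 256 ^ len b k, ∀ j, k < coh b j → z r j
        = P j + ∑ i ∈ J.filter (fun i => g i < r), v i j) ∧
      (∀ r ≤ 256 ^ len b k, EndInv b (k + 1) (z r)) ∧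
      (∀ r < 256 ^ len b k,
        ‖covVec b lam v (k + 1) (J.filter fun i => g i = r)‖ ≤ psi b (k + 1)) ∧
      (∀ r < 256 ^ len b k, ∀ c ≤ k,
        energy b v (k - c) c (J.filter fun i => g i = r) ≤ energyBd b c (k - c + 1)) ∧
      (∀ r < 256 ^ len b k, ∀ c ≤ k + 1,
        energy b v (k + 1 - c) c (J.filter fun i => g i = r) ≤ energyBd b c (k + 1 - c)) ∧
      (∀ r ≤ 256 ^ len b k, ∀ c ≤ k,
        ‖∑ i ∈ J.filter (fun i => g i < r), smallPart b (k - c) c (v i)
          - ((r : ℝ) / 256 ^ len b k) • ∑ i ∈ J, smallPart b (k - c) c (v i)‖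
          ≤ devBd b c (k - c)) := by
  classical
  obtain ⟨MR, hMR⟩ : ∃ MR : ℝ, MR = 256 ^ len b k := ⟨_, rfl⟩
  have hMR0 : 0 < MR := hMR ▸ by positivity
  have hMR1 : 1 ≤ MR := hMR ▸ one_le_pow₀ (by norm_num)
  have hinv0 : 0 ≤ 1 / MR := by positivity
  have hinv1 : 1 / MR ≤ 1 := (div_le_one hMR0).2 hMR1
  -- shifts
  let δA : Fin d → ℝ := fun j =>
    -((1 - 1 / MR) * clipPart b k P j + 1 / MR * clipPart b k Q j)
  let δB : Fin d → ℝ := fun j => 1 / MR * clipPart b k P j + (1 - 1 / MR) * clipPart b k Q j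
  have hmix : ∀ (s : ℝ), 0 ≤ s → s ≤ 1 → ∀ j,
      |(1 - s) * clipPart b k P j + s * clipPart b k Q j| ≤ 8 ^ hgt b (k + 1) j := by
    intro s h0 h1 j
    have hp := abs_le.1 (abs_clipPart_le k P j (b := b))
    have hq := abs_le.1 (abs_clipPart_le k Q j (b := b))
    rw [abs_le]
    constructor
    · have := mul_le_mul_of_nonneg_left hp.1 (sub_nonneg.2 h1)
      have := mul_le_mul_of_nonneg_left hq.1 h0
      linarith
    · have := mul_le_mul_of_nonneg_left hp.2 (sub_nonneg.2 h1)
      have := mul_le_mul_of_nonneg_left hq.2 h0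
      linarith
  obtain ⟨xA, hxA, hxAδ, hxA0, hxA2, hxAF⟩ := exists_shift hband k J hv hcov δA
    (fun j hj => by simp [δA, clipPart_eq_zero k P j hj, clipPart_eq_zero k Q j hj])
    (fun j => by rw [abs_neg]; exact hmix _ hinv0 hinv1 j)
  obtain ⟨xB, hxB, hxBδ, hxB0, hxB2, hxBF⟩ := exists_shift hband k J hv hcov δB
    (fun j hj => by simp [δB, clipPart_eq_zero k P j hj, clipPart_eq_zero k Q j hj])
    (fun j => by simpa [δB] using hmix _ (sub_nonneg.2 hinv1) (by linarith : 1 - 1 / MR ≤ 1) j)
  obtain ⟨g, cA, cB, ζ, hg, hc, ⟨hcA0, hcB0, hcAM, hcBM⟩, hcoef, hζ, ⟨hζ0, hζM⟩, heq⟩ :=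
    exists_lift_partition b k J v hv xA xB hxA hxB
  simp only [← hMR] at hcoef heq
  have hMnat : ((256 ^ len b k : ℕ) : ℝ) = MR := by rw [hMR]; norm_cast
  -- scalar consequences on high coordinates
  have hhigh : ∀ r ≤ 256 ^ len b k, ∀ j, k < coh b j →
      ∑ i ∈ J.filter (fun i => g i < r), v i j
        = (r : ℝ) / MR * (Q j - P j) + cA r * δA j + cB r * δB j
          + devQ * ζ r (.inl (.inl j)) := by
    intro r hr j hj
    have := heq r hr (.inl (.inl j))
    simp only [liftVec, Sum.elim_inl, if_pos hj] at this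
    rw [hxAδ j hj, hxBδ j hj, ← hlink j hj] at this
    exact this
  -- the new points
  let z : ℕ → Fin d → ℝ := fun r j =>
    if coh b j ≤ k then (1 - (r : ℝ) / MR) * P j + (r : ℝ) / MR * Q j
    else P j + ∑ i ∈ J.filter (fun i => g i < r), v i j
  have hzlow : ∀ r j, coh b j ≤ k → z r j = (1 - (r : ℝ) / MR) * P j + (r : ℝ) / MR * Q j :=
    fun r j hj => if_pos hj
  have hzhigh : ∀ r j, k < coh b j →
      z r j = P j + ∑ i ∈ J.filter (fun i => g i < r), v i j :=
    fun r j hj => if_neg (by omega)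
  have hgroup : ∀ r < 256 ^ len b k, ∀ q : Kap d k,
      ∑ i ∈ J.filter (fun i => g i = r), liftVec b k (v i) q
        = 1 / MR * ∑ i ∈ J, liftVec b k (v i) q
          + (cA (r + 1) - cA r) * ∑ i ∈ J, xA i * liftVec b k (v i) q
          + (cB (r + 1) - cB r) * ∑ i ∈ J, xB i * liftVec b k (v i) q
          + devQ * (ζ (r + 1) q - ζ r q) := by
    intro r hr q
    have h1 := heq (r + 1) hr q
    have h2 := heq r hr.le q
    have hsplit : ∑ i ∈ J.filter (fun i => g i < r + 1), liftVec b k (v i) q
        = ∑ i ∈ J.filter (fun i => g i < r), liftVec b k (v i) q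
          + ∑ i ∈ J.filter (fun i => g i = r), liftVec b k (v i) q := by
      rw [← Finset.sum_union (Finset.disjoint_filter.2 fun i _ h1 h2 => by omega),
        ← Finset.filter_or]
      exact Finset.sum_congr (Finset.filter_congr fun i _ => by omega) fun _ _ => rfl
    push_cast at h1
    linear_combination h1 - h2 - hsplit
  have hchild : ∀ r < 256 ^ len b k,
      ‖covVec b lam v (k + 1) (J.filter fun i => g i = r)‖ ≤ psi b (k + 1) := by
    intro r hr
    let F : (ι → ℝ) → EuclideanSpace ℝ (Fin d × Fin d) := fun x => WithLp.toLp 2 fun p =>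
      if k < coh b p.1 ∧ k < coh b p.2 then
        qw b (k + 1) p.1 * qw b (k + 1) p.2 * ∑ i ∈ J, x i * (v i p.1 * v i p.2) else 0
    let D : ℕ → EuclideanSpace ℝ (Fin d × Fin d) := fun s => WithLp.toLp 2 fun p =>
      if k < coh b p.1 ∧ k < coh b p.2 then
        qw b (k + 1) p.1 * qw b (k + 1) p.2 * ζ s (.inl (.inr p)) else 0
    let R : EuclideanSpace ℝ (Fin d × Fin d) := WithLp.toLp 2 fun p =>
      if k < coh b p.1 ∧ k < coh b p.2 then covVec b lam v k J p else 0
    have hdecomp : covVec b lam v (k + 1) (J.filter fun i => g i = r)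
        = (1 / 16 : ℝ) ^ len b k • R + (cA (r + 1) - cA r) • F xA + (cB (r + 1) - cB r) • F xB
          + devQ • (D (r + 1) - D r) := by
      ext ⟨j, h⟩
      simp only [PiLp.add_apply, PiLp.smul_apply, PiLp.sub_apply, smul_eq_mul, covVec, F, D, R]
      by_cases hp : k < coh b j ∧ k < coh b h
      · have hq := hgroup r hr (.inl (.inr (j, h)))
        simp only [liftVec, Sum.elim_inl, Sum.elim_inr, if_pos hp] at hq
        rw [if_pos (show k + 1 ≤ coh b j ∧ k + 1 ≤ coh b h from hp), if_pos hp, if_pos hp,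
          if_pos hp, if_pos hp, if_pos hp, if_pos (And.intro hp.1.le hp.2.le), covEntry, covEntry,
          hq]
        have hqw : ∀ i, k < coh b i → qw b k i = qw b (k + 1) i * (1 / 4) ^ len b k := by
          intro i hi
          rw [qw, qw, hgt_eq_add hi, pow_add]
        rw [hqw j hp.1, hqw h hp.2]
        have hone : (1 / 16 : ℝ) ^ len b k * ((1 / 4) ^ len b k * (1 / 4) ^ len b k) = 1 / MR := by
          rw [hMR, ← mul_pow, ← mul_pow, one_div (_ ^ _), ← inv_pow]
          norm_num
        have hideal : (if j = h then lam j / 256 ^ pos b (k + 1) else 0)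
            = 1 / MR * (if j = h then lam j / 256 ^ pos b k else 0) := by
          split_ifs
          · rw [pos_succ, pow_add, hMR]; field_simp
          · simp
        rw [hideal]
        linear_combination (-(qw b (k + 1) j * qw b (k + 1) h *
          (∑ i ∈ J, v i j * v i h - if j = h then lam j / 256 ^ pos b k else 0))) * hone
      · rw [if_neg (show ¬ (k + 1 ≤ coh b j ∧ k + 1 ≤ coh b h) from hp)]
        simp [hp]
    have hR : ‖R‖ ≤ psi b k := by
      refine le_trans ?_ hcov
      rw [EuclideanSpace.norm_eq, EuclideanSpace.norm_eq]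
      gcongr with p
      simp only [R]
      split_ifs <;> simp
    have hF : ∀ x : ι → ℝ, (∑ p : Fin d × Fin d, (if k < coh b p.1 ∧ k < coh b p.2 then
        (qw b (k + 1) p.1 * qw b (k + 1) p.2) ^ 2 * (∑ i ∈ J, x i * (v i p.1 * v i p.2)) ^ 2
          else 0)) ≤ 5 → ‖F x‖ ≤ 3 := by
      intro x hx
      refine (abs_le_of_sq_le_sq' ?_ (by norm_num)).2
      rw [EuclideanSpace.real_norm_sq_eq]
      refine le_trans (le_of_eq (Finset.sum_congr rfl fun p _ => ?_)) (hx.trans (by norm_num))
      simp only [F]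
      split_ifs
      · rw [mul_pow]
      · simp
    have hL' : (20 : ℝ) ≤ len b (k + 1) := by exact_mod_cast twenty_le_len b (k + 1)
    have hD : ∀ s ≤ 256 ^ len b k, ‖D s‖ ≤ 8 * len b (k + 1) := by
      intro s hs
      obtain ⟨-, -, ζ3, -, -⟩ := hζ s hs
      refine (abs_le_of_sq_le_sq' ?_ (by positivity)).2
      rw [EuclideanSpace.real_norm_sq_eq]
      refine le_trans (le_of_eq (Finset.sum_congr rfl fun p _ => ?_)) (ζ3.trans ?_)
      · simp only [D]
        split_ifs
        · rw [mul_pow]
        · simp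
      · have h1 := crowd_le_len b (k + 1)
        have h2 := crowd_nonneg b (pos b (k + 1))
        have h3 : (len b k : ℝ) ≤ 2 * len b (k + 1) := by exact_mod_cast len_le_two_mul b k
        unfold tol
        nlinarith
    have hsmall : (1 / 16 : ℝ) ^ len b k * psi b k ≤ 1 / 4 := by
      have h2 := psi_mul_le (b := b) (le_refl (len b k))
      have h16 : (256 : ℝ) ^ len b k = 16 ^ len b k * 16 ^ len b k := by
        rw [← mul_pow]; norm_num
      rw [h16] at h2
      have hp : (0 : ℝ) < 16 ^ len b k := by positivity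
      have h3 : psi b k ≤ 16 ^ len b k / 4 := le_of_mul_le_mul_right (by linarith) hp
      rw [one_div_pow, one_div_mul_eq_div, div_le_iff₀ hp]
      linarith
    rw [hdecomp]
    have hcc : |cA (r + 1) - cA r| ≤ 2 ∧ |cB (r + 1) - cB r| ≤ 2 :=
      ⟨(abs_sub _ _).trans (by linarith [(hc (r + 1)).1, (hc r).1]),
        (abs_sub _ _).trans (by linarith [(hc (r + 1)).2, (hc r).2])⟩
    calc ‖(1 / 16 : ℝ) ^ len b k • R + (cA (r + 1) - cA r) • F xA + (cB (r + 1) - cB r) • F xB
            + devQ • (D (r + 1) - D r)‖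
        ≤ ‖(1 / 16 : ℝ) ^ len b k • R‖ + ‖(cA (r + 1) - cA r) • F xA‖
            + ‖(cB (r + 1) - cB r) • F xB‖ + ‖devQ • (D (r + 1) - D r)‖ :=
          (norm_add_le _ _).trans (add_le_add ((norm_add₃_le).trans le_rfl) le_rfl)
      _ ≤ 1 / 4 + 2 * 3 + 2 * 3 + devQ * (8 * len b (k + 1) + 8 * len b (k + 1)) := by
          simp only [norm_smul, Real.norm_eq_abs]
          refine add_le_add (add_le_add (add_le_add ?_ ?_) ?_) ?_
          · rw [abs_of_pos (by positivity)]
            exact (mul_le_mul_of_nonneg_left hR (by positivity)).trans hsmall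
          · exact mul_le_mul hcc.1 (hF _ hxAF) (norm_nonneg _) (by norm_num)
          · exact mul_le_mul hcc.2 (hF _ hxBF) (norm_nonneg _) (by norm_num)
          · rw [abs_of_pos (by norm_num [devQ])]
            refine mul_le_mul_of_nonneg_left ((norm_sub_le _ _).trans ?_) (by norm_num [devQ])
            exact add_le_add (hD _ hr) (hD _ hr.le)
      _ ≤ psi b (k + 1) := by
          simp only [psi, devQ]
          linarith
  have hgrpE : ∀ r < 256 ^ len b k, ∀ c ≤ k,
      energy b v (k - c) c (J.filter fun i => g i = r) ≤ energyBd b c (k - c + 1) := by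
    intro r hr c hck
    have hc' : c ≤ k := hck
    obtain ⟨a, ha⟩ : ∃ a, a = k - c := ⟨_, rfl⟩
    have hca : c + a = k := by omega
    rw [← ha]
    have hsig := sig_pos a
    have hag := agec_pos a
    have hq := hgroup r hr (.inr ⟨c, by omega⟩)
    simp only [liftVec, Sum.elim_inr, ← ha] at hq
    rw [← Finset.mul_sum, ← Finset.mul_sum] at hq
    have hmove : ∀ x : ι → ℝ, ∑ i ∈ J, x i * (agec a / sig a ^ 2
        * (smallInd b a c (v i) * cmass b c (v i)))
        = agec a / sig a ^ 2 * ∑ i ∈ J, x i * (smallInd b a c (v i) * cmass b c (v i)) :=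
      fun x => by rw [Finset.mul_sum]; exact Finset.sum_congr rfl fun i _ => by ring
    rw [hmove, hmove] at hq
    obtain ⟨κ, hκ⟩ : ∃ κ, κ = agec a / sig a ^ 2 := ⟨_, rfl⟩
    have hκ0 : 0 < κ := hκ ▸ by positivity
    rw [← hκ] at hq
    have he0 : energy b v a c J ≤ energyBd b c a := ha ▸ hen c hc'
    have henn : 0 ≤ energy b v a c J :=
      Finset.sum_nonneg fun i _ => mul_nonneg (smallInd_nonneg b _ _ _) (cmass_nonneg b _ _)
    have hX : ∀ x : ι → ℝ, (∀ i ∈ J, |x i| ≤ 1 / (4 * 256 ^ len b k)) →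
        |∑ i ∈ J, x i * (smallInd b a c (v i) * cmass b c (v i))|
          ≤ energy b v a c J / (4 * MR) := by
      intro x hx
      refine (Finset.abs_sum_le_sum_abs _ _).trans ?_
      rw [energy, Finset.sum_div]
      refine Finset.sum_le_sum fun i hi => ?_
      have h0 := mul_nonneg (smallInd_nonneg b a c (v i)) (cmass_nonneg b c (v i))
      rw [abs_mul, abs_of_nonneg h0, hMR, div_eq_mul_one_div, mul_comm]
      exact mul_le_mul_of_nonneg_left (hx i hi) h0
    have hζb : ∀ s ≤ 256 ^ len b k, |ζ s (.inr ⟨c, by omega⟩)|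
        ≤ √(2 + 8 * (a : ℝ) + (24 * len b k + 48)) := by
      intro s hs
      obtain ⟨-, -, -, -, ζ5⟩ := hζ s hs
      refine Real.abs_le_sqrt ?_
      have := ζ5 ⟨c, by omega⟩
      simp only [← ha, tol] at this
      exact this
    have hgrp : energy b v a c (J.filter fun i => g i = r)
        = 1 / MR * energy b v a c J
          + (cA (r + 1) - cA r) * ∑ i ∈ J, xA i * (smallInd b a c (v i) * cmass b c (v i))
          + (cB (r + 1) - cB r) * ∑ i ∈ J, xB i * (smallInd b a c (v i) * cmass b c (v i))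
          + devQ * (ζ (r + 1) (.inr ⟨c, by omega⟩) - ζ r (.inr ⟨c, by omega⟩)) / κ := by
      unfold energy
      field_simp at hq ⊢
      linear_combination hq
    have hprod : ∀ {t u T U : ℝ}, |t| ≤ T → |u| ≤ U → t * u ≤ T * U := fun {t u T U} h1 h2 =>
      (le_abs_self _).trans ((abs_mul t u).trans_le
        (mul_le_mul h1 h2 (abs_nonneg _) ((abs_nonneg _).trans h1)))
    have hA : |cA (r + 1) - cA r| ≤ 2 :=
      (abs_sub _ _).trans (by linarith [(hc (r + 1)).1, (hc r).1])
    have hB : |cB (r + 1) - cB r| ≤ 2 :=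
      (abs_sub _ _).trans (by linarith [(hc (r + 1)).2, (hc r).2])
    obtain ⟨S, hS⟩ : ∃ S, S = √(2 + 8 * (a : ℝ) + (24 * len b k + 48)) := ⟨_, rfl⟩
    rw [← hS] at hζb
    have hdiff : devQ * (ζ (r + 1) (.inr ⟨c, by omega⟩) - ζ r (.inr ⟨c, by omega⟩)) / κ
        ≤ devQ * (S + S) / κ := by
      have hle : ζ (r + 1) (.inr ⟨c, by omega⟩) - ζ r (.inr ⟨c, by omega⟩) ≤ S + S := by
        have h1 := abs_le.1 (hζb (r + 1) hr)
        have h2 := abs_le.1 (hζb r hr.le)
        linarith
      have : (0 : ℝ) ≤ devQ := by norm_num [devQ]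
      gcongr
    have hP1 := hprod hA (hX _ hxA)
    have hP2 := hprod hB (hX _ hxB)
    rw [energyBd, hca, ← hMR, energyErr, hca, ← hS]
    have hkk : devQ * (S + S) / κ = 2 * (sig a ^ 2 / agec a) * devQ * S := by
      rw [hκ]; field_simp; ring
    have he' : energy b v a c J / MR ≤ energyBd b c a / MR :=
      div_le_div_of_nonneg_right he0 hMR0.le
    have e1 : energy b v a c J / (4 * MR) = 1 / 4 * (energy b v a c J / MR) := by ring
    have e2 : 1 / MR * energy b v a c J = energy b v a c J / MR := by ring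
    have e3 : 2 * energyBd b c a / MR = 2 * (energyBd b c a / MR) := by ring
    linarith
  refine ⟨g, z, hg, fun r _ j hj => by rw [← hMR]; exact hzlow r j hj,
    fun r _ j hj => hzhigh r j hj, ?_, ?_, ?_, ?_, ?_⟩
  · -- invariant
    intro r hr
    rcases Nat.eq_zero_or_pos r with rfl | hr0
    · have : z 0 = P := by
        funext j
        by_cases hj : coh b j ≤ k
        · simp [hzlow 0 j hj]
        · simp [hzhigh 0 j (by omega)]
      rw [this]; exact endInv_mono k hP
    rcases eq_or_lt_of_le hr with rfl | hr'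
    · have : z (256 ^ len b k) = Q := by
        funext j
        by_cases hj : coh b j ≤ k
        · rw [hzlow _ j hj, hMnat, div_self hMR0.ne']; ring
        · rw [hzhigh _ j (by omega), Finset.filter_true_of_mem fun i hi => hg i hi,
            ← hlink j (by omega)]
          ring
      rw [this]; exact endInv_mono k hQ
    · obtain ⟨hk1, hk2⟩ := hcoef r hr0 hr'
      let e : Fin d → ℝ := fun j => if k < coh b j then devQ * ζ r (.inl (.inl j)) else 0
      obtain ⟨ζ1, ζ2, -, -, -⟩ := hζ r hr
      have he0 : ∀ j, coh b j ≤ k → e j = 0 := fun j hj => if_neg (by omega)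
      have he1 : ∀ T, ∑ j ∈ lowSet b k T, e j ^ 2
          ≤ devQ ^ 2 * (6 * ((lowSet b k T).card : ℝ) + tol b k) := by
        intro T
        refine le_trans (le_of_eq ?_) (mul_le_mul_of_nonneg_left (ζ1 T) (sq_nonneg _))
        rw [Finset.mul_sum]
        refine Finset.sum_congr rfl fun j hj => ?_
        simp only [lowSet, Finset.mem_filter] at hj
        simp only [e, if_pos hj.2.1]
        ring
      have he2 : ∀ j, k + 1 < coh b j → |e j| ≤ 8 ^ hgt b (k + 1) j := by
        intro j hj
        have hQ0 : (0 : ℝ) < devQ := by norm_num [devQ]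
        simp only [e, if_pos (show k < coh b j by omega), abs_mul, abs_of_pos hQ0]
        rw [mul_comm, ← le_div_iff₀ hQ0]
        exact ζ2 j hj
      have ht1 : (r : ℝ) / MR ≤ 1 := by
        rw [div_le_one hMR0, ← hMnat]; exact_mod_cast hr
      have := endInv_convex (k + 1) (endInv_reset k hP e he0 he1 he2)
        (endInv_reset k hQ e he0 he1 he2) (by positivity : (0 : ℝ) ≤ (r : ℝ) / MR) ht1
      convert this using 1
      funext j
      by_cases hj : coh b j ≤ k
      · rw [hzlow r j hj, he0 j hj, clipPart_eq_zero k P j (by omega),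
          clipPart_eq_zero k Q j (by omega)]
        ring
      · rw [hzhigh r j (by omega), hhigh r hr j (by omega)]
        simp only [δA, δB, e, if_pos (show k < coh b j by omega)]
        linear_combination (-(clipPart b k P j)) * hk1 + (-(clipPart b k Q j)) * hk2
  · exact hchild
  · exact hgrpE
  · intro r hr c hck
    rcases eq_or_lt_of_le hck with rfl | hck'
    · rw [Nat.sub_self]
      exact energy_zero_le hband (k + 1) _ (fun i hi => hv i (Finset.mem_filter.1 hi).1)
        (hchild r hr)
    · rw [show k + 1 - c = k - c + 1 by omega]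
      refine le_trans ?_ (hgrpE r hr c (by omega))
      exact Finset.sum_le_sum fun i _ =>
        mul_le_mul_of_nonneg_right (smallInd_succ_le b _ c (v i)) (cmass_nonneg b c (v i))
  · -- residuals
    intro r hr c hck
    obtain ⟨a, ha⟩ : ∃ a, a = k - c := ⟨_, rfl⟩
    have hca : c + a = k := by omega
    rw [← ha, ← hMR]
    have hsig := sig_pos a
    have hag := agec_pos a
    let Z : EuclideanSpace ℝ (Fin d) := WithLp.toLp 2 fun j =>
      if coh b j = c then ζ r (.inl (.inl j)) else 0
    let X : (ι → ℝ) → EuclideanSpace ℝ (Fin d) := fun x =>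
      ∑ i ∈ J, x i • smallPart b a c (v i)
    have hdec : ∑ i ∈ J.filter (fun i => g i < r), smallPart b a c (v i)
        - ((r : ℝ) / MR) • ∑ i ∈ J, smallPart b a c (v i)
        = cA r • X xA + cB r • X xB + (devQ * (sig a / agec a)) • Z := by
      ext j
      simp only [X, Z, smallPart, cvec, PiLp.add_apply, PiLp.sub_apply, PiLp.smul_apply,
        WithLp.ofLp_sum, Finset.sum_apply, smul_eq_mul]
      by_cases hj : coh b j = c
      · have hq := heq r hr (.inl (.inl j))
        simp only [liftVec, Sum.elim_inl, hj, if_neg (show ¬ k < c by omega), ← ha] at hq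
        simp only [hj, if_true]
        rw [← Finset.mul_sum, ← Finset.mul_sum] at hq
        have hmove : ∀ x : ι → ℝ, ∑ i ∈ J, x i * (agec a / sig a * (smallInd b a c (v i) * v i j))
            = agec a / sig a * ∑ i ∈ J, x i * (smallInd b a c (v i) * v i j) :=
          fun x => by rw [Finset.mul_sum]; exact Finset.sum_congr rfl fun i _ => by ring
        rw [hmove, hmove] at hq
        obtain ⟨κ, hκ⟩ : ∃ κ, κ = agec a / sig a := ⟨_, rfl⟩
        have hκ0 : 0 < κ := hκ ▸ by positivity
        have hκi : sig a / agec a = 1 / κ := by rw [hκ, one_div_div]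
        rw [← hκ] at hq
        rw [hκi]
        field_simp at hq ⊢
        linear_combination hq
      · simp [hj]
    have hX : ∀ x : ι → ℝ, cmass b k (fun j => ∑ i ∈ J, x i * v i j) ≤ 1 →
        ∑ i ∈ J, x i ^ 2 ≤ 1 / (64 * 256 ^ len b k) →
        ‖X x‖ ≤ if a = 0 then 1 else √(energyBd b c a / (64 * 256 ^ len b (c + a))) := by
      intro x hx0 hx2
      split_ifs with ha0
      · have hck' : c = k := by omega
        have : X x = cvec b k (fun j => ∑ i ∈ J, x i * v i j) := by
          simp only [X, smallPart, ha0, hck']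
          rw [Finset.sum_congr rfl fun i hi => by
            rw [smallInd_of_le_two b (by norm_num) k (hv i hi), one_smul, ← cvec_smul],
            ← cvec_sum]
          congr 1
          funext j
          simp [Finset.sum_apply]
        refine (abs_le_of_sq_le_sq' ?_ zero_le_one).2
        rw [this, norm_cvec_sq, one_pow]
        exact hx0
      · refine Real.le_sqrt_of_sq_le ?_
        calc ‖X x‖ ^ 2 ≤ (∑ i ∈ J, |x i| * ‖smallPart b a c (v i)‖) ^ 2 := by
              gcongr
              refine (norm_sum_le _ _).trans (le_of_eq ?_)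
              simp only [norm_smul, Real.norm_eq_abs]
          _ ≤ (∑ i ∈ J, |x i| ^ 2) * ∑ i ∈ J, ‖smallPart b a c (v i)‖ ^ 2 :=
              Finset.sum_mul_sq_le_sq_mul_sq _ _ _
          _ ≤ 1 / (64 * 256 ^ len b k) * energyBd b c a := by
              simp only [sq_abs, norm_smallPart_sq]
              exact mul_le_mul hx2 (ha ▸ hen c hck) (Finset.sum_nonneg fun i _ =>
                mul_nonneg (smallInd_nonneg b _ _ _) (cmass_nonneg b _ _)) (by positivity)
          _ = _ := by rw [hca]; ring
    have hZ : ‖Z‖ ≤ √(6 * (cohCard b c : ℝ) + 8 * a + (24 * len b (c + a) + 48)) := by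
      obtain ⟨-, -, -, ζ4, -⟩ := hζ r hr
      refine Real.le_sqrt_of_sq_le ?_
      have := ζ4 ⟨c, by omega⟩
      rw [EuclideanSpace.real_norm_sq_eq, hca]
      simp only [← ha, tol, Finset.sum_filter] at this
      refine le_trans (le_of_eq (Finset.sum_congr rfl fun j _ => ?_)) this
      simp only [Z]
      split_ifs <;> simp
    rw [hdec, devBd, two_mul]
    refine (norm_add₃_le).trans (add_le_add (add_le_add ?_ ?_) ?_)
    · rw [norm_smul, Real.norm_eq_abs]
      exact (mul_le_of_le_one_left (norm_nonneg _) (hc r).1).trans (hX _ hxA0 hxA2)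
    · rw [norm_smul, Real.norm_eq_abs]
      exact (mul_le_of_le_one_left (norm_nonneg _) (hc r).2).trans (hX _ hxB0 hxB2)
    · have h0 : 0 ≤ devQ * (sig a / agec a) := mul_nonneg (by norm_num [devQ]) (by positivity)
      rw [norm_smul, Real.norm_eq_abs, abs_of_nonneg h0]
      exact mul_le_mul_of_nonneg_left hZ h0

end Vale.Agent.P262
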