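import Vale.Agent.P262.StepGauss
import Vale.Agent.P074.PL

/-! The balancing step in coordinates `ℝ × (Fin n → ℝ)`, shifting along the first coordinate. -/

namespace Vale.Agent.P262

open MeasureTheory ProbabilityTheory Set Filter
open scoped ENNReal

variable {n : ℕ}

/-- Fibre of `K` over `y`. -/
def fib (K : Set (ℝ × (Fin n → ℝ))) (y : Fin n → ℝ) : Set ℝ := {t | (t, y) ∈ K}

/-- Points whose fibre contains two points at distance `r`. -/
def wset (K : Set (ℝ × (Fin n → ℝ))) (r : ℝ) : Set (Fin n → ℝ) :=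
  {y | ∃ t, (t, y) ∈ K ∧ (t + r, y) ∈ K}

/-- Distance from `0` to the fibre. -/
noncomputable def mdist (K : Set (ℝ × (Fin n → ℝ))) (y : Fin n → ℝ) : ℝ :=
  sInf ((fun t => |t|) '' fib K y)

/-- The weight whose integral is log-concave in `r`. -/
noncomputable def wgt (K : Set (ℝ × (Fin n → ℝ))) (r : ℝ) : (Fin n → ℝ) → ℝ≥0∞ :=
  (wset K r).indicator fun y => ENNReal.ofReal (Real.exp (-mdist K y ^ 2 / 2))

/-- Its Gaussian integral. -/
noncomputable def wint (K : Set (ℝ × (Fin n → ℝ))) (r : ℝ) : ℝ≥0∞ := ∫⁻ y, wgt K r y ∂gpi n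

variable {K : Set (ℝ × (Fin n → ℝ))}

lemma fib_compact (hK : IsCompact K) (y : Fin n → ℝ) : IsCompact (fib K y) := by
  refine (hK.image continuous_fst).of_isClosed_subset
    (hK.isClosed.preimage (continuous_id.prodMk continuous_const)) fun t ht => ⟨_, ht, rfl⟩

lemma isClosed_wset (hK : IsCompact K) (r : ℝ) : IsClosed (wset K r) := by
  have : wset K r = Prod.snd '' (K ∩ (fun p => (p.1 + r, p.2)) ⁻¹' K) := by
    ext y; constructor
    · rintro ⟨t, h1, h2⟩; exact ⟨(t, y), ⟨h1, h2⟩, rfl⟩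
    · rintro ⟨⟨t, z⟩, ⟨h1, h2⟩, rfl⟩; exact ⟨t, h1, h2⟩
  rw [this]
  exact ((hK.inter_right (hK.isClosed.preimage (by fun_prop))).image continuous_snd).isClosed

lemma measurable_mdist (hK : IsCompact K) : Measurable (mdist K) := by
  refine measurable_of_Iic fun c => ?_
  have hS : MeasurableSet (Prod.snd '' (K ∩ {p : ℝ × (Fin n → ℝ) | |p.1| ≤ c})) :=
    ((hK.inter_right (isClosed_le (by fun_prop) continuous_const)).image
      continuous_snd).isClosed.measurableSet
  have h0 : MeasurableSet (wset K 0)ᶜ := (isClosed_wset hK 0).measurableSet.compl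
  by_cases hc : 0 ≤ c
  · convert hS.union h0 using 1
    ext y
    simp only [mem_preimage, mem_Iic, mem_union, mem_compl_iff, mdist]
    constructor
    · intro h
      rcases (fib K y).eq_empty_or_nonempty with he | hne
      · right; rintro ⟨t, ht, -⟩; exact (he ▸ (ht : t ∈ fib K y) : t ∈ (∅ : Set ℝ))
      · obtain ⟨t, ht, hte⟩ := ((fib_compact hK y).image continuous_abs).sInf_mem (hne.image _)
        exact Or.inl ⟨(t, y), ⟨ht, hte.le.trans h⟩, rfl⟩
    · rintro (⟨⟨t, z⟩, ⟨ht, htc⟩, rfl⟩ | hy)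
      · refine le_trans (csInf_le ⟨0, ?_⟩ ⟨t, ht, rfl⟩) htc
        rintro _ ⟨s, -, rfl⟩; exact abs_nonneg s
      · have he : fib K y = ∅ := eq_empty_of_forall_notMem fun t ht =>
          hy ⟨t, ht, by rwa [add_zero]⟩
        simp [he, hc]
  · convert MeasurableSet.empty using 1
    ext y
    simp only [mem_preimage, mem_Iic, mem_empty_iff_false, iff_false, mdist, not_le]
    exact (not_le.1 hc).trans_le (Real.sInf_nonneg fun x ⟨s, _, hs⟩ => hs ▸ abs_nonneg s)

lemma measurable_wgt (hK : IsCompact K) (r : ℝ) : Measurable (wgt K r) :=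
  ((Real.measurable_exp.comp (((measurable_mdist hK).pow_const 2).neg.div_const 2)).ennreal_ofReal
    ).indicator (isClosed_wset hK r).measurableSet

lemma mdist_attained (hK : IsCompact K) {r : ℝ} {y : Fin n → ℝ} (hy : y ∈ wset K r) :
    ∃ t, (t, y) ∈ K ∧ |t| = mdist K y ∧ ∀ s, (s, y) ∈ K → |t| ≤ |s| := by
  obtain ⟨s, hs, -⟩ := hy
  obtain ⟨t, ht, hte⟩ := ((fib_compact hK y).image continuous_abs).sInf_mem ⟨_, s, hs, rfl⟩
  refine ⟨t, ht, hte, fun s' hs' => hte.trans_le ?_⟩
  exact csInf_le ⟨0, by rintro _ ⟨u, -, rfl⟩; exact abs_nonneg u⟩ ⟨s', hs', rfl⟩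

lemma mid_mem (hc : Convex ℝ K) {x z : Fin n → ℝ} {t u : ℝ} (h1 : (t, x) ∈ K) (h2 : (u, z) ∈ K) :
    ((2⁻¹ : ℝ) * (t + u), (2⁻¹ : ℝ) • (x + z)) ∈ K := by
  have := hc h1 h2 (show (0:ℝ) ≤ 2⁻¹ by norm_num) (show (0:ℝ) ≤ 2⁻¹ by norm_num) (by norm_num)
  simpa [smul_add, mul_add] using this

lemma wint_mid (hc : Convex ℝ K) (hK : IsCompact K) (r r' : ℝ) :
    wint K r * wint K r' ≤ wint K ((2⁻¹ : ℝ) * (r + r')) ^ 2 := by
  have hm : ∀ r, Measurable fun y => gdens y * wgt K r y := fun r =>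
    measurable_gdens.mul (measurable_wgt hK r)
  simp only [wint, lintegral_gpi n _ (measurable_wgt hK _)]
  refine Vale.Agent.P074.pl_pi n _ _ _ (hm r) (hm r') (hm _) fun x z => ?_
  by_cases hx : x ∈ wset K r
  swap; · simp [wgt, hx]
  by_cases hz : z ∈ wset K r'
  swap; · simp [wgt, hz]
  have hmid : (2⁻¹ : ℝ) • (x + z) ∈ wset K ((2⁻¹ : ℝ) * (r + r')) := by
    obtain ⟨t, h1, h2⟩ := hx
    obtain ⟨u, h3, h4⟩ := hz
    refine ⟨(2⁻¹ : ℝ) * (t + u), mid_mem hc h1 h3, ?_⟩
    convert mid_mem hc h2 h4 using 2; ring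
  rw [mul_pow]
  simp only [wgt, indicator_of_mem hx, indicator_of_mem hz, indicator_of_mem hmid]
  rw [mul_mul_mul_comm]
  refine mul_le_mul' (gdens_mid x z) ?_
  obtain ⟨t, h1, e1, -⟩ := mdist_attained hK hx
  obtain ⟨u, h3, e3, -⟩ := mdist_attained hK hz
  obtain ⟨s, h5, e5, hmin⟩ := mdist_attained hK hmid
  have hs := hmin _ (mid_mem hc h1 h3)
  rw [← ENNReal.ofReal_pow (Real.exp_pos _).le, ← ENNReal.ofReal_mul (Real.exp_pos _).le]
  refine ENNReal.ofReal_le_ofReal ?_
  rw [← e1, ← e3, ← e5, ← Real.exp_add, ← Real.exp_nat_mul, Real.exp_le_exp]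
  simp only [sq_abs]
  have hs2 := sq_le_sq.2 hs
  push_cast
  nlinarith [sq_nonneg (t - u)]

lemma wset_anti (hc : Convex ℝ K) {r r' : ℝ} (h0 : 0 ≤ r) (h : r ≤ r') :
    wset K r' ⊆ wset K r := by
  rintro y ⟨t, h1, h2⟩
  refine ⟨t, h1, ?_⟩
  rcases eq_or_lt_of_le (h0.trans h) with hr | hr
  · have : r = r' := by linarith
    rwa [this]
  have := hc h1 h2 (show 0 ≤ 1 - r / r' by rw [sub_nonneg, div_le_one hr]; exact h)
    (show 0 ≤ r / r' by positivity) (by ring)
  convert this using 1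
  ext i
  · simp; field_simp; ring
  · simp; ring

lemma wgt_anti (hc : Convex ℝ K) {r r' : ℝ} (h0 : 0 ≤ r) (h : r ≤ r') (y : Fin n → ℝ) :
    wgt K r' y ≤ wgt K r y :=
  indicator_le_indicator_of_subset (wset_anti hc h0 h) (fun _ => bot_le) y

lemma wint_le_one (r : ℝ) : wint K r ≤ 1 := by
  calc wint K r ≤ ∫⁻ _y, 1 ∂gpi n := by
        refine lintegral_mono fun y => ?_
        refine (indicator_le_self _ _ y).trans (ENNReal.ofReal_le_one.2 (Real.exp_le_one_iff.2 ?_))
        nlinarith [sq_nonneg (mdist K y)]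
    _ = 1 := by simp

/-- Two slices on opposite sides are large. -/
lemma wint_two_ge (hc : Convex ℝ K) (hK : IsCompact K)
    (hμ : ((gaussianReal 0 1).prod (gpi n)) Kᶜ ≤ ENNReal.ofReal (1 / 512)) :
    ENNReal.ofReal (9 / 10) ≤ wint K 2 := by
  set c : ℝ≥0∞ := ENNReal.ofReal (1 / 20) with hcdef
  set S : ℝ → Set (Fin n → ℝ) := fun t => Prod.mk t ⁻¹' Kᶜ
  have hSm : ∀ t, MeasurableSet (S t) := fun t =>
    hK.isClosed.measurableSet.compl.preimage measurable_prodMk_left
  have hex : ∀ J : Set ℝ, MeasurableSet J →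
      gaussianReal 0 1 (Ioc 1 2) ≤ gaussianReal 0 1 J → ∃ t ∈ J, gpi n (S t) ≤ c := by
    intro J hJ hJm
    by_contra hcon
    push Not at hcon
    have h1 : ENNReal.ofReal (0.05 * (1 / 20)) ≤ ENNReal.ofReal (1 / 512) := by
      refine le_trans ?_ hμ
      rw [Measure.prod_apply hK.isClosed.measurableSet.compl]
      calc ENNReal.ofReal (0.05 * (1 / 20)) ≤ c * gaussianReal 0 1 J := by
            rw [mul_comm, ENNReal.ofReal_mul (by norm_num)]
            refine mul_le_mul_right ?_ c |>.trans (le_of_eq rfl)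
            refine le_trans ?_ hJm
            refine le_trans ?_ (gauss_Ioc_ge (m := 2) fun s hs => by nlinarith [hs.1, hs.2])
            rw [← ENNReal.ofReal_mul (mul_nonneg c0_pos.le (Real.exp_pos _).le)]
            refine ENNReal.ofReal_le_ofReal ?_
            have e1 : Real.exp (-(2:ℝ) ^ 2 / 2) = (Real.exp 1 * Real.exp 1)⁻¹ := by
              rw [← Real.exp_add, ← Real.exp_neg]; norm_num
            have e2 : (0.13:ℝ) ≤ (Real.exp 1 * Real.exp 1)⁻¹ := by
              rw [le_inv_comm₀ (by norm_num) (by positivity)]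
              nlinarith [Real.exp_one_lt_d9, Real.exp_pos 1]
            rw [e1]
            have := c0_ge
            nlinarith
        _ = ∫⁻ _t in J, c ∂gaussianReal 0 1 := (setLIntegral_const _ _).symm
        _ ≤ ∫⁻ t in J, gpi n (S t) ∂gaussianReal 0 1 :=
            setLIntegral_mono' hJ fun t ht => (hcon t ht).le
        _ ≤ _ := setLIntegral_le_lintegral _ _
    rw [ENNReal.ofReal_le_ofReal_iff (by norm_num)] at h1
    norm_num at h1
  obtain ⟨t, ht, htm⟩ := hex (Ioc 1 2) measurableSet_Ioc le_rfl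
  obtain ⟨t', ht', htm'⟩ := hex ((fun x => -x) ⁻¹' Ioc 1 2) (measurableSet_Ioc.preimage measurable_neg)
    (gauss_neg_apply measurableSet_Ioc).ge
  simp only [mem_preimage, mem_Ioc] at ht'
  set A := (S t ∪ S t')ᶜ
  have hA : ENNReal.ofReal (9 / 10) ≤ gpi n A := by
    rw [prob_compl_eq_one_sub ((hSm t).union (hSm t'))]
    calc ENNReal.ofReal (9 / 10) = 1 - ENNReal.ofReal (1 / 10) := by
          rw [← ENNReal.ofReal_one, ← ENNReal.ofReal_sub _ (by norm_num)]; norm_num
      _ ≤ _ := by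
          refine tsub_le_tsub_left ((measure_union_le _ _).trans ?_) 1
          refine (add_le_add htm htm').trans (le_of_eq ?_)
          rw [hcdef, ← ENNReal.ofReal_add (by norm_num) (by norm_num)]; norm_num
  refine hA.trans ?_
  rw [← lintegral_indicator_one ((hSm t).union (hSm t')).compl]
  refine lintegral_mono fun y => ?_
  by_cases hy : y ∈ A
  swap
  · rw [indicator_of_notMem hy]; exact bot_le
  simp only [A, S, mem_compl_iff, mem_union, mem_preimage, not_or, not_not] at hy
  have h2 : y ∈ wset K (t - t') := ⟨t', hy.2, by simpa using hy.1⟩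
  have hy2 : y ∈ wset K 2 := wset_anti hc (by norm_num) (by linarith [ht.1, ht'.1]) h2
  have h0 : (0, y) ∈ K := by
    have hd : 0 < t - t' := by linarith [ht.1, ht'.1]
    have := hc hy.2 hy.1 (show 0 ≤ t / (t - t') from div_nonneg (by linarith [ht.1]) hd.le)
      (show 0 ≤ -t' / (t - t') from div_nonneg (by linarith [ht'.1]) hd.le)
      (by field_simp; ring)
    convert this using 1
    ext i
    · simp; field_simp; ring
    · simp; field_simp; ring
  obtain ⟨s, -, hse, hmin⟩ := mdist_attained hK hy2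
  have : mdist K y = 0 := by
    rw [← hse]; exact le_antisymm ((hmin 0 h0).trans abs_zero.le) (abs_nonneg _)
  refine le_trans (indicator_le_self' (fun _ _ => bot_le) y) ?_
  simp [wgt, indicator_of_mem hy2, this]

/-- Midpoint log-concavity gives almost linear decay near `0`. -/
lemma wint_dyadic (hc : Convex ℝ K) (hK : IsCompact K)
    (hμ : ((gaussianReal 0 1).prod (gpi n)) Kᶜ ≤ ENNReal.ofReal (1 / 512)) (m : ℕ) :
    (2:ℝ) ^ m * ((wint K 0).toReal - (wint K (2 / 2 ^ m)).toReal)
      ≤ 10 / 9 * ((wint K 0).toReal - (wint K 2).toReal) := by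
  set a : ℕ → ℝ := fun m => (wint K (2 / 2 ^ m)).toReal
  set a0 := (wint K 0).toReal
  have ne : ∀ r, wint K r ≠ ⊤ := fun r => ne_top_of_le_ne_top ENNReal.one_ne_top (wint_le_one r)
  have mono : ∀ {r r' : ℝ}, 0 ≤ r → r ≤ r' → (wint K r').toReal ≤ (wint K r).toReal :=
    fun h0 h => ENNReal.toReal_mono (ne _) (lintegral_mono (wgt_anti hc h0 h))
  have h2 : 9 / 10 ≤ (wint K 2).toReal :=
    (ENNReal.ofReal_le_iff_le_toReal (ne _)).1 (wint_two_ge hc hK hμ)
  have ha : ∀ m, a m ≤ a0 := fun m => mono le_rfl (by positivity)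
  have hpos : ∀ m, 9 / 10 ≤ a m := fun m => h2.trans
    (mono (by positivity) (div_le_self zero_le_two (one_le_pow₀ one_le_two)))
  have h1 : a0 ≤ 1 := ENNReal.toReal_le_of_le_ofReal zero_le_one
    (by rw [ENNReal.ofReal_one]; exact wint_le_one 0)
  have rec_ : ∀ m, a0 * a m ≤ a (m + 1) ^ 2 := by
    intro m
    have := wint_mid hc hK 0 (2 / 2 ^ m)
    rw [show (2⁻¹:ℝ) * (0 + 2 / 2 ^ m) = 2 / 2 ^ (m + 1) by rw [pow_succ]; ring] at this
    have := ENNReal.toReal_mono (ENNReal.pow_ne_top (ne _)) this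
    rwa [ENNReal.toReal_mul, ENNReal.toReal_pow] at this
  have key : ∀ m, (2:ℝ) ^ m * ((a0 - a m) / a m) ≤ (a0 - a 0) / a 0 := by
    intro m
    induction m with
    | zero => simp
    | succ k ih =>
      refine le_trans ?_ ih
      rw [pow_succ, mul_assoc]
      refine mul_le_mul_of_nonneg_left ?_ (by positivity)
      have p1 : 0 < a k := by linarith [hpos k]
      have p2 : 0 < a (k + 1) := by linarith [hpos (k + 1)]
      rw [mul_div_assoc', div_le_div_iff₀ p2 p1]
      nlinarith [rec_ k, ha k, ha (k + 1), sq_nonneg (a0 - a (k + 1))]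
  have ha00 : a 0 = (wint K 2).toReal := by simp [a]
  have hk := key m
  rw [ha00] at hk
  have hp : 0 < a m := by linarith [hpos m]
  have e1 : (a0 - (wint K 2).toReal) / (wint K 2).toReal
      ≤ 10 / 9 * (a0 - (wint K 2).toReal) := by
    rw [div_le_iff₀ (by linarith)]
    have := mono (le_refl (0:ℝ)) (show (0:ℝ) ≤ 2 by norm_num)
    nlinarith
  have e2 : a0 - a m ≤ (a0 - a m) / a m := by
    rw [le_div_iff₀ hp]; nlinarith [ha m]
  calc (2:ℝ) ^ m * (a0 - a m) ≤ (2:ℝ) ^ m * ((a0 - a m) / a m) :=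
        mul_le_mul_of_nonneg_left e2 (by positivity)
    _ ≤ _ := hk.trans e1

/-- The pointwise inequality on fibres. -/
lemma fibre_ineq (hc : Convex ℝ K) (hK : IsCompact K) {K' : Set (ℝ × (Fin n → ℝ))} {h : ℝ}
    (hh : 0 < h) (hh1 : h ≤ 1 / 64)
    (hK' : ∀ y q s, (q, y) ∈ K → (q + 2 * h, y) ∈ K → -1 ≤ s → s ≤ 3 → (q + s * h, y) ∈ K')
    (y : Fin n → ℝ) :
    gaussianReal 0 1 (fib K y)
        + ENNReal.ofReal (2.4 * h * c0) * wgt K (2 * h) y
      ≤ gaussianReal 0 1 (fib K' y)
        + (ENNReal.ofReal (0.4 * h * c0) * wgt K 2 y + ENNReal.ofReal (2 * h * c0) * wgt K 0 y) := by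
  have hc0 := c0_pos
  by_cases hy : y ∈ wset K 0
  swap
  · have he : fib K y = ∅ := eq_empty_of_forall_notMem fun t ht => hy ⟨t, ht, by rwa [add_zero]⟩
    have h2 : y ∉ wset K (2 * h) := fun h' => hy (wset_anti hc le_rfl (by linarith) h')
    simp [he, wgt, h2]
  obtain ⟨tm, htm, hme, hmin⟩ := mdist_attained hK hy
  have hne : (fib K y).Nonempty := ⟨tm, htm⟩
  have hcp := fib_compact hK y
  set a := sInf (fib K y)
  set b := sSup (fib K y)
  have ha : (a, y) ∈ K := hcp.sInf_mem hne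
  have hb : (b, y) ∈ K := hcp.sSup_mem hne
  have hab : a ≤ b := csInf_le_csSup hne hcp.bddBelow hcp.bddAbove
  have hIcc : ∀ t ∈ Icc a b, (t, y) ∈ K := by
    intro t ht
    rcases eq_or_lt_of_le hab with h' | h'
    · have : t = a := le_antisymm (h' ▸ ht.2) ht.1
      rwa [this]
    have := hc ha hb (show 0 ≤ (b - t) / (b - a) from div_nonneg (by linarith [ht.2]) (by linarith))
      (show 0 ≤ (t - a) / (b - a) from div_nonneg (by linarith [ht.1]) (by linarith))
      (by rw [← add_div, div_eq_one_iff_eq (by linarith)]; ring)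
    convert this using 1
    have : b - a ≠ 0 := by linarith
    ext i
    · simp; field_simp; ring
    · simp; field_simp; ring
  have hfib : fib K y = Icc a b := Subset.antisymm
    (fun t ht => ⟨csInf_le hcp.bddBelow ht, le_csSup hcp.bddAbove ht⟩) hIcc
  have hwset : ∀ r, 0 ≤ r → (y ∈ wset K r ↔ r ≤ b - a) := by
    intro r hr
    constructor
    · rintro ⟨t, h1, h2⟩
      linarith [csInf_le hcp.bddBelow (show t ∈ fib K y from h1),
        le_csSup hcp.bddAbove (show t + r ∈ fib K y from h2)]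
    · exact fun h' => ⟨a, ha, hIcc _ ⟨by linarith, by linarith⟩⟩
  set M := mdist K y
  have hM : ∀ s ∈ Icc a b, M ^ 2 ≤ s ^ 2 := fun s hs =>
    sq_le_sq.2 (le_trans (by rw [← hme, abs_abs]) (hmin s (hIcc s hs)))
  have hsplit : ∀ c : ℝ, 0 ≤ c → ENNReal.ofReal (c * h * c0) * ENNReal.ofReal (Real.exp (-M ^ 2 / 2))
      = ENNReal.ofReal (c * h * c0 * Real.exp (-M ^ 2 / 2)) := fun c hcn =>
    (ENNReal.ofReal_mul (by positivity)).symm
  by_cases hlen : b - a < 2 * h
  · have h2 : y ∉ wset K (2 * h) := fun h' => by linarith [(hwset _ (by linarith)).1 h']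
    simp only [wgt, indicator_of_notMem h2, indicator_of_mem hy, mul_zero, add_zero]
    refine le_trans ?_ (le_trans le_add_self le_add_self)
    rw [hfib, hsplit 2 zero_le_two]
    refine (gauss_Icc_le hM).trans ?_
    rw [← ENNReal.ofReal_mul (by positivity)]
    refine ENNReal.ofReal_le_ofReal ?_
    have : 0 ≤ c0 * Real.exp (-M ^ 2 / 2) := by positivity
    nlinarith
  push Not at hlen
  have hy2h : y ∈ wset K (2 * h) := (hwset _ (by linarith)).2 hlen
  have hsub : Icc (a - h) (b + h) ⊆ fib K' y := by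
    intro t ht
    set q := max a (min (b - 2 * h) t)
    have q1 : a ≤ q := le_max_left _ _
    have q2 : q ≤ b - 2 * h := max_le (by linarith) (min_le_left _ _)
    have q3 : q - h ≤ t ∧ t ≤ q + 3 * h := by
      constructor
      · rcases max_choice a (min (b - 2 * h) t) with e | e <;>
          rw [show q = max a (min (b - 2 * h) t) from rfl, e]
        · linarith [ht.1]
        · linarith [min_le_right (b - 2 * h) t]
      · rcases min_choice (b - 2 * h) t with e | e
        · linarith [le_max_right a (min (b - 2 * h) t), ht.2]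
        · linarith [le_max_right a (min (b - 2 * h) t)]
    have := hK' y q ((t - q) / h) (hIcc q ⟨q1, by linarith⟩)
      (hIcc _ ⟨by linarith, by linarith⟩) (by rw [le_div_iff₀ hh]; linarith [q3.1])
      (by rw [div_le_iff₀ hh]; linarith [q3.2])
    rw [div_mul_cancel₀ _ hh.ne', add_sub_cancel] at this
    exact this
  have hsum : ENNReal.ofReal (2.4 * h * c0)
      = ENNReal.ofReal (0.4 * h * c0) + ENNReal.ofReal (2 * h * c0) := by
    rw [← ENNReal.ofReal_add (by positivity) (by positivity)]; congr 1; ring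
  simp only [wgt, indicator_of_mem hy2h, indicator_of_mem hy, hsum, add_mul, ← add_assoc]
  refine add_le_add ?_ le_rfl
  rw [hfib]
  by_cases h2 : b - a < 2
  · have hy2 : y ∉ wset K 2 := fun h' => by linarith [(hwset _ zero_le_two).1 h']
    simp only [indicator_of_notMem hy2, mul_zero, add_zero]
    rw [hsplit 0.4 (by norm_num)]
    refine le_trans (gain_interval hab h2 hh hh1 (m := M) ?_) (measure_mono hsub)
    -- `M` is the distance from `0` to `[a, b]`
    have t1 := csInf_le hcp.bddBelow (show tm ∈ fib K y from htm)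
    have t2 := le_csSup hcp.bddAbove (show tm ∈ fib K y from htm)
    have hMt : M = |tm| := hme.symm
    rcases le_or_gt 0 a with ha0 | ha0
    · rw [max_eq_left (by linarith : -b ≤ a), max_eq_left ha0]
      have := hmin a ha
      rw [abs_of_nonneg ha0, abs_of_nonneg (by linarith : 0 ≤ tm)] at this
      rw [hMt, abs_of_nonneg (by linarith : 0 ≤ tm), le_antisymm this t1]
    rcases le_or_gt b 0 with hb0 | hb0
    · rw [max_eq_right (by linarith : a ≤ -b), max_eq_left (by linarith : 0 ≤ -b)]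
      have := hmin b hb
      rw [abs_of_nonpos hb0, abs_of_nonpos (by linarith : tm ≤ 0)] at this
      rw [hMt, abs_of_nonpos (by linarith : tm ≤ 0), le_antisymm (neg_le_neg_iff.1 this) t2 |>.symm]
    · rw [max_eq_right (max_le ha0.le (by linarith))]
      have := hmin 0 (hIcc 0 ⟨ha0.le, hb0.le⟩)
      rw [abs_zero] at this
      rw [hMt, le_antisymm this (abs_nonneg _)]
  · have hy2 : y ∈ wset K 2 := (hwset _ zero_le_two).2 (not_lt.1 h2)
    simp only [indicator_of_mem hy2]
    refine add_le_add ((measure_mono ?_).trans (measure_mono hsub)) le_rfl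
    exact Icc_subset_Icc (by linarith) (by linarith)

/-- The step in coordinates. -/
theorem step_core (hc : Convex ℝ K) (hK : IsCompact K)
    (hμ : ((gaussianReal 0 1).prod (gpi n)) Kᶜ ≤ ENNReal.ofReal (1 / 512)) {h : ℝ}
    (hh : 0 < h) (hh1 : h ≤ 1 / 64) {K' : Set (ℝ × (Fin n → ℝ))} (hm : MeasurableSet K')
    (hK' : ∀ y q s, (q, y) ∈ K → (q + 2 * h, y) ∈ K → -1 ≤ s → s ≤ 3 → (q + s * h, y) ∈ K') :
    ((gaussianReal 0 1).prod (gpi n)) K ≤ ((gaussianReal 0 1).prod (gpi n)) K' := by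
  have hc0 := c0_pos
  obtain ⟨m, hm1, hm2⟩ := exists_nat_pow_near (x := 1 / h) (y := (2:ℝ))
    (by rw [one_le_div hh]; linarith) one_lt_two
  have hd := wint_dyadic hc hK hμ m
  have hpow : (0:ℝ) < 2 ^ m := by positivity
  have hle : 2 * h ≤ 2 / 2 ^ m := by
    rw [le_div_iff₀ hh] at hm1
    rw [le_div_iff₀ hpow]; linarith
  have ne : ∀ r, wint K r ≠ ⊤ := fun r => ne_top_of_le_ne_top ENNReal.one_ne_top (wint_le_one r)
  have mono : ∀ {r r' : ℝ}, 0 ≤ r → r ≤ r' → (wint K r').toReal ≤ (wint K r).toReal :=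
    fun h0 h => ENNReal.toReal_mono (ne _) (lintegral_mono (wgt_anti hc h0 h))
  have hlin : 0.4 * (wint K 2).toReal + 2 * (wint K 0).toReal ≤ 2.4 * (wint K (2 * h)).toReal := by
    have g1 := mono (by linarith : 0 ≤ 2 * h) hle
    have g2 : (32:ℝ) ≤ 2 ^ m := by
      rw [div_lt_iff₀ hh, pow_succ] at hm2
      nlinarith
    have g3 := mono (le_refl (0:ℝ)) (show (0:ℝ) ≤ 2 / 2 ^ m by positivity)
    have g4 := mono (show (0:ℝ) ≤ 2 / 2 ^ m by positivity)
      (div_le_self zero_le_two (one_le_pow₀ one_le_two))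
    nlinarith [mul_le_mul_of_nonneg_right g2 (sub_nonneg.2 g3)]
  have hfin : ENNReal.ofReal (0.4 * h * c0) * wint K 2 + ENNReal.ofReal (2 * h * c0) * wint K 0
      ≤ ENNReal.ofReal (2.4 * h * c0) * wint K (2 * h) := by
    rw [← ENNReal.ofReal_toReal (ne 2), ← ENNReal.ofReal_toReal (ne 0),
      ← ENNReal.ofReal_toReal (ne (2 * h)), ← ENNReal.ofReal_mul (by positivity),
      ← ENNReal.ofReal_mul (by positivity), ← ENNReal.ofReal_mul (by positivity),
      ← ENNReal.ofReal_add (by positivity) (by positivity)]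
    refine ENNReal.ofReal_le_ofReal ?_
    have : 0 ≤ h * c0 := by positivity
    nlinarith [mul_le_mul_of_nonneg_left hlin this]
  have hfibm : ∀ A : Set (ℝ × (Fin n → ℝ)), MeasurableSet A →
      Measurable fun y => gaussianReal 0 1 (fib A y) := fun A hA => measurable_measure_prodMk_right hA
  have hmain : (((gaussianReal 0 1).prod (gpi n)) K)
        + ENNReal.ofReal (2.4 * h * c0) * wint K (2 * h)
      ≤ ((gaussianReal 0 1).prod (gpi n)) K'
        + ENNReal.ofReal (2.4 * h * c0) * wint K (2 * h) := by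
    refine le_trans ?_ (add_le_add le_rfl hfin)
    rw [Measure.prod_apply_symm hK.isClosed.measurableSet, Measure.prod_apply_symm hm]
    simp only [wint]
    rw [← lintegral_const_mul _ (measurable_wgt hK _), ← lintegral_const_mul _ (measurable_wgt hK _),
      ← lintegral_const_mul _ (measurable_wgt hK _),
      ← lintegral_add_left ((measurable_wgt hK _).const_mul _)]
    erw [← lintegral_add_left (hfibm K hK.isClosed.measurableSet),
      ← lintegral_add_left (hfibm K' hm)]
    exact lintegral_mono (fibre_ineq hc hK hh hh1 hK')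
  exact ENNReal.le_of_add_le_add_right (ENNReal.mul_ne_top ENNReal.ofReal_ne_top (ne _)) hmain

end Vale.Agent.P262
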