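import Mathlib.Probability.Distributions.Gaussian.Multivariate
import Mathlib.Analysis.Convex.Basic
import Vale.Agent.P262.StepCore

/-!
The balancing step of the Euclidean Steinitz bound (P262).

Proof (weak constants suffice, no Ehrhard inequality is needed).
Let `e = u/‖u‖`, `h = ‖u‖`, split `E = ℝ e × F` and
`K' = (K ∩ (K - 2 u)) + [-1,3] • u`.  A fibre `[a,b]` of `K` of length at least `2h` becomes
at least `[a-h, b+h]`, shorter ones are lost.  The integral `wint r` of `exp(-dist(0,fibre)²/2)`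
over the fibres of length at least `r` is midpoint log-concave in `r` (Prékopa-Leindler),
which makes the loss smaller than the gain (`step_core`).
-/

namespace Vale.Agent.P262

open MeasureTheory ProbabilityTheory Set
open scoped Pointwise ENNReal

theorem balancing_step {E : Type*} [NormedAddCommGroup E] [InnerProductSpace ℝ E]
    [FiniteDimensional ℝ E] [MeasurableSpace E] [BorelSpace E]
    (K : Set E) (hc : Convex ℝ K) (hK : IsCompact K)
    (hγ : stdGaussian E Kᶜ ≤ ENNReal.ofReal (1 / 512)) (u : E) (hu : ‖u‖ ≤ 1 / 64) :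
    ∃ K' : Set E, Convex ℝ K' ∧ IsCompact K' ∧ stdGaussian E K ≤ stdGaussian E K' ∧
      ∀ x ∈ K', x + u ∈ K ∨ x - u ∈ K := by
  rcases eq_or_ne u 0 with rfl | hu0
  · exact ⟨K, hc, hK, le_rfl, fun x hx => Or.inl (by simpa using hx)⟩
  set h := ‖u‖ with hdef
  have hh : 0 < h := norm_pos_iff.2 hu0
  -- the new body
  set L : Set E := K ∩ (fun x => x + (2:ℝ) • u) ⁻¹' K
  set K' : Set E := (fun q : ℝ × E => q.2 + q.1 • u) '' (Icc (-1:ℝ) 3 ×ˢ L)
  have hLc : Convex ℝ L := hc.inter (hc.translate_preimage_left _)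
  have hLk : IsCompact L := hK.inter_right (hK.isClosed.preimage (by fun_prop))
  let lm : ℝ × E →ₗ[ℝ] E :=
    { toFun := fun q => q.2 + q.1 • u
      map_add' := fun a b => by simp [add_smul]; abel
      map_smul' := fun c a => by simp [smul_add, smul_smul] }
  have hK'c : Convex ℝ K' := ((convex_Icc _ _).prod hLc).linear_image lm
  have hK'k : IsCompact K' := (isCompact_Icc.prod hLk).image (by fun_prop)
  refine ⟨K', hK'c, hK'k, ?_, ?_⟩
  swap
  · rintro _ ⟨⟨t, x⟩, ⟨⟨ht1, ht3⟩, hx1, hx2⟩, rfl⟩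
    have hseg : ∀ s : ℝ, 0 ≤ s → s ≤ 2 → x + s • u ∈ K := by
      intro s h0 h2
      have := hc hx1 hx2 (show 0 ≤ 1 - s / 2 by linarith) (show 0 ≤ s / 2 by linarith) (by ring)
      convert this using 1
      module
    rcases le_or_gt t 1 with h1 | h1
    · left
      convert hseg (t + 1) (by linarith) (by linarith) using 1
      dsimp only; module
    · right
      convert hseg (t - 1) (by linarith) (by linarith) using 1
      dsimp only; module
  -- coordinates
  obtain ⟨n, hn⟩ : ∃ n, Module.finrank ℝ E = n + 1 := by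
    have : Nontrivial E := ⟨⟨u, 0, hu0⟩⟩
    exact ⟨Module.finrank ℝ E - 1, (Nat.succ_pred_eq_of_pos Module.finrank_pos).symm⟩
  set e : E := h⁻¹ • u
  have he : ‖e‖ = 1 := by
    rw [norm_smul, Real.norm_eq_abs, abs_of_pos (by positivity)]; exact inv_mul_cancel₀ hh.ne'
  obtain ⟨b, hb⟩ := Orthonormal.exists_orthonormalBasis_extension_of_card_eq
    (𝕜 := ℝ) (E := E) (ι := Fin (n + 1)) (by simp [hn]) (v := fun _ => e) (s := {0})
    ⟨fun _ => he, fun i j hij => absurd (Subtype.ext (i.2.trans j.2.symm)) hij⟩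
  have hb0 : b 0 = e := hb 0 rfl
  let ee := MeasurableEquiv.piFinSuccAbove (fun _ : Fin (n + 1) => ℝ) 0
  let S : (Fin (n + 1) → ℝ) → E := fun x => ∑ i, x i • b i
  let T : ℝ × (Fin n → ℝ) → E := fun p => p.1 • e + ∑ i, p.2 i • b i.succ
  have hS : Measurable S := by fun_prop
  have hTS : S ∘ ee.symm = T := by
    funext p
    simp [S, T, ee, Fin.sum_univ_succ, hb0, MeasurableEquiv.piFinSuccAbove_symm_apply]
  have hTc : Continuous T := by fun_prop
  have hgauss : ∀ A : Set E, MeasurableSet A →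
      stdGaussian E A = ((gaussianReal 0 1).prod (gpi n)) (T ⁻¹' A) := by
    intro A hA
    rw [stdGaussian_eq_map_pi_orthonormalBasis b, Measure.map_apply hS hA,
      ← ((measurePreserving_piFinSuccAbove (fun _ : Fin (n + 1) => gaussianReal (0:ℝ) 1) 0).symm
        ).measure_preimage (hA.preimage hS).nullMeasurableSet, ← preimage_comp, gpi]
    exact congrArg _ (congrArg (fun F => F ⁻¹' A) hTS)
  let Tinv : E → ℝ × (Fin n → ℝ) := fun x => (b.repr x 0, fun i => b.repr x i.succ)
  have hinv : ∀ x, T (Tinv x) = x := by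
    intro x
    conv_rhs => rw [← b.sum_repr x]
    rw [Fin.sum_univ_succ, hb0]
  have hinv' : ∀ p, Tinv (T p) = p := by
    intro p
    have : T p = S (Fin.cons p.1 p.2) := by simp [T, S, Fin.sum_univ_succ, hb0]
    have hr : ∀ x : Fin (n + 1) → ℝ, ∀ i, b.repr (S x) i = x i := by
      intro x i
      have hx : S x = b.repr.symm (WithLp.toLp 2 x) := b.sum_repr_symm (WithLp.toLp 2 x)
      simp [hx]
    simp [Tinv, this, hr]
  have hK0 : IsCompact (T ⁻¹' K) := by
    have : T ⁻¹' K = Tinv '' K := by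
      ext p; constructor
      · exact fun hp => ⟨T p, hp, hinv' p⟩
      · rintro ⟨x, hx, rfl⟩; simpa [hinv x] using hx
    rw [this]; exact hK.image (by fun_prop)
  let Tl : ℝ × (Fin n → ℝ) →ₗ[ℝ] E :=
    { toFun := T
      map_add' := fun p q => by simp [T, add_smul, Finset.sum_add_distrib]; abel
      map_smul' := fun c p => by simp [T, smul_add, smul_smul, Finset.smul_sum] }
  rw [hgauss _ hK.isClosed.measurableSet, hgauss _ hK'k.isClosed.measurableSet]
  refine step_core (hc.linear_preimage Tl) hK0 ?_ hh hu (hTc.measurable hK'k.isClosed.measurableSet) ?_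
  · show ((gaussianReal 0 1).prod (gpi n)) (T ⁻¹' Kᶜ) ≤ _
    rwa [← hgauss _ hK.isClosed.measurableSet.compl]
  · intro y q s hq hq2 h1 h3
    have hue : u = h • e := by rw [smul_smul, mul_inv_cancel₀ hh.ne', one_smul]
    have hT : ∀ r : ℝ, T (q + r * h, y) = T (q, y) + r • u := fun r => by
      simp only [T, hue, smul_smul, add_smul]; abel
    refine ⟨(s, T (q, y)), ⟨⟨h1, h3⟩, hq, ?_⟩, (hT s).symm⟩
    show T (q, y) + (2:ℝ) • u ∈ K
    rw [← hT 2]; exact hq2

end Vale.Agent.P262
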