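import Mathlib.Probability.Distributions.Gaussian.Real
import Mathlib.MeasureTheory.Measure.Prod
import Mathlib.MeasureTheory.Constructions.Pi
import Mathlib.Analysis.Complex.ExponentialBounds
import Mathlib.Analysis.Real.Pi.Bounds

/-! Elementary facts on the one-dimensional and product Gaussian measures. -/

namespace Vale.Agent.P262

open MeasureTheory ProbabilityTheory Set Filter
open scoped ENNReal

/-- `1/√(2π)`. -/
noncomputable def c0 : ℝ := (Real.sqrt (2 * Real.pi))⁻¹

lemma c0_pos : 0 < c0 := by unfold c0; positivity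

lemma c0_ge : (0.39 : ℝ) ≤ c0 := by
  have h : Real.sqrt (2 * Real.pi) ≤ 2.56 := by
    rw [Real.sqrt_le_left (by norm_num)]
    nlinarith [Real.pi_lt_d2]
  unfold c0
  rw [le_inv_comm₀ (by norm_num) (by positivity)]
  exact h.trans (by norm_num)

lemma pdf_eq (s : ℝ) : gaussianPDFReal 0 1 s = c0 * Real.exp (-s ^ 2 / 2) := by
  simp [gaussianPDFReal_def, c0]

lemma gauss_apply (A : Set ℝ) :
    gaussianReal 0 1 A = ∫⁻ s in A, ENNReal.ofReal (c0 * Real.exp (-s ^ 2 / 2)) := by
  rw [gaussianReal_apply 0 one_ne_zero]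
  simp [gaussianPDF, pdf_eq]

lemma gauss_Icc_le {a b m : ℝ} (h : ∀ s ∈ Icc a b, m ^ 2 ≤ s ^ 2) :
    gaussianReal 0 1 (Icc a b)
      ≤ ENNReal.ofReal (c0 * Real.exp (-m ^ 2 / 2)) * ENNReal.ofReal (b - a) := by
  rw [gauss_apply]
  calc _ ≤ ∫⁻ _s in Icc a b, ENNReal.ofReal (c0 * Real.exp (-m ^ 2 / 2)) := by
        refine setLIntegral_mono' measurableSet_Icc fun s hs => ?_
        refine ENNReal.ofReal_le_ofReal (mul_le_mul_of_nonneg_left ?_ c0_pos.le)
        exact Real.exp_le_exp.2 (by have := h s hs; linarith)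
    _ = _ := by rw [setLIntegral_const, Real.volume_Icc]

lemma gauss_Ioc_ge {a b m : ℝ} (h : ∀ s ∈ Ioc a b, s ^ 2 ≤ m ^ 2) :
    ENNReal.ofReal (c0 * Real.exp (-m ^ 2 / 2)) * ENNReal.ofReal (b - a)
      ≤ gaussianReal 0 1 (Ioc a b) := by
  rw [gauss_apply]
  calc ENNReal.ofReal (c0 * Real.exp (-m ^ 2 / 2)) * ENNReal.ofReal (b - a)
      = ∫⁻ _s in Ioc a b, ENNReal.ofReal (c0 * Real.exp (-m ^ 2 / 2)) := by
        rw [setLIntegral_const, Real.volume_Ioc]
    _ ≤ _ := by
        refine setLIntegral_mono' measurableSet_Ioc fun s hs => ?_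
        refine ENNReal.ofReal_le_ofReal (mul_le_mul_of_nonneg_left ?_ c0_pos.le)
        exact Real.exp_le_exp.2 (by have := h s hs; linarith)

lemma gauss_neg_apply {A : Set ℝ} (hA : MeasurableSet A) :
    gaussianReal 0 1 ((fun x => -x) ⁻¹' A) = gaussianReal 0 1 A := by
  conv_rhs => rw [show gaussianReal (0:ℝ) 1 = (gaussianReal 0 1).map (fun x => -x) by
    rw [gaussianReal_map_neg]; simp]
  rw [Measure.map_apply measurable_neg hA]

/-- Extending an interval of length `< 2` by `h` on both sides gains a definite amount. -/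
lemma gain_interval {a b h m : ℝ} (hab : a ≤ b) (hlen : b - a < 2) (hh : 0 < h) (hh1 : h ≤ 1 / 64)
    (hm : m ^ 2 = (max (max a (-b)) 0) ^ 2) :
    gaussianReal 0 1 (Icc a b) + ENNReal.ofReal (0.4 * h * c0 * Real.exp (-m ^ 2 / 2))
      ≤ gaussianReal 0 1 (Icc (a - h) (b + h)) := by
  have key : ∀ a b : ℝ, a ≤ b → (0 ≤ a ∨ (-1 ≤ a ∧ a ≤ 0)) →
      gaussianReal 0 1 (Icc a b)
        + ENNReal.ofReal (0.4 * h * c0 * Real.exp (-(max a 0) ^ 2 / 2))
        ≤ gaussianReal 0 1 (Icc (a - h) (b + h)) := by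
    intro a b hab hcase
    set M := max a 0
    have hM : 0 ≤ M := le_max_right _ _
    have hsq : ∀ s ∈ Ioc (a - h) a, s ^ 2 ≤ Real.sqrt (M ^ 2 + (1 + h) ^ 2) ^ 2 := by
      intro s hs
      rw [Real.sq_sqrt (by positivity)]
      rcases le_or_gt 0 s with h0 | h0
      · have : s ≤ M := hs.2.trans (le_max_left _ _)
        nlinarith
      · have : -(1 + h) ≤ s := by rcases hcase with hc | ⟨hc, _⟩ <;> linarith [hs.1]
        nlinarith
    have h1 := gauss_Ioc_ge hsq
    have h2 : gaussianReal 0 1 (Icc a b) + gaussianReal 0 1 (Ico (a - h) a)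
        ≤ gaussianReal 0 1 (Icc (a - h) (b + h)) := by
      rw [← measure_union (by
        rw [Set.disjoint_left]; intro x hx hx'; exact absurd hx'.2 (not_lt.2 hx.1)) measurableSet_Ico]
      refine measure_mono ?_
      rintro x (hx | hx)
      · exact ⟨by linarith [hx.1], by linarith [hx.2]⟩
      · exact ⟨hx.1, by linarith [hx.2]⟩
    refine le_trans (add_le_add le_rfl ?_) h2
    have := nullSingletonClass_gaussianReal (μ := (0:ℝ)) (v := 1) one_ne_zero
    rw [measure_congr (Ico_ae_eq_Ioc (μ := gaussianReal 0 1))]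
    refine le_trans ?_ h1
    rw [Real.sq_sqrt (by positivity), sub_sub_cancel, ← ENNReal.ofReal_mul
      (mul_nonneg c0_pos.le (Real.exp_pos _).le)]
    refine ENNReal.ofReal_le_ofReal ?_
    have e : Real.exp (-(M ^ 2 + (1 + h) ^ 2) / 2)
        = Real.exp (-M ^ 2 / 2) * Real.exp (-(1 + h) ^ 2 / 2) := by
      rw [← Real.exp_add]; congr 1; ring
    have h4 : (0.4:ℝ) ≤ Real.exp (-(1 + h) ^ 2 / 2) :=
      le_trans (by nlinarith) (Real.add_one_le_exp _)
    rw [e]
    have hp : 0 ≤ h * c0 * Real.exp (-M ^ 2 / 2) := by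
      have := c0_pos; positivity
    nlinarith
  have hneg : ∀ a b : ℝ, gaussianReal 0 1 (Icc a b) = gaussianReal 0 1 (Icc (-b) (-a)) := by
    intro a b
    rw [← gauss_neg_apply measurableSet_Icc]
    congr 1
    ext x; simp only [mem_preimage, mem_Icc]; constructor <;> intro hx <;> constructor <;>
      linarith [hx.1, hx.2]
  rw [hm]
  by_cases hc : 0 ≤ a ∨ (-1 ≤ a ∧ a ≤ 0 ∧ 0 ≤ b)
  · have : max (max a (-b)) 0 = max a 0 := by
      rcases hc with hc | hc
      · rw [max_eq_left (by linarith : -b ≤ a)]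
      · rw [max_eq_right (max_le hc.2.1 (by linarith [hc.2.2])), max_eq_right hc.2.1]
    rw [this]
    exact key a b hab (hc.imp id fun h => ⟨h.1, h.2.1⟩)
  · push Not at hc
    have hc' : 0 ≤ -b ∨ (-1 ≤ -b ∧ -b ≤ 0) := by
      rcases le_or_gt b 0 with hb | hb
      · left; linarith
      · right
        refine ⟨?_, by linarith⟩
        by_contra hcon
        exact absurd (hc.2 (by linarith) hc.1.le) (by linarith)
    have : max (max a (-b)) 0 = max (-b) 0 := by
      rw [max_comm a, max_assoc, max_eq_right hc.1.le]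
    rw [this, hneg a b, hneg (a - h) (b + h)]
    have := key (-b) (-a) (by linarith) hc'
    rw [show -b - h = -(b + h) by ring, show -a + h = -(a - h) by ring] at this
    exact this

/-- The standard Gaussian measure on `Fin n → ℝ`. -/
noncomputable def gpi (n : ℕ) : Measure (Fin n → ℝ) := Measure.pi fun _ => gaussianReal 0 1

instance (n : ℕ) : IsProbabilityMeasure (gpi n) := by unfold gpi; infer_instance

/-- Its density. -/
noncomputable def gdens {n : ℕ} (y : Fin n → ℝ) : ℝ≥0∞ := ∏ i, gaussianPDF 0 1 (y i)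

lemma measurable_gdens {n : ℕ} : Measurable (gdens (n := n)) :=
  Finset.measurable_prod _ fun i _ => (measurable_gaussianPDF 0 1).comp (measurable_pi_apply i)

lemma lintegral_gauss (g : ℝ → ℝ≥0∞) (hg : Measurable g) :
    ∫⁻ a, g a ∂gaussianReal 0 1 = ∫⁻ a, gaussianPDF 0 1 a * g a := by
  rw [gaussianReal_of_var_ne_zero 0 one_ne_zero,
    lintegral_withDensity_eq_lintegral_mul _ (measurable_gaussianPDF 0 1) hg]
  rfl

lemma lintegral_gpi : ∀ (n : ℕ) (f : (Fin n → ℝ) → ℝ≥0∞), Measurable f →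
    ∫⁻ y, f y ∂gpi n = ∫⁻ y, gdens y * f y
  | 0, f, _ => by simp [lintegral_unique, gdens, gpi, volume_pi]
  | n + 1, f, hf => by
    let e := MeasurableEquiv.piFinSuccAbove (fun _ : Fin (n + 1) => ℝ) 0
    have he := (volume_preserving_piFinSuccAbove (fun _ : Fin (n + 1) => ℝ) 0).symm
    have hg := (measurePreserving_piFinSuccAbove
      (fun _ : Fin (n + 1) => gaussianReal (0:ℝ) 1) 0).symm
    have hF : Measurable (fun p : ℝ × (Fin n → ℝ) => f (e.symm p)) := hf.comp e.symm.measurable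
    rw [gpi, ← hg.lintegral_comp hf, ← he.lintegral_comp (show Measurable fun y => gdens y * f y from measurable_gdens.mul hf),
      Measure.volume_eq_prod, lintegral_prod _ hF.aemeasurable,
      lintegral_prod (fun p : ℝ × (Fin n → ℝ) => gdens (e.symm p) * f (e.symm p))
        ((measurable_gdens.comp e.symm.measurable).mul hF).aemeasurable,
      lintegral_gauss _ (hF.lintegral_prod_right' (ν := Measure.pi fun _ => gaussianReal (0:ℝ) 1))]
    refine lintegral_congr fun a => ?_
    show gaussianPDF 0 1 a * ∫⁻ y, f (e.symm (a, y)) ∂gpi n = _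
    rw [lintegral_gpi n (fun y => f (e.symm (a, y))) (hF.comp measurable_prodMk_left),
      ← lintegral_const_mul']
    · refine lintegral_congr fun y => ?_
      simp [gdens, e, Fin.prod_univ_succ, MeasurableEquiv.piFinSuccAbove_symm_apply,
        mul_assoc]
    · exact ENNReal.ofReal_ne_top

lemma gdens_mid {n : ℕ} (x z : Fin n → ℝ) :
    gdens x * gdens z ≤ gdens ((2⁻¹ : ℝ) • (x + z)) ^ 2 := by
  simp only [gdens, ← Finset.prod_mul_distrib, ← Finset.prod_pow]
  refine Finset.prod_le_prod' fun i _ => ?_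
  simp only [gaussianPDF, pdf_eq, Pi.smul_apply, Pi.add_apply, smul_eq_mul]
  have hc := c0_pos
  rw [← ENNReal.ofReal_pow (by positivity), ← ENNReal.ofReal_mul (by positivity)]
  refine ENNReal.ofReal_le_ofReal ?_
  have : Real.exp (-x i ^ 2 / 2) * Real.exp (-z i ^ 2 / 2)
      ≤ Real.exp (-((2⁻¹:ℝ) * (x i + z i)) ^ 2 / 2) ^ 2 := by
    rw [← Real.exp_add, ← Real.exp_nat_mul, Real.exp_le_exp]
    push_cast
    nlinarith [sq_nonneg (x i - z i)]
  calc c0 * Real.exp (-x i ^ 2 / 2) * (c0 * Real.exp (-z i ^ 2 / 2))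
      = c0 ^ 2 * (Real.exp (-x i ^ 2 / 2) * Real.exp (-z i ^ 2 / 2)) := by ring
    _ ≤ c0 ^ 2 * Real.exp (-((2⁻¹:ℝ) * (x i + z i)) ^ 2 / 2) ^ 2 :=
        mul_le_mul_of_nonneg_left this (sq_nonneg _)
    _ = _ := by ring

end Vale.Agent.P262
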