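import Vale.Agent.P262.Stage
import Vale.Agent.P262.Sums

/-!
The recursion over stages (P262).
-/

namespace Vale.Agent.P262

variable {d : ℕ} {b : Fin d → ℕ} {lam : Fin d → ℝ} {ι : Type*} [DecidableEq ι]
  {v : ι → Fin d → ℝ}

/-- Prefix sets of a concatenation of blocks. -/
lemma take_flatMap_range (ls : ℕ → List ι) (M n : ℕ)
    (hn : n ≤ ((List.range (M + 1)).flatMap ls).length) :
    ∃ r ≤ M, ∃ n' ≤ (ls r).length, (((List.range (M + 1)).flatMap ls).take n).toFinset
      = ((List.range r).flatMap ls).toFinset ∪ ((ls r).take n').toFinset := by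
  induction M generalizing n with
  | zero =>
    refine ⟨0, le_rfl, n, ?_, ?_⟩
    · simpa using hn
    · simp
  | succ M ih =>
    rw [List.range_succ, List.flatMap_append, List.flatMap_singleton] at hn ⊢
    by_cases h : n ≤ ((List.range (M + 1)).flatMap ls).length
    · obtain ⟨r, hr, n', hn', heq⟩ := ih n h
      refine ⟨r, by omega, n', hn', ?_⟩
      rw [List.take_append_of_le_length h, heq]
    · refine ⟨M + 1, le_rfl, n - ((List.range (M + 1)).flatMap ls).length, ?_, ?_⟩
      · rw [List.length_append] at hn; omega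
      · rw [List.take_append, List.take_of_length_le (by omega), List.toFinset_append]

/-- Output of a node. -/
def GoodOrder (b : Fin d → ℕ) (v : ι → Fin d → ℝ) (K : ℕ) (Btot : ℝ) (k : ℕ) (J : Finset ι)
    (P Q : Fin d → ℝ) (l : List ι) : Prop :=
  l.Nodup ∧ l.toFinset = J ∧ ∀ n ≤ l.length, ∃ (t : ℝ) (z : Fin d → ℝ), 0 ≤ t ∧ t ≤ 1 ∧
    (∀ j, coh b j ≤ k → z j = (1 - t) * P j + t * Q j) ∧
    (∑ j, z j ^ 2 ≤ Btot) ∧
    (∀ c ≤ k, ‖∑ i ∈ (l.take n).toFinset, smallPart b (k - c) c (v i)
        - t • ∑ i ∈ J, smallPart b (k - c) c (v i)‖ ≤ resBd b K c (k - c)) ∧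
    (∀ c, k < c → ‖cvec b c (fun j => P j + ∑ i ∈ (l.take n).toFinset, v i j - z j)‖
        ≤ resBd b K c 0)

omit [DecidableEq ι] in
lemma annulus_le (a c : ℕ) (J : Finset ι) (hv : ∀ i ∈ J, ∑ j, v i j ^ 2 ≤ 1)
    (hen : energy b v a c J ≤ energyBd b c (a + 1)) :
    ∑ i ∈ J, ‖smallPart b a c (v i) - smallPart b (a + 1) c (v i)‖ ≤ annBd b c a := by
  unfold annBd
  split_ifs with ha
  · refine le_of_eq (Finset.sum_eq_zero fun i hi => ?_)
    rw [smallPart, smallPart, smallInd_of_le_two b (by omega) c (hv i hi),
      smallInd_of_le_two b (by omega) c (hv i hi), sub_self, norm_zero]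
  · have hs := sig_pos (a + 1)
    rw [le_div_iff₀ hs, Finset.sum_mul]
    refine le_trans (Finset.sum_le_sum fun i _ => ?_) hen
    rw [smallPart, smallPart, ← sub_smul, norm_smul, Real.norm_eq_abs,
      abs_of_nonneg (sub_nonneg.2 (smallInd_succ_le b a c (v i)))]
    have hm := cmass_nonneg b c (v i)
    have hnorm := norm_cvec_sq b c (v i)
    unfold smallInd
    by_cases h2 : cmass b c (v i) ≤ sig (a + 1) ^ 2
    · have h1 : cmass b c (v i) ≤ sig a ^ 2 :=
        h2.trans (pow_le_pow_left₀ hs.le (sig_succ_le a) 2)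
      rw [if_pos h1, if_pos h2, sub_self, zero_mul, zero_mul, one_mul]
      exact hm
    · rw [if_neg h2]
      by_cases h1 : cmass b c (v i) ≤ sig a ^ 2
      · rw [if_pos h1, sub_zero, one_mul, one_mul]
        have hlt : sig (a + 1) ≤ ‖cvec b c (v i)‖ := by
          refine (abs_le_of_sq_le_sq' ?_ (norm_nonneg _)).2
          rw [hnorm]; exact (not_le.1 h2).le
        calc ‖cvec b c (v i)‖ * sig (a + 1) ≤ ‖cvec b c (v i)‖ * ‖cvec b c (v i)‖ :=
              mul_le_mul_of_nonneg_left hlt (norm_nonneg _)
          _ = _ := by rw [← sq, hnorm]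
      · rw [if_neg h1]; simp

lemma norm_smallPart_le_sig (a c : ℕ) (u : Fin d → ℝ) : ‖smallPart b a c u‖ ≤ sig a := by
  refine (abs_le_of_sq_le_sq' ?_ (sig_pos a).le).2
  rw [norm_smallPart_sq, smallInd]
  split_ifs with h
  · rwa [one_mul]
  · rw [zero_mul]; positivity

lemma smallPart_of_no_coord {a c : ℕ} (h : ∀ j, coh b j ≠ c) (u : Fin d → ℝ) :
    smallPart b a c u = 0 := by
  have : cvec b c u = 0 := by
    ext j
    simp [cvec, h j]
  simp [smallPart, this]

theorem exists_good_order (hband : Banded b lam) (K N : ℕ) (hK : ∀ j, coh b j + N + 2 ≤ K) :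
    ∀ (m k : ℕ), k + m = K → ∀ (J : Finset ι) (P Q : Fin d → ℝ),
      J.card ≤ N → (∀ i ∈ J, ∑ j, v i j ^ 2 ≤ 1) →
      (∀ j, k < coh b j → Q j - P j = ∑ i ∈ J, v i j) →
      EndInv b k P → EndInv b k Q → ‖covVec b lam v k J‖ ≤ psi b k →
      (∀ c ≤ k, energy b v (k - c) c J ≤ energyBd b c (k - c)) →
      ∃ l, GoodOrder b v K (2 * cHigh * d + surplus b K) k J P Q l := by
  intro m
  induction m with
  | zero =>
    intro k hk J P Q hN hv _ hP _ _ _
    rw [add_zero] at hk
    subst hk
    refine ⟨J.toList, J.nodup_toList, J.toList_toFinset, fun n _ => ⟨0, P, le_rfl, zero_le_one,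
      fun j _ => by ring, ?_, fun c hc => ?_, fun c hc => ?_⟩⟩
    · have h := hP 0
      have hall : ∀ j, coh b j ≤ k := fun j => by have := hK j; omega
      simp only [invWt, invCap, hall, if_true, one_mul, Finset.sum_const, Finset.card_univ,
        Fintype.card_fin, nsmul_eq_mul] at h
      linarith
    · rw [zero_smul, sub_zero]
      by_cases hex : ∃ j, coh b j = c
      · obtain ⟨j, rfl⟩ := hex
        have hKj := hK j
        refine (norm_sum_le _ _).trans ((Finset.sum_le_card_nsmul _ _ _
          fun i _ => norm_smallPart_le_sig _ _ _).trans ?_)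
        have hsub : ((J.toList.take n).toFinset).card ≤ N := by
          refine le_trans (Finset.card_le_card ?_) hN
          intro i hi
          rw [List.mem_toFinset] at hi
          exact Finset.mem_toList.1 (List.mem_of_mem_take hi)
        have hsig : sig (k - coh b j) ≤ (1 / 2 : ℝ) ^ N :=
          pow_le_pow_of_le_one (by norm_num) (by norm_num) (by omega)
        have hN2 : (N : ℝ) ≤ 2 ^ N := by exact_mod_cast Nat.lt_two_pow_self.le
        rw [nsmul_eq_mul]
        calc _ ≤ (2 : ℝ) ^ N * (1 / 2) ^ N :=
              mul_le_mul ((Nat.cast_le.2 hsub).trans hN2) hsig (sig_pos _).le (by positivity)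
          _ = 1 := by rw [← mul_pow]; norm_num
          _ ≤ resBd b k (coh b j) (k - coh b j) := by
              rw [resBd, Finset.Ico_self, Finset.sum_empty]; norm_num
      · push Not at hex
        simp only [smallPart_of_no_coord hex, Finset.sum_const_zero, norm_zero]
        rw [resBd, Finset.Ico_self, Finset.sum_empty]; norm_num
    · have hc0 : ∀ j, coh b j ≠ c := fun j => by have := hK j; omega
      have : ∀ u : Fin d → ℝ, cvec b c u = 0 := fun u => by ext j; simp [cvec, hc0 j]
      rw [this, norm_zero, resBd, Finset.Ico_eq_empty (by omega), Finset.sum_empty]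
      norm_num
  | succ m ih =>
    intro k hk J P Q hN hv hlink hP hQ hcov hen
    obtain ⟨g, z, hg, hzlow, hzhigh, hzinv, hcovc, hgrpE, henc, hres⟩ :=
      stage_step hband k J hv P Q hlink hP hQ hcov hen
    obtain ⟨M', hM'⟩ : ∃ M', 256 ^ len b k = M' + 1 :=
      ⟨256 ^ len b k - 1, by
        have : 0 < 256 ^ len b k := by positivity
        omega⟩
    have hMR : ((256 : ℝ) ^ len b k) = (M' : ℝ) + 1 := by exact_mod_cast hM'
    simp only [hM'] at hg hzlow hzhigh hzinv hcovc hgrpE henc hres
    simp only [hMR] at hzlow hres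
    let Jr : ℕ → Finset ι := fun r => J.filter fun i => g i = r
    have hstep : ∀ (r : ℕ) {β : Type} [AddCommMonoid β] (f : ι → β),
        ∑ i ∈ J.filter (fun i => g i < r + 1), f i
          = ∑ i ∈ J.filter (fun i => g i < r), f i + ∑ i ∈ Jr r, f i := by
      intro r β _ f
      rw [← Finset.sum_union (Finset.disjoint_filter.2 fun i _ h1 h2 => by omega),
        ← Finset.filter_or]
      exact Finset.sum_congr (Finset.filter_congr fun i _ => by omega) fun _ _ => rfl
    have hchild : ∀ r, r ≤ M' → ∃ l,
        GoodOrder b v K (2 * cHigh * d + surplus b K) (k + 1) (Jr r) (z r) (z (r + 1)) l := by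
      intro r hr
      refine ih (k + 1) (by omega) (Jr r) (z r) (z (r + 1))
        ((Finset.card_filter_le _ _).trans hN) (fun i hi => hv i (Finset.mem_filter.1 hi).1)
        (fun j hj => ?_) (hzinv r (by omega)) (hzinv (r + 1) (by omega))
        (hcovc r (by omega)) (fun c hc => henc r (by omega) c hc)
      rw [hzhigh (r + 1) (by omega) j (by omega), hzhigh r (by omega) j (by omega),
        hstep r (fun i => v i j)]
      ring
    classical
    choose ls hls using hchild
    let lf : ℕ → List ι := fun r => if h : r ≤ M' then ls r h else []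
    have hlf : ∀ r ≤ M',
        GoodOrder b v K (2 * cHigh * d + surplus b K) (k + 1) (Jr r) (z r) (z (r + 1)) (lf r) :=
      fun r hr => by simp only [lf, dif_pos hr]; exact hls r hr
    have hmem : ∀ r ≤ M', ∀ i, i ∈ lf r → i ∈ J ∧ g i = r := by
      intro r hr i hi
      have h := List.mem_toFinset.2 hi
      rw [(hlf r hr).2.1] at h
      exact Finset.mem_filter.1 h
    have hpre : ∀ r ≤ M' + 1, ((List.range r).flatMap lf).toFinset = J.filter fun i => g i < r := by
      intro r hr
      induction r with
      | zero => simp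
      | succ r ihr =>
        rw [List.range_succ, List.flatMap_append, List.flatMap_singleton, List.toFinset_append,
          ihr (by omega), (hlf r (by omega)).2.1, ← Finset.filter_or]
        exact Finset.filter_congr fun i _ => by omega
    refine ⟨(List.range (M' + 1)).flatMap lf, ?_, ?_, fun n hn => ?_⟩
    · rw [List.nodup_flatMap]
      refine ⟨fun r hr => ?_, ?_⟩
      · have := List.mem_range.1 hr
        exact (hlf r (by omega)).1
      · refine List.Pairwise.imp_of_mem ?_ List.nodup_range
        intro r s hr hs hne i hi hi'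
        rw [List.mem_range] at hr hs
        exact hne ((hmem r (by omega) i hi).2.symm.trans (hmem s (by omega) i hi').2)
    · rw [hpre (M' + 1) le_rfl]
      exact Finset.filter_true_of_mem hg
    obtain ⟨r, hr, n', hn', heq⟩ := take_flatMap_range lf M' n hn
    rw [heq, hpre r (by omega)]
    obtain ⟨l, hl⟩ : ∃ l, l = ((lf r).take n').toFinset := ⟨_, rfl⟩
    obtain ⟨t', z', ht0, ht1, hzint, hzsq, hlowres, hhighres⟩ := (hlf r hr).2.2 n' hn'
    rw [← hl] at hlowres hhighres ⊢
    have hlsub : l ⊆ Jr r := by
      intro i hi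
      rw [hl, List.mem_toFinset] at hi
      rw [← (hlf r hr).2.1, List.mem_toFinset]
      exact List.mem_of_mem_take hi
    have hdisj : Disjoint (J.filter fun i => g i < r) l := by
      rw [Finset.disjoint_left]
      intro i hi hi'
      have := (Finset.mem_filter.1 hi).2
      have := (Finset.mem_filter.1 (hlsub hi')).2
      omega
    obtain ⟨t, ht⟩ : ∃ t : ℝ, t = ((r : ℝ) + t') / ((M' : ℝ) + 1) := ⟨_, rfl⟩
    refine ⟨t, z', ?_, ?_, fun j hj => ?_, hzsq, fun c hc => ?_, fun c hc => ?_⟩
    · rw [ht]; positivity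
    · rw [ht, div_le_one (by positivity)]
      have : (r : ℝ) ≤ M' := by exact_mod_cast hr
      linarith
    · rw [hzint j (by omega), hzlow r (by omega) j hj, hzlow (r + 1) (by omega) j hj, ht]
      push_cast
      ring
    · obtain ⟨a, ha⟩ : ∃ a, a = k - c := ⟨_, rfl⟩
      have hA := hres r (by omega) c hc
      have hB := hres (r + 1) (by omega) c hc
      rw [hstep r (fun i => smallPart b (k - c) c (v i))] at hB
      have hC := hlowres c (by omega)
      rw [show k + 1 - c = a + 1 by omega] at hC
      rw [← ha] at hA hB ⊢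
      have hann := annulus_le (b := b) (v := v) a c (Jr r)
        (fun i hi => hv i (Finset.mem_filter.1 hi).1) (ha ▸ hgrpE r (by omega) c hc)
      rw [Finset.sum_union hdisj]
      let S : EuclideanSpace ℝ (Fin d) := ∑ i ∈ J, smallPart b a c (v i)
      let F : EuclideanSpace ℝ (Fin d) := ∑ i ∈ J.filter (fun i => g i < r), smallPart b a c (v i)
      let G : EuclideanSpace ℝ (Fin d) := ∑ i ∈ Jr r, smallPart b a c (v i)
      let D : ι → EuclideanSpace ℝ (Fin d) := fun i =>
        smallPart b a c (v i) - smallPart b (a + 1) c (v i)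
      push_cast at hB
      have hdec : F + ∑ i ∈ l, smallPart b a c (v i) - t • S
          = (F - ((r : ℝ) / ((M' : ℝ) + 1)) • S)
            + t' • ((F + G - (((r : ℝ) + 1) / ((M' : ℝ) + 1)) • S)
              - (F - ((r : ℝ) / ((M' : ℝ) + 1)) • S))
            + (∑ i ∈ l, D i - t' • ∑ i ∈ Jr r, D i)
            + (∑ i ∈ l, smallPart b (a + 1) c (v i)
                - t' • ∑ i ∈ Jr r, smallPart b (a + 1) c (v i)) := by
        simp only [D, Finset.sum_sub_distrib, ht, G, add_div]
        module
      have hDsum : ‖∑ i ∈ l, D i - t' • ∑ i ∈ Jr r, D i‖ ≤ 2 * annBd b c a := by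
        refine (norm_sub_le _ _).trans ?_
        rw [norm_smul, Real.norm_eq_abs, abs_of_nonneg ht0, two_mul]
        refine add_le_add ((norm_sum_le _ _).trans ((Finset.sum_le_sum_of_subset_of_nonneg hlsub
          fun i _ _ => norm_nonneg _).trans hann)) ?_
        exact (mul_le_of_le_one_left (norm_nonneg _) ht1).trans ((norm_sum_le _ _).trans hann)
      have hmid : ‖t' • ((F + G - (((r : ℝ) + 1) / ((M' : ℝ) + 1)) • S)
              - (F - ((r : ℝ) / ((M' : ℝ) + 1)) • S))‖ ≤ devBd b c a + devBd b c a := by
        rw [norm_smul, Real.norm_eq_abs, abs_of_nonneg ht0]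
        exact (mul_le_of_le_one_left (norm_nonneg _) ht1).trans
          ((norm_sub_le _ _).trans (add_le_add hB hA))
      have hresrec : resBd b K c a = 3 * devBd b c a + 2 * annBd b c a + resBd b K c (a + 1) := by
        rw [resBd, resBd, Finset.sum_eq_sum_Ico_succ_bot (show a < K - c by omega)]
        ring
      show ‖F + ∑ i ∈ l, smallPart b a c (v i) - t • S‖ ≤ _
      rw [hdec, hresrec]
      refine ((norm_add_le _ _).trans (add_le_add ((norm_add₃_le).trans
        (add_le_add (add_le_add hA hmid) hDsum)) hC)).trans ?_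
      linarith
    · have hval : cvec b c (fun j => P j
          + ∑ i ∈ J.filter (fun i => g i < r) ∪ l, v i j - z' j)
          = cvec b c (fun j => z r j + ∑ i ∈ l, v i j - z' j) := by
        ext j
        simp only [cvec]
        split_ifs with hj
        · rw [Finset.sum_union hdisj, hzhigh r (by omega) j (by omega)]
          ring
        · rfl
      rw [hval]
      rcases eq_or_lt_of_le (Nat.succ_le_of_lt hc) with h | h
      · subst h
        have hC := hlowres (k + 1) le_rfl
        rw [Nat.sub_self] at hC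
        refine le_trans (le_of_eq (congrArg _ ?_)) hC
        have hsm : ∀ i ∈ Jr r, smallPart b 0 (k + 1) (v i) = cvec b (k + 1) (v i) := fun i hi => by
          rw [smallPart, smallInd_of_le_two b (by norm_num) _
            (hv i (Finset.mem_filter.1 hi).1), one_smul]
        rw [Finset.sum_congr rfl fun i hi => hsm i (hlsub hi), Finset.sum_congr rfl hsm]
        ext j
        simp only [cvec, PiLp.sub_apply, PiLp.smul_apply, WithLp.ofLp_sum, Finset.sum_apply,
          smul_eq_mul]
        by_cases hj : coh b j = k + 1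
        · simp only [hj, if_true]
          rw [hzint j (by omega), hzhigh (r + 1) (by omega) j (by omega),
            hstep r (fun i => v i j), hzhigh r (by omega) j (by omega)]
          ring
        · simp [hj]
      · exact hhighres c h

end Vale.Agent.P262
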